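import Vale.Agent.P159.H37.Spec0L

/-!
P159 / H708: Gaussian integration by parts (Stein) for functions of exponential growth, and the
ray derivative: BUMP of NOTE 3.
-/

namespace Vale.Agent.P159.H708

open MeasureTheory ProbabilityTheory Finset Matrix
open Vale.Agent.P159.H37

noncomputable section

variable {I : Type*} [Fintype I]

lemma egr_integrable {F : (I → ℝ) → ℝ} (hF : EGr F) : Integrable F (gau I) := by
  obtain ⟨C, hC, h⟩ := hF.bdd
  exact ((integrable_exp_norm (I := I) C).const_mul C).mono' hF.meas.aestronglyMeasurable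
    (Filter.Eventually.of_forall fun g => by rw [Real.norm_eq_abs]; exact h g)

lemma egr_co (i : I) : EGr fun g : I → ℝ => g i := by
  refine EGr.mk' (measurable_pi_apply i) (A := 1) (B := 1) fun g => ?_
  have h1 : |g i| ≤ ∑ x, |g x| :=
    Finset.single_le_sum (f := fun x => |g x|) (fun _ _ => abs_nonneg _) (Finset.mem_univ i)
  rw [one_mul, one_mul]
  linarith [Real.add_one_le_exp (∑ x, |g x|)]

/-- directional derivative of a function on `I → ℝ` along `v`, at every point -/
def DirD (F F' : (I → ℝ) → ℝ) (v : I → ℝ) : Prop :=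
  ∀ g, HasDerivAt (fun s : ℝ => F (g + s • v)) (F' g) 0

omit [Fintype I] in
lemma DirD.at {F F' : (I → ℝ) → ℝ} {v : I → ℝ} (h : DirD F F' v) (g : I → ℝ) (s : ℝ) :
    HasDerivAt (fun s : ℝ => F (g + s • v)) (F' (g + s • v)) s := by
  have h1 := h (g + s • v)
  have h2 : HasDerivAt (fun r : ℝ => r - s) 1 s := (hasDerivAt_id s).sub_const s
  have h3 : HasDerivAt (fun r : ℝ => F (g + s • v + (r - s) • v)) (F' (g + s • v) * 1) s := by
    have h0 : s - s = 0 := sub_self s
    have h1' : HasDerivAt (fun r : ℝ => F (g + s • v + r • v)) (F' (g + s • v)) (s - s) := by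
      rw [h0]; exact h1
    exact HasDerivAt.comp (h := fun r : ℝ => r - s) s h1' h2
  rw [mul_one] at h3
  refine h3.congr_of_eventuallyEq (Filter.Eventually.of_forall fun r => ?_)
  simp only
  congr 1
  rw [add_assoc, ← add_smul]
  congr 2
  ring

/-- **Stein**, functions of exponential growth -/
theorem stein {F F' : (I → ℝ) → ℝ} (hF : EGr F) (hF' : EGr F') (v : I → ℝ)
    (hd : DirD F F' v) :
    ∫ g, (∑ i, v i * g i) * F g ∂(gau I) = ∫ g, F' g ∂(gau I) := by
  obtain ⟨C, hC, hb⟩ := hF.bdd
  obtain ⟨C', hC', hb'⟩ := hF'.bdd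
  set nv : ℝ := ∑ i, |v i| with hnv
  have nv0 : 0 ≤ nv := Finset.sum_nonneg fun _ _ => abs_nonneg _
  have hshift : ∀ (g : I → ℝ) (s : ℝ), |s| ≤ 1 → ∑ x, |(g + s • v) x| ≤ ∑ x, |g x| + nv := by
    intro g s hs
    rw [hnv, ← Finset.sum_add_distrib]
    refine Finset.sum_le_sum fun x _ => ?_
    rw [Pi.add_apply, Pi.smul_apply, smul_eq_mul]
    refine (abs_add_le _ _).trans (add_le_add le_rfl ?_)
    rw [abs_mul]
    exact mul_le_of_le_one_left (abs_nonneg _) hs
  have hlin : ∀ g : I → ℝ, |∑ i, v i * g i| ≤ nv * ∑ i, |g i| := by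
    intro g
    rw [Finset.sum_mul]
    refine (Finset.abs_sum_le_sum_abs _ _).trans (Finset.sum_le_sum fun i _ => ?_)
    rw [abs_mul]
    exact mul_le_mul_of_nonneg_left
      (Finset.single_le_sum (f := fun i => |g i|) (fun _ _ => abs_nonneg _) (Finset.mem_univ i))
      (abs_nonneg _)
  -- first form of the derivative
  have h1 : HasDerivAt (fun s : ℝ => ∫ g, F (g + s • v) ∂(gau I)) (∫ g, F' g ∂(gau I)) 0 := by
    have h := hasDerivAt_integral_of_dominated_loc_of_deriv_le (μ := gau I) (𝕜 := ℝ)
      (F := fun (s : ℝ) g => F (g + s • v)) (F' := fun (s : ℝ) g => F' (g + s • v))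
      (x₀ := (0 : ℝ)) (s := Metric.ball 0 1)
      (bound := fun g => C' * Real.exp (C' * nv) * Real.exp (C' * ∑ i, |g i|))
      (Metric.ball_mem_nhds 0 one_pos)
      (Filter.Eventually.of_forall fun s =>
        (hF.meas.comp (measurable_add_const _)).aestronglyMeasurable)
      (by simpa using egr_integrable hF)
      ((hF'.meas.comp (measurable_add_const _)).aestronglyMeasurable)
      (Filter.Eventually.of_forall fun g s hs => ?_)
      ((integrable_exp_norm (I := I) C').const_mul _)
      (Filter.Eventually.of_forall fun g s _ => hd.at g s)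
    · simpa using h.2
    · rw [Metric.mem_ball, dist_zero_right, Real.norm_eq_abs] at hs
      rw [Real.norm_eq_abs]
      refine (hb' _).trans ?_
      rw [mul_assoc, ← Real.exp_add]
      refine mul_le_mul_of_nonneg_left (Real.exp_le_exp.2 ?_) hC'
      have := mul_le_mul_of_nonneg_left (hshift g s hs.le) hC'
      linarith
  -- second form
  have h2 : HasDerivAt (fun s : ℝ => ∫ g, F (g + s • v) ∂(gau I))
      (∫ g, (∑ i, v i * g i) * F g ∂(gau I)) 0 := by
    set q : ℝ := ∑ i, v i ^ 2 with hq
    have q0 : 0 ≤ q := Finset.sum_nonneg fun _ _ => sq_nonneg _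
    have e : ∀ s : ℝ, ∫ g, F (g + s • v) ∂(gau I) =
        ∫ g, Real.exp (s * (∑ i, v i * g i) - s ^ 2 * q / 2) * F g ∂(gau I) := by
      intro s
      rw [gau_shift]
      refine integral_congr_ae (Filter.Eventually.of_forall fun g => ?_)
      simp only [Pi.smul_apply, smul_eq_mul]
      have a1 : ∑ i, s * v i * g i = s * ∑ i, v i * g i := by
        rw [Finset.mul_sum]
        exact Finset.sum_congr rfl fun i _ => by ring
      have a2 : ∑ i, (s * v i) ^ 2 = s ^ 2 * q := by
        rw [hq, Finset.mul_sum]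
        exact Finset.sum_congr rfl fun i _ => by ring
      rw [a1, a2]
    simp only [e]
    have h := hasDerivAt_integral_of_dominated_loc_of_deriv_le (μ := gau I) (𝕜 := ℝ)
      (F := fun (s : ℝ) g => Real.exp (s * (∑ i, v i * g i) - s ^ 2 * q / 2) * F g)
      (F' := fun (s : ℝ) g => (((∑ i, v i * g i) - s * q) *
        Real.exp (s * (∑ i, v i * g i) - s ^ 2 * q / 2)) * F g)
      (x₀ := (0 : ℝ)) (s := Metric.ball 0 1)
      (bound := fun g => C * Real.exp q * Real.exp ((2 * nv + C) * ∑ i, |g i|))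
      (Metric.ball_mem_nhds 0 one_pos)
      (Filter.Eventually.of_forall fun s => ?_) ?_ ?_
      (Filter.Eventually.of_forall fun g s hs => ?_)
      ((integrable_exp_norm (I := I) _).const_mul _)
      (Filter.Eventually.of_forall fun g s _ => ?_)
    · have h3 := h.2
      have e3 : (fun g : I → ℝ => (((∑ i, v i * g i) - 0 * q) *
          Real.exp (0 * (∑ i, v i * g i) - 0 ^ 2 * q / 2)) * F g) =
          fun g => (∑ i, v i * g i) * F g := by
        funext g
        simp
      rw [e3] at h3
      exact h3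
    · exact (Measurable.mul (by fun_prop) hF.meas).aestronglyMeasurable
    · simpa using egr_integrable hF
    · exact (Measurable.mul (by fun_prop) hF.meas).aestronglyMeasurable
    · rw [Metric.mem_ball, dist_zero_right, Real.norm_eq_abs] at hs
      rw [Real.norm_eq_abs, abs_mul, abs_mul, abs_of_pos (Real.exp_pos _)]
      have s1 : |s| ≤ 1 := hs.le
      have g0 : 0 ≤ ∑ i, |g i| := Finset.sum_nonneg fun _ _ => abs_nonneg _
      have b1 : |(∑ i, v i * g i) - s * q| ≤ Real.exp (nv * (∑ i, |g i|) + q) := by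
        have := hlin g
        have hsq : |s * q| ≤ q := by
          rw [abs_mul, abs_of_nonneg q0]
          exact mul_le_of_le_one_left q0 s1
        have h4 := abs_sub (∑ i, v i * g i) (s * q)
        have h5 := Real.add_one_le_exp (nv * (∑ i, |g i|) + q)
        linarith
      have b2 : Real.exp (s * (∑ i, v i * g i) - s ^ 2 * q / 2) ≤
          Real.exp (nv * ∑ i, |g i|) := by
        refine Real.exp_le_exp.2 ?_
        have h6 : s * (∑ i, v i * g i) ≤ nv * ∑ i, |g i| := by
          refine (le_abs_self _).trans ?_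
          rw [abs_mul]
          exact (mul_le_of_le_one_left (abs_nonneg _) s1).trans (hlin g)
        have h7 : 0 ≤ s ^ 2 * q / 2 := by positivity
        linarith
      calc |(∑ i, v i * g i) - s * q| * Real.exp (s * (∑ i, v i * g i) - s ^ 2 * q / 2) * |F g|
          ≤ Real.exp (nv * (∑ i, |g i|) + q) * Real.exp (nv * ∑ i, |g i|) *
            (C * Real.exp (C * ∑ i, |g i|)) :=
            mul_le_mul (mul_le_mul b1 b2 (Real.exp_pos _).le (Real.exp_pos _).le) (hb g)
              (abs_nonneg _) (by positivity)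
        _ = C * Real.exp q * Real.exp ((2 * nv + C) * ∑ i, |g i|) := by
            rw [add_mul, Real.exp_add, Real.exp_add, two_mul nv, add_mul, Real.exp_add]
            ring
    · have h8 : HasDerivAt (fun s : ℝ => s * (∑ i, v i * g i) - s ^ 2 * q / 2)
          ((∑ i, v i * g i) - s * q) s := by
        have a := (hasDerivAt_id s).mul_const (∑ i, v i * g i)
        have b := ((hasDerivAt_pow 2 s).mul_const q).div_const 2
        refine (a.sub b).congr_deriv ?_
        push_cast
        ring
      have h9 := (h8.exp).mul_const (F g)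
      refine h9.congr_deriv ?_
      ring
  exact h2.unique h1

/-- second order: `E [ (<v,g>^2 - |v|^2) F ] = E F''[v,v]` -/
theorem stein2 {F F' F'' : (I → ℝ) → ℝ} (hF : EGr F) (hF' : EGr F') (hF'' : EGr F'')
    (v : I → ℝ) (h1 : DirD F F' v) (h2 : DirD F' F'' v) :
    ∫ g, ((∑ i, v i * g i) ^ 2 - ∑ i, v i ^ 2) * F g ∂(gau I) = ∫ g, F'' g ∂(gau I) := by
  have hl : EGr fun g : I → ℝ => ∑ i, v i * g i := by
    refine ⟨by fun_prop, ∑ i, |v i| + 1, by positivity, fun g => ?_⟩
    have g0 : 0 ≤ ∑ i, |g i| := Finset.sum_nonneg fun _ _ => abs_nonneg _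
    have n0 : 0 ≤ ∑ i, |v i| := Finset.sum_nonneg fun _ _ => abs_nonneg _
    have h3 : |∑ i, v i * g i| ≤ (∑ i, |v i|) * ∑ i, |g i| := by
      rw [Finset.sum_mul]
      refine (Finset.abs_sum_le_sum_abs _ _).trans (Finset.sum_le_sum fun i _ => ?_)
      rw [abs_mul]
      exact mul_le_mul_of_nonneg_left
        (Finset.single_le_sum (f := fun i => |g i|) (fun _ _ => abs_nonneg _)
          (Finset.mem_univ i)) (abs_nonneg _)
    refine h3.trans ?_
    have h4 : ∑ i, |g i| ≤ Real.exp ((∑ i, |v i| + 1) * ∑ i, |g i|) := by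
      have := Real.add_one_le_exp ((∑ i, |v i| + 1) * ∑ i, |g i|)
      nlinarith [mul_nonneg n0 g0]
    exact mul_le_mul (by linarith) h4 g0 (by positivity)
  -- `G = <v,g> F`
  have hG : EGr fun g : I → ℝ => (∑ i, v i * g i) * F g := hl.mul hF
  have hG' : EGr fun g : I → ℝ => (∑ i, v i ^ 2) * F g + (∑ i, v i * g i) * F' g :=
    (hF.cmul _).add (hl.mul hF')
  have hdG : DirD (fun g : I → ℝ => (∑ i, v i * g i) * F g)
      (fun g => (∑ i, v i ^ 2) * F g + (∑ i, v i * g i) * F' g) v := by
    intro g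
    have a1 : HasDerivAt (fun s : ℝ => ∑ i, v i * (g + s • v) i) (∑ i, v i ^ 2) 0 := by
      refine HasDerivAt.fun_sum fun i _ => ?_
      have : HasDerivAt (fun s : ℝ => (g + s • v) i) (v i) 0 := by
        simpa using ((hasDerivAt_id (0 : ℝ)).mul_const (v i)).const_add (g i)
      refine (this.const_mul (v i)).congr_deriv ?_
      ring
    have a2 := a1.mul (h1 g)
    refine a2.congr_deriv ?_
    simp
  have s1 := stein hG hG' v hdG
  have s2 := stein hF' hF'' v h2
  have i1 : Integrable (fun g : I → ℝ => (∑ i, v i ^ 2) * F g) (gau I) :=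
    egr_integrable (hF.cmul _)
  have i2 : Integrable (fun g : I → ℝ => (∑ i, v i * g i) * F' g) (gau I) :=
    egr_integrable (hl.mul hF')
  have i3 : Integrable (fun g : I → ℝ => (∑ i, v i * g i) * ((∑ i, v i * g i) * F g)) (gau I) :=
    egr_integrable (hl.mul hG)
  rw [integral_add i1 i2, s2] at s1
  have e : (fun g : I → ℝ => ((∑ i, v i * g i) ^ 2 - ∑ i, v i ^ 2) * F g) =
      fun g => (∑ i, v i * g i) * ((∑ i, v i * g i) * F g) - (∑ i, v i ^ 2) * F g := by
    funext g
    ring
  rw [e, integral_sub i3 i1, s1]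
  ring

end

end Vale.Agent.P159.H708
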