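import Vale.Agent.P159.H363.Vb8
import Vale.Agent.P159.H864.Cel3

/-!
P159 / H708: THE GAUSSIAN FACTS OF THE COARSE GRAINING MAP (module VB6, part (Q0)), identities.

`N` = number of fine cells per side, `ρ ∣ N`. `lfM` = lift of a coarse field (constant on
cells), `avM` = average over cells. For a form `A` with kernel = constants:
* `pI A` pseudo-inverse (covariance of the typical field), `Kc ρ A = avM (pI A) avMᵀ`,
* `Ac ρ A = pI (Kc ρ A)` precision of the average, `m2 ρ A` conditional mean, `Sg ρ A` conditional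
  covariance of the fine field given its average.
* `nf_Ac`, `av_m2`, `m2_one`, `A_m2`, `S_m2`, `m2_Kc`, `av_Sg`, `Sg_A_Sg`, `Sg_nonneg`,
  `law_cov`, `law_coarse`, coarse translation invariance.
-/

set_option linter.unusedSectionVars false

namespace Vale.Agent.P159.H708

open Finset Matrix MeasureTheory
open Vale.Agent.P159.TM.H764 (EE cN sN dt)
open Vale.Agent.P159.TM.Spec (V)
open Vale.Agent.P159.H37 (qf gau bf cellP)
open Vale.Agent.P159.H864 (TI CT sym fc mlt cobV cl up Gc Wl als rd)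
open Vale.Agent.P159.H363 (pin Nf)
open Vale.Agent.P159.H462 (Dom avgM ti_avgM sym_avgM)

noncomputable section

/-! ### pseudo-inverse -/

section pinv

variable {N : ℕ} [NeZero N] {A : Matrix (V N) (V N) ℝ}

/-- the pseudo-inverse of a translation invariant matrix -/
def pI (A : Matrix (V N) (V N) ℝ) : Matrix (V N) (V N) ℝ := fc (fun x => x⁻¹) A

lemma ti_pI (A : Matrix (V N) (V N) ℝ) : TI (pI A) := H864.ti_fc _ _

lemma sym_pI (A : Matrix (V N) (V N) ℝ) (k : V N) : sym (pI A) k = (sym A k)⁻¹ :=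
  H864.sym_fc _ _ _

lemma pI_tr (A : Matrix (V N) (V N) ℝ) : (pI A)ᵀ = pI A := (ti_pI A).transpose

lemma nf_pI (h : Nf A) : Nf (pI A) where
  ti := ti_pI A
  pos := fun k hk => by rw [sym_pI]; exact inv_pos.2 (h.pos k hk)
  zero := by rw [sym_pI, h.zero, _root_.inv_zero]

lemma pI_pI (h : Nf A) : pI (pI A) = A := by
  refine H864.sym_inj (ti_pI _) h.ti fun k => ?_
  rw [sym_pI, sym_pI, inv_inv]

lemma mul_pI (h : Nf A) : A * pI A = 1 - avgM N := by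
  refine H864.sym_inj (h.ti.mul (ti_pI A)) (H864.TI.one.sub ti_avgM) fun k => ?_
  rw [H864.sym_mul h.ti (ti_pI A), sym_pI, H864.sym_sub, H864.sym_one, sym_avgM]
  by_cases hk : k = 0
  · rw [if_pos hk, hk, h.zero]; simp
  · rw [if_neg hk, mul_inv_cancel₀ (h.pos k hk).ne', sub_zero]

lemma pI_mul (h : Nf A) : pI A * A = 1 - avgM N := by
  rw [(ti_pI A).comm h.ti, mul_pI h]

lemma pI_eq_pin (h : Nf A) : pin A * (pin A)ᵀ = pI A := H363.pin_mul h.ti h.nn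

/-- rows of a matrix which kills the constants -/
lemma row_of_zero (h : TI A) (h0 : sym A 0 = 0) (x : V N) : ∑ y, A x y = 0 := by
  have h1 : ∑ y, A x y = ∑ z, A 0 z := by
    rw [← Equiv.sum_comp (Equiv.addRight x)]
    refine Finset.sum_congr rfl fun z _ => ?_
    have := h.tr x 0 z
    rw [zero_add] at this
    exact this
  rw [h1]
  have h2 := H864.sym_def A 0
  rw [h0] at h2
  have h3 : ∀ z : V N, cN (dt (0 : V N) z) = 1 := by
    intro z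
    rw [H864.dt_zero_left]
    exact TM.H764.cN_zero
  simp only [h3, mul_one] at h2
  exact h2.symm

lemma col_of_zero (h : TI A) (h0 : sym A 0 = 0) (y : V N) : ∑ x, A x y = 0 := by
  rw [← row_of_zero h h0 y]
  exact Finset.sum_congr rfl fun x _ => h.sy x y

end pinv


/-! ### lift and average -/

section lift

variable {N ρ : ℕ} [NeZero N] [NeZero (N / ρ)] {A : Matrix (V N) (V N) ℝ}

/-- lift of a coarse field: constant on the cells -/
def lfM (N ρ : ℕ) [NeZero N] [NeZero (N / ρ)] : Matrix (V N) (V (N / ρ)) ℝ :=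
  (ρ : ℝ) • (cobV N ρ)ᵀ

/-- average over the cells -/
def avM (N ρ : ℕ) [NeZero N] [NeZero (N / ρ)] : Matrix (V (N / ρ)) (V N) ℝ :=
  (ρ : ℝ)⁻¹ • cobV N ρ

lemma rho_pos (hρ : ρ ∣ N) : (0 : ℝ) < ρ := by exact_mod_cast H864.l_pos hρ

lemma lf_apply (hρ : ρ ∣ N) (x : V N) (X : V (N / ρ)) : lfM N ρ x X = if cl x = X then 1 else 0 := by
  have h := rho_pos hρ
  unfold lfM
  rw [Matrix.smul_apply, Matrix.transpose_apply, H864.cobV_apply, smul_eq_mul]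
  split_ifs
  · exact mul_inv_cancel₀ h.ne'
  · rw [mul_zero]

lemma lf_mulVec (hρ : ρ ∣ N) (f : V (N / ρ) → ℝ) (x : V N) : (lfM N ρ *ᵥ f) x = f (cl x) := by
  unfold Matrix.mulVec dotProduct
  simp only [lf_apply hρ, ite_mul, one_mul, zero_mul]
  rw [Finset.sum_ite_eq]
  simp

lemma av_apply (X : V (N / ρ)) (x : V N) :
    avM N ρ X x = if cl x = X then ((ρ : ℝ) ^ 2)⁻¹ else 0 := by
  unfold avM
  rw [Matrix.smul_apply, H864.cobV_apply, smul_eq_mul]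
  split_ifs
  · rw [pow_two, mul_inv]
  · rw [mul_zero]

lemma avT_eq (hρ : ρ ∣ N) : (avM N ρ)ᵀ = ((ρ : ℝ) ^ 2)⁻¹ • lfM N ρ := by
  have h := rho_pos hρ
  unfold avM lfM
  rw [Matrix.transpose_smul, smul_smul]
  congr 1
  field_simp

lemma av_lf (hρ : ρ ∣ N) : avM N ρ * lfM N ρ = 1 := by
  have h := rho_pos hρ
  unfold avM lfM
  rw [Matrix.smul_mul, Matrix.mul_smul, smul_smul, H864.cobV_mul_tr hρ, inv_mul_cancel₀ h.ne',
    one_smul]

lemma lf_av (hρ : ρ ∣ N) : lfM N ρ * avM N ρ = cellP N ρ := by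
  have h := rho_pos hρ
  unfold avM lfM
  rw [Matrix.smul_mul, Matrix.mul_smul, smul_smul, H864.cellP_eq hρ, mul_inv_cancel₀ h.ne',
    one_smul]

lemma card_real (n : ℕ) [NeZero n] : (Fintype.card (V n) : ℝ) = (n : ℝ) ^ 2 := TM.H764.card_V

lemma Nρ (hρ : ρ ∣ N) : ((N / ρ : ℕ) : ℝ) * ρ = N := H864.Nl hρ

lemma avgM_mul (N : ℕ) [NeZero N] {I : Type*} (M : Matrix (V N) I ℝ) (x : V N) (i : I) :
    (avgM N * M) x i = ((N : ℝ) ^ 2)⁻¹ * ∑ y, M y i := by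
  rw [Matrix.mul_apply, Finset.mul_sum]
  rfl

lemma mul_avgM (N : ℕ) [NeZero N] {I : Type*} (M : Matrix I (V N) ℝ) (x : V N) (i : I) :
    (M * avgM N) i x = (∑ y, M i y) * ((N : ℝ) ^ 2)⁻¹ := by
  rw [Matrix.mul_apply, Finset.sum_mul]
  rfl

lemma avgM_tr (N : ℕ) [NeZero N] : (avgM N)ᵀ = avgM N := ti_avgM.transpose

lemma row_lf (hρ : ρ ∣ N) (x : V N) : ∑ X, lfM N ρ x X = 1 := by
  simp only [lf_apply hρ]
  rw [Finset.sum_ite_eq]
  simp

lemma row_av (hρ : ρ ∣ N) (X : V (N / ρ)) : ∑ x, avM N ρ X x = 1 := by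
  have h := rho_pos hρ
  simp only [av_apply]
  rw [← Finset.sum_filter, Finset.sum_const, nsmul_eq_mul, H864.card_cell hρ,
    mul_inv_cancel₀ (by positivity)]

lemma col_av (x : V N) : ∑ X, avM N ρ X x = ((ρ : ℝ) ^ 2)⁻¹ := by
  simp only [av_apply]
  rw [Finset.sum_ite_eq]
  simp

lemma mul_lf_avgM (hρ : ρ ∣ N) {I : Type*} (M : Matrix I (V N) ℝ) (h : ∀ i, ∑ y, M i y = 0) :
    M * (lfM N ρ * avgM (N / ρ)) = 0 := by
  ext i X
  rw [Matrix.mul_apply]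
  have e : ∀ y : V N, (lfM N ρ * avgM (N / ρ)) y X = (((N / ρ : ℕ) : ℝ) ^ 2)⁻¹ := by
    intro y
    rw [mul_avgM, row_lf hρ, one_mul]
  simp only [e]
  rw [← Finset.sum_mul, h, zero_mul]
  rfl

lemma mul_avT_avgM (hρ : ρ ∣ N) {I : Type*} (M : Matrix I (V N) ℝ) (h : ∀ i, ∑ y, M i y = 0) :
    M * ((avM N ρ)ᵀ * avgM (N / ρ)) = 0 := by
  rw [avT_eq hρ, Matrix.smul_mul, Matrix.mul_smul, mul_lf_avgM hρ M h, smul_zero]

lemma avgM_avT (hρ : ρ ∣ N) {I : Type*} (M : Matrix (V (N / ρ)) I ℝ) (h : ∀ i, ∑ y, M y i = 0) :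
    avgM N * ((avM N ρ)ᵀ * M) = 0 := by
  ext x i
  rw [avgM_mul]
  have e : ∑ y : V N, ((avM N ρ)ᵀ * M) y i = 0 := by
    simp only [Matrix.mul_apply, Matrix.transpose_apply]
    rw [Finset.sum_comm]
    have e1 : ∀ X, ∑ y : V N, avM N ρ X y * M X i = M X i := by
      intro X
      rw [← Finset.sum_mul, row_av hρ, one_mul]
    simp only [e1]
    exact h i
  rw [e, mul_zero]
  rfl

end lift

/-! ### the coarse form, conditional mean and covariance -/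

section coarse

variable {N ρ : ℕ} [NeZero N] [NeZero (N / ρ)] {A : Matrix (V N) (V N) ℝ}

/-- covariance of the averages -/
def Kc (ρ : ℕ) [NeZero (N / ρ)] (A : Matrix (V N) (V N) ℝ) :
    Matrix (V (N / ρ)) (V (N / ρ)) ℝ := avM N ρ * pI A * (avM N ρ)ᵀ

/-- precision of the averages -/
def Ac (ρ : ℕ) [NeZero (N / ρ)] (A : Matrix (V N) (V N) ℝ) :
    Matrix (V (N / ρ)) (V (N / ρ)) ℝ := pI (Kc ρ A)

/-- conditional mean of the fine field given its averages -/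
def m2 (ρ : ℕ) [NeZero (N / ρ)] (A : Matrix (V N) (V N) ℝ) : Matrix (V N) (V (N / ρ)) ℝ :=
  lfM N ρ * avgM (N / ρ) + pI A * (avM N ρ)ᵀ * Ac ρ A

/-- conditional covariance of the fine field given its averages -/
def Sg (ρ : ℕ) [NeZero (N / ρ)] (A : Matrix (V N) (V N) ℝ) : Matrix (V N) (V N) ℝ :=
  pI A - m2 ρ A * Kc ρ A * (m2 ρ A)ᵀ

lemma Kc_eq (A : Matrix (V N) (V N) ℝ) : Kc ρ A = ((ρ : ℝ) ^ 2)⁻¹ • Gc ρ (pI A) := by
  unfold Kc avM Gc
  rw [Matrix.transpose_smul, Matrix.smul_mul, Matrix.smul_mul, Matrix.mul_smul, smul_smul,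
    pow_two, mul_inv]

lemma ti_Kc (hρ : ρ ∣ N) (A : Matrix (V N) (V N) ℝ) : TI (Kc ρ A) := by
  rw [Kc_eq]
  exact (H864.ti_Gc hρ (ti_pI A).ct).smul _

lemma sym_Kc (hρ : ρ ∣ N) (A : Matrix (V N) (V N) ℝ) (k : V (N / ρ)) :
    sym (Kc ρ A) k = ((ρ : ℝ) ^ 2)⁻¹ * als ρ (fun p => (sym A p)⁻¹) k := by
  rw [Kc_eq, H864.sym_smul, H864.sym_Gc hρ (ti_pI A)]
  congr 2
  funext p
  exact sym_pI A p

lemma sym_zero_of_row {n : ℕ} [NeZero n] {B : Matrix (V n) (V n) ℝ}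
    (hr : ∀ x, ∑ y, B x y = 0) : sym B 0 = 0 := by
  have h2 := H864.sym_def B 0
  have h3 : ∀ z : V n, cN (dt (0 : V n) z) = 1 := by
    intro z
    rw [H864.dt_zero_left]
    exact TM.H764.cN_zero
  simp only [h3, mul_one] at h2
  rw [h2, hr]

lemma row_pI (h : Nf A) (x : V N) : ∑ y, pI A x y = 0 :=
  row_of_zero (ti_pI A) (nf_pI h).zero x

lemma sym_Kc_zero (hρ : ρ ∣ N) (h : Nf A) : sym (Kc ρ A) 0 = 0 := by
  refine sym_zero_of_row fun X => ?_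
  unfold Kc
  simp only [Matrix.mul_apply, Matrix.transpose_apply]
  rw [Finset.sum_comm]
  have e : ∀ y : V N, ∑ Y : V (N / ρ), (∑ j, avM N ρ X j * pI A j y) * avM N ρ Y y
      = (∑ j, avM N ρ X j * pI A j y) * ((ρ : ℝ) ^ 2)⁻¹ := by
    intro y
    rw [← Finset.mul_sum, col_av]
  simp only [e]
  rw [← Finset.sum_mul, Finset.sum_comm]
  have e2 : ∀ j, ∑ y, avM N ρ X j * pI A j y = 0 := by
    intro j
    rw [← Finset.mul_sum, row_pI h, mul_zero]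
  simp only [e2, Finset.sum_const_zero, zero_mul]

lemma als_pos (hρ : ρ ∣ N) {f : V N → ℝ} {k : V (N / ρ)}
    (h : ∀ p, (rd p : V (N / ρ)) = k → 0 < f p) : 0 < als ρ f k := by
  unfold als
  have h1 := H864.sum_Wl hρ k
  by_contra hc
  have h2 : ∀ p ∈ univ.filter (fun p : V N => (rd p : V (N / ρ)) = k), 0 ≤ f p * Wl ρ p := by
    intro p hp
    exact mul_nonneg (h p (Finset.mem_filter.1 hp).2).le (H864.Wl_nonneg p)
  have h3 : ∑ p ∈ univ.filter (fun p : V N => (rd p : V (N / ρ)) = k), f p * Wl ρ p = 0 :=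
    le_antisymm (not_lt.1 hc) (Finset.sum_nonneg h2)
  have h4 : ∀ p ∈ univ.filter (fun p : V N => (rd p : V (N / ρ)) = k), Wl ρ p = 0 := by
    intro p hp
    have h5 := (Finset.sum_eq_zero_iff_of_nonneg h2).1 h3 p hp
    rcases mul_eq_zero.1 h5 with h6 | h6
    · exact absurd h6 (h p (Finset.mem_filter.1 hp).2).ne'
    · exact h6
  rw [Finset.sum_eq_zero h4] at h1
  exact zero_ne_one h1

lemma nf_Kc (hρ : ρ ∣ N) (h : Nf A) : Nf (Kc ρ A) where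
  ti := ti_Kc hρ A
  pos := fun k hk => by
    have hr := rho_pos hρ
    rw [sym_Kc hρ]
    refine mul_pos (by positivity) (als_pos hρ fun p hp => inv_pos.2 (h.pos p ?_))
    rintro rfl
    rw [H864.rd_zero hρ] at hp
    exact hk hp.symm
  zero := sym_Kc_zero hρ h

lemma nf_Ac (hρ : ρ ∣ N) (h : Nf A) : Nf (Ac ρ A) := nf_pI (nf_Kc hρ h)

lemma pI_Ac (hρ : ρ ∣ N) (h : Nf A) : pI (Ac ρ A) = Kc ρ A := pI_pI (nf_Kc hρ h)

lemma Kc_mul_Ac (hρ : ρ ∣ N) (h : Nf A) : Kc ρ A * Ac ρ A = 1 - avgM (N / ρ) :=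
  mul_pI (nf_Kc hρ h)

lemma Ac_mul_Kc (hρ : ρ ∣ N) (h : Nf A) : Ac ρ A * Kc ρ A = 1 - avgM (N / ρ) :=
  pI_mul (nf_Kc hρ h)

lemma Kc_tr (hρ : ρ ∣ N) (A : Matrix (V N) (V N) ℝ) : (Kc ρ A)ᵀ = Kc ρ A := (ti_Kc hρ A).transpose

lemma Ac_tr (ρ : ℕ) [NeZero (N / ρ)] (A : Matrix (V N) (V N) ℝ) : (Ac ρ A)ᵀ = Ac ρ A := pI_tr _

/-- `av m2 = 1` -/
theorem av_m2 (hρ : ρ ∣ N) (h : Nf A) : avM N ρ * m2 ρ A = 1 := by
  have e : avM N ρ * (pI A * (avM N ρ)ᵀ * Ac ρ A) = Kc ρ A * Ac ρ A := by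
    unfold Kc
    simp only [Matrix.mul_assoc]
  unfold m2
  rw [Matrix.mul_add, ← Matrix.mul_assoc, av_lf hρ, Matrix.one_mul, e, Kc_mul_Ac hρ h]
  abel

/-- the rows of `m2` have sum one -/
theorem row_m2 (hρ : ρ ∣ N) (h : Nf A) (x : V N) : ∑ X, m2 ρ A x X = 1 := by
  unfold m2
  simp only [Matrix.add_apply]
  rw [Finset.sum_add_distrib]
  have e1 : ∑ X, (lfM N ρ * avgM (N / ρ)) x X = 1 := by
    simp only [mul_avgM, row_lf hρ, one_mul]
    rw [Finset.sum_const, nsmul_eq_mul]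
    have h1 : ((univ : Finset (V (N / ρ))).card : ℝ) = ((N / ρ : ℕ) : ℝ) ^ 2 := card_real (N / ρ)
    have h2 : (0 : ℝ) < ((N / ρ : ℕ) : ℝ) := by exact_mod_cast NeZero.pos (N / ρ)
    rw [h1, mul_inv_cancel₀ (by positivity)]
  have e2 : ∑ X, (pI A * (avM N ρ)ᵀ * Ac ρ A) x X = 0 := by
    simp only [Matrix.mul_apply]
    rw [Finset.sum_comm]
    refine Finset.sum_eq_zero fun Y _ => ?_
    rw [← Finset.mul_sum, row_of_zero (nf_Ac hρ h).ti (nf_Ac hρ h).zero, mul_zero]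
  rw [e1, e2, add_zero]

/-- `A m2 = avᵀ Ac` -/
theorem A_m2 (hρ : ρ ∣ N) (h : Nf A) : A * m2 ρ A = (avM N ρ)ᵀ * Ac ρ A := by
  unfold m2
  rw [Matrix.mul_add, mul_lf_avgM hρ A (row_of_zero h.ti h.zero), zero_add]
  have e : A * (pI A * (avM N ρ)ᵀ * Ac ρ A) = (A * pI A) * ((avM N ρ)ᵀ * Ac ρ A) := by
    simp only [Matrix.mul_assoc]
  rw [e, mul_pI h, Matrix.sub_mul, Matrix.one_mul,
    avgM_avT hρ _ (col_of_zero (nf_Ac hρ h).ti (nf_Ac hρ h).zero), sub_zero]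

/-- `m2ᵀ A m2 = Ac` -/
theorem m2_A_m2 (hρ : ρ ∣ N) (h : Nf A) : (m2 ρ A)ᵀ * A * m2 ρ A = Ac ρ A := by
  rw [Matrix.mul_assoc, A_m2 hρ h, ← Matrix.mul_assoc, ← Matrix.transpose_mul, av_m2 hρ h,
    Matrix.transpose_one, Matrix.one_mul]

/-- `m2 Kc = (pI A) avᵀ` -/
theorem m2_Kc (hρ : ρ ∣ N) (h : Nf A) : m2 ρ A * Kc ρ A = pI A * (avM N ρ)ᵀ := by
  unfold m2
  rw [Matrix.add_mul]
  have e1 : lfM N ρ * avgM (N / ρ) * Kc ρ A = 0 := by
    rw [Matrix.mul_assoc]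
    have e : avgM (N / ρ) * Kc ρ A = 0 := by
      ext X Y
      rw [avgM_mul, col_of_zero (ti_Kc hρ A) (sym_Kc_zero hρ h), mul_zero]
      rfl
    rw [e, Matrix.mul_zero]
  have e2 : pI A * (avM N ρ)ᵀ * Ac ρ A * Kc ρ A = pI A * (avM N ρ)ᵀ * (Ac ρ A * Kc ρ A) := by
    simp only [Matrix.mul_assoc]
  rw [e1, zero_add, e2, Ac_mul_Kc hρ h, Matrix.mul_sub, Matrix.mul_one, Matrix.mul_assoc _ _ (avgM _),
    mul_avT_avgM hρ _ (row_pI h), sub_zero]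

lemma Sg_eq (hρ : ρ ∣ N) (h : Nf A) : Sg ρ A = pI A - pI A * (avM N ρ)ᵀ * (m2 ρ A)ᵀ := by
  unfold Sg
  rw [m2_Kc hρ h]

lemma Sg_eq' (hρ : ρ ∣ N) (h : Nf A) : Sg ρ A = pI A - m2 ρ A * (avM N ρ * pI A) := by
  unfold Sg
  rw [Matrix.mul_assoc]
  have e : Kc ρ A * (m2 ρ A)ᵀ = avM N ρ * pI A := by
    have h1 := congrArg Matrix.transpose (m2_Kc hρ h)
    rw [Matrix.transpose_mul, Matrix.transpose_mul, Matrix.transpose_transpose, Kc_tr hρ, pI_tr] at h1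
    exact h1
  rw [e]

lemma Sg_tr (hρ : ρ ∣ N) (h : Nf A) : (Sg ρ A)ᵀ = Sg ρ A := by
  rw [Sg_eq hρ h, Matrix.transpose_sub, Matrix.transpose_mul, Matrix.transpose_mul,
    Matrix.transpose_transpose, Matrix.transpose_transpose, pI_tr, ← Sg_eq' hρ h, Sg_eq hρ h]

/-- the conditional covariance lives on fields with zero averages -/
theorem av_Sg (hρ : ρ ∣ N) (h : Nf A) : avM N ρ * Sg ρ A = 0 := by
  rw [Sg_eq' hρ h, Matrix.mul_sub, ← Matrix.mul_assoc, av_m2 hρ h, Matrix.one_mul, sub_self]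

theorem Sg_avT (hρ : ρ ∣ N) (h : Nf A) : Sg ρ A * (avM N ρ)ᵀ = 0 := by
  have h1 := congrArg Matrix.transpose (av_Sg hρ h)
  rw [Matrix.transpose_mul, Sg_tr hρ h, Matrix.transpose_zero] at h1
  exact h1

theorem A_Sg (hρ : ρ ∣ N) (h : Nf A) : A * Sg ρ A = 1 - (avM N ρ)ᵀ * (m2 ρ A)ᵀ := by
  have h1 : A * m2 ρ A * (avM N ρ * pI A) = (avM N ρ)ᵀ * (m2 ρ A)ᵀ - avgM N := by
    rw [A_m2 hρ h]
    have h2 : Ac ρ A * (avM N ρ * pI A) = (m2 ρ A)ᵀ - avgM (N / ρ) * (lfM N ρ)ᵀ := by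
      unfold m2
      rw [Matrix.transpose_add, Matrix.transpose_mul, Matrix.transpose_mul, Matrix.transpose_mul,
        Matrix.transpose_transpose, pI_tr, Ac_tr, avgM_tr]
      abel
    rw [Matrix.mul_assoc, h2, Matrix.mul_sub]
    congr 1
    ext x y
    rw [← Matrix.mul_assoc, Matrix.mul_apply]
    have h3 : ∀ X : V (N / ρ), ((avM N ρ)ᵀ * avgM (N / ρ)) x X
        = ((ρ : ℝ) ^ 2)⁻¹ * (((N / ρ : ℕ) : ℝ) ^ 2)⁻¹ := by
      intro X
      rw [mul_avgM]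
      simp only [Matrix.transpose_apply]
      rw [col_av]
    have h4 : ∀ X : V (N / ρ), (lfM N ρ)ᵀ X y = lfM N ρ y X := fun X => rfl
    simp only [h3, h4]
    rw [← Finset.mul_sum, row_lf hρ, mul_one]
    change _ = ((N : ℝ) ^ 2)⁻¹
    rw [← mul_inv, ← mul_pow, mul_comm (ρ : ℝ), Nρ hρ]
  rw [Sg_eq' hρ h, Matrix.mul_sub, mul_pI h, ← Matrix.mul_assoc, h1]
  abel

/-- `Sg A Sg = Sg` -/
theorem Sg_A_Sg (hρ : ρ ∣ N) (h : Nf A) : Sg ρ A * A * Sg ρ A = Sg ρ A := by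
  rw [Matrix.mul_assoc, A_Sg hρ h, Matrix.mul_sub, Matrix.mul_one, ← Matrix.mul_assoc,
    Sg_avT hρ h, Matrix.zero_mul, sub_zero]

/-- the field and its law: total covariance -/
theorem total_cov (ρ : ℕ) [NeZero (N / ρ)] (A : Matrix (V N) (V N) ℝ) :
    m2 ρ A * Kc ρ A * (m2 ρ A)ᵀ + Sg ρ A = pI A := by
  unfold Sg
  abel

/-- **(H1)** `S m2 = lf Sc + r`, `r = m2 - lf` -/
theorem S_m2 (hρ : ρ ∣ N) (h : Nf A) (ν : ℝ) :
    (1 - ν⁻¹ • A) * m2 ρ A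
      = lfM N ρ * (1 - (ν * (ρ : ℝ) ^ 2)⁻¹ • Ac ρ A) + (m2 ρ A - lfM N ρ) := by
  rw [Matrix.sub_mul, Matrix.one_mul, Matrix.smul_mul, A_m2 hρ h, avT_eq hρ, Matrix.smul_mul,
    smul_smul, Matrix.mul_sub, Matrix.mul_one, Matrix.mul_smul, mul_inv]
  abel

/-- `av r = 0` -/
theorem av_r (hρ : ρ ∣ N) (h : Nf A) : avM N ρ * (m2 ρ A - lfM N ρ) = 0 := by
  rw [Matrix.mul_sub, av_m2 hρ h, av_lf hρ, sub_self]

/-! ### translations of the cells -/

lemma lf_up (hρ : ρ ∣ N) (x : V N) (X a : V (N / ρ)) :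
    lfM N ρ (x + up a) (X + a) = lfM N ρ x X := by
  rw [lf_apply hρ, lf_apply hρ, H864.cl_add_up hρ]
  simp only [add_left_inj]

lemma av_up (hρ : ρ ∣ N) (x : V N) (X a : V (N / ρ)) :
    avM N ρ (X + a) (x + up a) = avM N ρ X x := by
  rw [av_apply, av_apply, H864.cl_add_up hρ]
  simp only [add_left_inj]

lemma pIav_up (hρ : ρ ∣ N) (A : Matrix (V N) (V N) ℝ) (x : V N) (X a : V (N / ρ)) :
    (pI A * (avM N ρ)ᵀ) (x + up a) (X + a) = (pI A * (avM N ρ)ᵀ) x X := by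
  simp only [Matrix.mul_apply, Matrix.transpose_apply]
  rw [← Equiv.sum_comp (Equiv.addRight (up a))]
  refine Finset.sum_congr rfl fun y _ => ?_
  simp only [Equiv.coe_addRight]
  rw [(ti_pI A).tr, av_up hρ]

theorem m2_up (hρ : ρ ∣ N) (A : Matrix (V N) (V N) ℝ) (x : V N) (X a : V (N / ρ)) :
    m2 ρ A (x + up a) (X + a) = m2 ρ A x X := by
  unfold m2
  rw [Matrix.add_apply, Matrix.add_apply]
  congr 1
  · rw [mul_avgM, mul_avgM, row_lf hρ, row_lf hρ]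
  · rw [Matrix.mul_apply (M := pI A * (avM N ρ)ᵀ), Matrix.mul_apply (M := pI A * (avM N ρ)ᵀ),
      ← Equiv.sum_comp (Equiv.addRight a)]
    refine Finset.sum_congr rfl fun Y _ => ?_
    simp only [Equiv.coe_addRight]
    rw [pIav_up hρ]
    congr 1
    exact (ti_pI _).tr a Y X

theorem r_up (hρ : ρ ∣ N) (A : Matrix (V N) (V N) ℝ) (x : V N) (X a : V (N / ρ)) :
    (m2 ρ A - lfM N ρ) (x + up a) (X + a) = (m2 ρ A - lfM N ρ) x X := by
  rw [Matrix.sub_apply, Matrix.sub_apply, m2_up hρ, lf_up hρ]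

theorem ct_Sg (hρ : ρ ∣ N) (h : Nf A) : CT ρ (Sg ρ A) where
  tr := fun a x y => by
    rw [Sg_eq hρ h, Matrix.sub_apply, Matrix.sub_apply, (ti_pI A).tr]
    congr 1
    rw [Matrix.mul_apply, Matrix.mul_apply, ← Equiv.sum_comp (Equiv.addRight a)]
    refine Finset.sum_congr rfl fun X _ => ?_
    simp only [Equiv.coe_addRight, Matrix.transpose_apply]
    rw [pIav_up hρ, m2_up hρ]
  sy := fun x y => by
    have := congrFun (congrFun (Sg_tr hρ h) y) x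
    exact this

/-! ### a root of the conditional covariance -/

/-- root of the form -/
def rt (A : Matrix (V N) (V N) ℝ) : Matrix (V N) (V N) ℝ := fc (fun x => √x) A

lemma rt_mul (h : Nf A) : rt A * (rt A)ᵀ = A := by
  have ht : TI (rt A) := H864.ti_fc _ _
  rw [ht.transpose]
  refine H864.sym_inj (ht.mul ht) h.ti fun k => ?_
  rw [H864.sym_mul ht ht]
  unfold rt
  rw [H864.sym_fc]
  exact Real.mul_self_sqrt (h.nn k)

/-- root of the conditional covariance -/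
def Bm (ρ : ℕ) [NeZero (N / ρ)] (A : Matrix (V N) (V N) ℝ) : Matrix (V N) (V N) ℝ :=
  Sg ρ A * rt A

theorem Bm_mul (hρ : ρ ∣ N) (h : Nf A) : Bm ρ A * (Bm ρ A)ᵀ = Sg ρ A := by
  unfold Bm
  have e : Sg ρ A * rt A * (Sg ρ A * rt A)ᵀ = Sg ρ A * (rt A * (rt A)ᵀ) * (Sg ρ A)ᵀ := by
    rw [Matrix.transpose_mul]
    simp only [Matrix.mul_assoc]
  rw [e, rt_mul h, Sg_tr hρ h, Sg_A_Sg hρ h]

theorem Bm_up (hρ : ρ ∣ N) (h : Nf A) (a : V (N / ρ)) (x y : V N) :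
    Bm ρ A (x + up a) (y + up a) = Bm ρ A x y := by
  have ht : TI (rt A) := H864.ti_fc _ _
  unfold Bm
  rw [Matrix.mul_apply, Matrix.mul_apply, ← Equiv.sum_comp (Equiv.addRight (up a))]
  refine Finset.sum_congr rfl fun z _ => ?_
  simp only [Equiv.coe_addRight]
  rw [(ct_Sg hρ h).tr, ht.tr]

lemma qf_mul_tr {V' I : Type*} [Fintype V'] [Fintype I] (B : Matrix V' I ℝ) (u : V' → ℝ) :
    qf (B * Bᵀ) u = ∑ i, (∑ x, u x * B x i) ^ 2 := by
  have h := H37.qf_gram Bᵀ u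
  rw [Matrix.transpose_transpose] at h
  rw [h]
  refine Finset.sum_congr rfl fun i _ => ?_
  congr 1
  unfold Matrix.mulVec dotProduct
  exact Finset.sum_congr rfl fun x _ => mul_comm _ _

theorem Sg_nonneg (hρ : ρ ∣ N) (h : Nf A) (u : V N → ℝ) : 0 ≤ qf (Sg ρ A) u := by
  rw [← Bm_mul hρ h, qf_mul_tr]
  exact Finset.sum_nonneg fun _ _ => sq_nonneg _

theorem total_qf (hρ : ρ ∣ N) (h : Nf A) (u : V N → ℝ) :
    qf (m2 ρ A * Kc ρ A * (m2 ρ A)ᵀ) u ≤ qf (pI A) u := by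
  have h1 : qf (pI A - m2 ρ A * Kc ρ A * (m2 ρ A)ᵀ) u = qf (pI A) u
      - qf (m2 ρ A * Kc ρ A * (m2 ρ A)ᵀ) u := H864.qf_sub_mat _ _ u
  have h2 := Sg_nonneg hρ h u
  unfold Sg at h2
  linarith

/-! ### the law -/

/-- covariance of the two-step field -/
theorem law_cov (hρ : ρ ∣ N) (h : Nf A) {I : Type*} [Fintype I] {B : Matrix (V N) I ℝ}
    (hB : B * Bᵀ = Sg ρ A) :
    fromCols (m2 ρ A * pin (Ac ρ A)) B * (fromCols (m2 ρ A * pin (Ac ρ A)) B)ᵀ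
      = pin A * (pin A)ᵀ := by
  rw [transpose_fromCols, fromCols_mul_fromRows, hB, pI_eq_pin h]
  have e : m2 ρ A * pin (Ac ρ A) * (m2 ρ A * pin (Ac ρ A))ᵀ
      = m2 ρ A * (pin (Ac ρ A) * (pin (Ac ρ A))ᵀ) * (m2 ρ A)ᵀ := by
    rw [Matrix.transpose_mul]
    simp only [Matrix.mul_assoc]
  rw [e, pI_eq_pin (nf_Ac hρ h), pI_Ac hρ h, total_cov]

/-- **(H6)**: `m2 f' + B g` with `f'` typical for `Ac` is typical for `A` -/
theorem law_coarse {E : Type*} [NormedAddCommGroup E] [NormedSpace ℝ E] [CompleteSpace E]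
    (hρ : ρ ∣ N) (h : Nf A) {I : Type*} [Fintype I] {B : Matrix (V N) I ℝ}
    (hB : B * Bᵀ = Sg ρ A) (f : (V N → ℝ) → E) (hf : StronglyMeasurable f)
    (hi : Integrable (fun g => f (pin A *ᵥ g)) (gau (V N))) :
    ∫ a, ∫ g, f (m2 ρ A *ᵥ (pin (Ac ρ A) *ᵥ a) + B *ᵥ g) ∂(gau I) ∂(gau (V (N / ρ)))
      = ∫ g, f (pin A *ᵥ g) ∂(gau (V N)) := by
  set X : Matrix (V N) (V (N / ρ) ⊕ I) ℝ := fromCols (m2 ρ A * pin (Ac ρ A)) B with hX
  have h1 := law_cov hρ h hB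
  have h2 : Integrable (fun g => f (X *ᵥ g)) (gau (V (N / ρ) ⊕ I)) := by
    have h3 := H363.law_eq X (pin A) h1
    have h4 : Integrable f ((gau (V N)).map fun g => pin A *ᵥ g) :=
      (integrable_map_measure hf.aestronglyMeasurable
        (H363.measurable_mulVec (pin A)).aemeasurable).2 hi
    rw [← h3] at h4
    exact (integrable_map_measure hf.aestronglyMeasurable
      (H363.measurable_mulVec X).aemeasurable).1 h4
  rw [← H363.law_integral_eq X (pin A) h1 f hf, H363.integral_gau_sum _ h2]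
  refine integral_congr_ae (Filter.Eventually.of_forall fun a => ?_)
  refine integral_congr_ae (Filter.Eventually.of_forall fun g => ?_)
  simp only
  rw [hX, fromCols_mulVec_sumElim, mulVec_mulVec]

/-- the same for bounded functions -/
theorem law_coarse_bdd {E : Type*} [NormedAddCommGroup E] [NormedSpace ℝ E] [CompleteSpace E]
    (hρ : ρ ∣ N) (h : Nf A) {I : Type*} [Fintype I] {B : Matrix (V N) I ℝ}
    (hB : B * Bᵀ = Sg ρ A) (f : (V N → ℝ) → E) (hf : StronglyMeasurable f) {C : ℝ}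
    (hC : ∀ F, ‖f F‖ ≤ C) :
    ∫ a, ∫ g, f (m2 ρ A *ᵥ (pin (Ac ρ A) *ᵥ a) + B *ᵥ g) ∂(gau I) ∂(gau (V (N / ρ)))
      = ∫ g, f (pin A *ᵥ g) ∂(gau (V N)) :=
  law_coarse hρ h hB f hf (Integrable.of_bound (C := C)
    (hf.comp_measurable (H363.measurable_mulVec (pin A))).aestronglyMeasurable
    (Filter.Eventually.of_forall fun _ => hC _))

end coarse

end

end Vale.Agent.P159.H708
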