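import Vale.Agent.P159.H708.Stein
import Vale.Agent.P159.H159.Grow
import Vale.Agent.P159.H114.AE1

/-!
P159 / H708: BUMP (work 44). Second derivatives of `Rs` as weighted Gaussian averages of `Rs`,
and the derivative along rays, for an arbitrary Gaussian field `a + A g`.
-/

namespace Vale.Agent.P159.H708

open MeasureTheory ProbabilityTheory Finset Matrix
open Vale.Agent.P159.TM.H104 (EM Ex Cv K3 Lg li nh Gr)
open Vale.Agent.P159.H37
open Vale.Agent.P159.H159

noncomputable section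

variable {V : Type*} [Fintype V] {I : Type*} [Fintype I]

/-- function with two derivatives, everything of exponential growth -/
structure C2G (F : (V → ℝ) → ℝ) (D : V → (V → ℝ) → ℝ) (D2 : V → V → (V → ℝ) → ℝ) : Prop where
  g0 : EGr F
  g1 : ∀ x, EGr (D x)
  g2 : ∀ x y, EGr (D2 x y)
  d1 : ∀ u, DirD F (fun J => ∑ x, u x * D x J) u
  d2 : ∀ x u, DirD (D x) (fun J => ∑ y, u y * D2 x y J) u

variable {F : (V → ℝ) → ℝ} {D : V → (V → ℝ) → ℝ} {D2 : V → V → (V → ℝ) → ℝ}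

omit [Fintype V] in
lemma obs_shift (a : V → ℝ) (A : Matrix V I ℝ) (g v : I → ℝ) (s : ℝ) :
    a + A *ᵥ (g + s • v) = a + A *ᵥ g + s • (A *ᵥ v) := by
  rw [mulVec_add, mulVec_smul, add_assoc]

lemma C2G.e1 (h : C2G F D D2) (u : V → ℝ) : EGr fun J => ∑ x, u x * D x J :=
  egr_sum _ fun x _ => (h.g1 x).cmul (u x)

lemma C2G.e2 (h : C2G F D D2) (u w : V → ℝ) : EGr fun J => ∑ x, ∑ y, u x * w y * D2 x y J :=
  egr_sum _ fun x _ => egr_sum _ fun y _ => (h.g2 x y).cmul (u x * w y)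

lemma C2G.dd1 (h : C2G F D D2) (a : V → ℝ) (A : Matrix V I ℝ) (v : I → ℝ) :
    DirD (fun g => F (a + A *ᵥ g)) (fun g => ∑ x, (A *ᵥ v) x * D x (a + A *ᵥ g)) v := by
  intro g
  have h1 := h.d1 (A *ᵥ v) (a + A *ᵥ g)
  simpa only [obs_shift] using h1

lemma C2G.dd2 (h : C2G F D D2) (a : V → ℝ) (A : Matrix V I ℝ) (u : V → ℝ) (v : I → ℝ) :
    DirD (fun g => ∑ x, u x * D x (a + A *ᵥ g))
      (fun g => ∑ x, ∑ y, u x * (A *ᵥ v) y * D2 x y (a + A *ᵥ g)) v := by
  intro g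
  have h1 : ∀ x, HasDerivAt (fun s : ℝ => D x (a + A *ᵥ (g + s • v)))
      (∑ y, (A *ᵥ v) y * D2 x y (a + A *ᵥ g)) 0 := by
    intro x
    have h1 := h.d2 x (A *ᵥ v) (a + A *ᵥ g)
    simpa only [obs_shift] using h1
  refine (HasDerivAt.fun_sum fun x _ => (h1 x).const_mul (u x)).congr_deriv ?_
  refine Finset.sum_congr rfl fun x _ => ?_
  rw [Finset.mul_sum]
  exact Finset.sum_congr rfl fun y _ => by ring

/-- **BUMP**: `E [(<v,g><v',g> - <v,v'>) F(a + A g)] = E F''(a + A g)[A v, A v']` -/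
theorem C2G.bump (h : C2G F D D2) (a : V → ℝ) (A : Matrix V I ℝ) (v v' : I → ℝ) :
    ∫ g, ((∑ i, v i * g i) * (∑ i, v' i * g i) - ∑ i, v i * v' i) * F (a + A *ᵥ g) ∂(gau I) =
      ∫ g, ∑ x, ∑ y, (A *ᵥ v) x * (A *ᵥ v') y * D2 x y (a + A *ᵥ g) ∂(gau I) := by
  have hl : ∀ w : I → ℝ, EGr fun g : I → ℝ => ∑ i, w i * g i := fun w =>
    egr_sum _ fun i _ => (egr_co i).cmul (w i)
  have hF : EGr fun g : I → ℝ => F (a + A *ᵥ g) := egr_lin h.g0 a A
  have hF1 : EGr fun g : I → ℝ => ∑ x, (A *ᵥ v) x * D x (a + A *ᵥ g) := egr_lin (h.e1 _) a A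
  have hF2 : EGr fun g : I → ℝ => ∑ x, ∑ y, (A *ᵥ v) x * (A *ᵥ v') y * D2 x y (a + A *ᵥ g) :=
    egr_lin (h.e2 _ _) a A
  have hG : EGr fun g : I → ℝ => (∑ i, v' i * g i) * F (a + A *ᵥ g) := (hl v').mul hF
  have hG' : EGr fun g : I → ℝ => (∑ i, v i * v' i) * F (a + A *ᵥ g) +
      (∑ i, v' i * g i) * ∑ x, (A *ᵥ v) x * D x (a + A *ᵥ g) :=
    (hF.cmul _).add ((hl v').mul hF1)
  have hdG : DirD (fun g : I → ℝ => (∑ i, v' i * g i) * F (a + A *ᵥ g))
      (fun g => (∑ i, v i * v' i) * F (a + A *ᵥ g) +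
        (∑ i, v' i * g i) * ∑ x, (A *ᵥ v) x * D x (a + A *ᵥ g)) v := by
    intro g
    have a1 : HasDerivAt (fun s : ℝ => ∑ i, v' i * (g + s • v) i) (∑ i, v i * v' i) 0 := by
      refine HasDerivAt.fun_sum fun i _ => ?_
      have : HasDerivAt (fun s : ℝ => (g + s • v) i) (v i) 0 := by
        simpa using ((hasDerivAt_id (0 : ℝ)).mul_const (v i)).const_add (g i)
      refine (this.const_mul (v' i)).congr_deriv ?_
      ring
    have a2 := a1.mul (h.dd1 a A v g)
    refine a2.congr_deriv ?_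
    simp
  have s1 := stein hG hG' v hdG
  have s2 := stein hF1 hF2 v' (h.dd2 a A (A *ᵥ v) v')
  have i1 : Integrable (fun g : I → ℝ => (∑ i, v i * v' i) * F (a + A *ᵥ g)) (gau I) :=
    egr_integrable (hF.cmul _)
  have i2 : Integrable (fun g : I → ℝ => (∑ i, v' i * g i) *
      ∑ x, (A *ᵥ v) x * D x (a + A *ᵥ g)) (gau I) := egr_integrable ((hl v').mul hF1)
  have i3 : Integrable (fun g : I → ℝ => (∑ i, v i * g i) *
      ((∑ i, v' i * g i) * F (a + A *ᵥ g))) (gau I) := egr_integrable ((hl v).mul hG)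
  rw [integral_add i1 i2, s2] at s1
  have e : (fun g : I → ℝ => ((∑ i, v i * g i) * (∑ i, v' i * g i) - ∑ i, v i * v' i) *
      F (a + A *ᵥ g)) = fun g => (∑ i, v i * g i) * ((∑ i, v' i * g i) * F (a + A *ᵥ g)) -
        (∑ i, v i * v' i) * F (a + A *ᵥ g) := by
    funext g
    ring
  rw [e, integral_sub i3 i1, s1]
  ring

lemma l1_obs (A : Matrix V I ℝ) (g : I → ℝ) :
    ∑ x, |(A *ᵥ g) x| ≤ (∑ x, ∑ i, |A x i|) * ∑ i, |g i| := by
  rw [Finset.sum_mul]
  refine Finset.sum_le_sum fun x _ => ?_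
  simp only [mulVec, dotProduct]
  refine (Finset.abs_sum_le_sum_abs _ _).trans ?_
  rw [Finset.sum_mul]
  refine Finset.sum_le_sum fun i _ => ?_
  rw [abs_mul]
  exact mul_le_mul_of_nonneg_left (Finset.single_le_sum (f := fun i => |g i|)
    (fun _ _ => abs_nonneg _) (Finset.mem_univ i)) (abs_nonneg _)

/-- **derivative along rays**: `d/dτ E F(a + (A + τ Z) g) = E tr (F'' (A + τ Z) Zᵀ)` -/
theorem C2G.ray (h : C2G F D D2) (a : V → ℝ) (A Z : Matrix V I ℝ) (τ : ℝ) :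
    HasDerivAt (fun τ : ℝ => ∫ g, F (a + (A + τ • Z) *ᵥ g) ∂(gau I))
      (∫ g, ∑ x, ∑ y, (Z * (A + τ • Z)ᵀ) x y * D2 x y (a + (A + τ • Z) *ᵥ g) ∂(gau I)) τ := by
  classical
  -- pointwise derivative
  have hp : ∀ (g : I → ℝ) (r : ℝ), HasDerivAt (fun r : ℝ => F (a + (A + r • Z) *ᵥ g))
      (∑ x, (Z *ᵥ g) x * D x (a + (A + r • Z) *ᵥ g)) r := by
    intro g r
    have h1 := (h.d1 (Z *ᵥ g)).at (a + A *ᵥ g) r
    have e : ∀ r : ℝ, a + (A + r • Z) *ᵥ g = a + A *ᵥ g + r • (Z *ᵥ g) := by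
      intro r
      rw [add_mulVec, smul_mulVec, add_assoc]
    simpa only [e] using h1
  -- bound of the derivative
  have hb : ∃ C : ℝ, 0 ≤ C ∧ ∀ (g : I → ℝ) (r : ℝ), |r - τ| < 1 →
      |∑ x, (Z *ᵥ g) x * D x (a + (A + r • Z) *ᵥ g)| ≤ C * Real.exp (C * ∑ i, |g i|) := by
    choose C hC hCb using fun x => (h.g1 x).bdd
    set K : ℝ := ∑ x, C x with hK
    have K0 : 0 ≤ K := Finset.sum_nonneg fun x _ => hC x
    set nA : ℝ := ∑ x, ∑ i, |A x i| with hnA
    set nZ : ℝ := ∑ x, ∑ i, |Z x i| with hnZ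
    have nA0 : 0 ≤ nA := Finset.sum_nonneg fun _ _ => Finset.sum_nonneg fun _ _ => abs_nonneg _
    have nZ0 : 0 ≤ nZ := Finset.sum_nonneg fun _ _ => Finset.sum_nonneg fun _ _ => abs_nonneg _
    set B : ℝ := nA + (|τ| + 1) * nZ with hB
    have B0 : 0 ≤ B := by positivity
    set s0 : ℝ := ∑ x, |a x| with hs0
    have s00 : 0 ≤ s0 := Finset.sum_nonneg fun _ _ => abs_nonneg _
    refine ⟨max (nZ * K * Real.exp (K * s0)) (1 + K * B), ?_, fun g r hr => ?_⟩
    · exact le_max_of_le_right (by positivity)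
    set j : ℝ := ∑ i, |g i| with hj
    have j0 : 0 ≤ j := Finset.sum_nonneg fun _ _ => abs_nonneg _
    have hr' : |r| ≤ |τ| + 1 := by
      have := abs_sub_abs_le_abs_sub r τ
      linarith
    have hJ : ∑ x, |(a + (A + r • Z) *ᵥ g) x| ≤ s0 + B * j := by
      have h1 : ∑ x, |((A + r • Z) *ᵥ g) x| ≤ B * j := by
        have h2 : ∀ x, |((A + r • Z) *ᵥ g) x| ≤ |(A *ᵥ g) x| + |r| * |(Z *ᵥ g) x| := by
          intro x
          rw [add_mulVec, smul_mulVec, Pi.add_apply, Pi.smul_apply, smul_eq_mul, ← abs_mul]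
          exact abs_add_le _ _
        refine (Finset.sum_le_sum fun x _ => h2 x).trans ?_
        rw [Finset.sum_add_distrib, ← Finset.mul_sum]
        have h3 := l1_obs A g
        have h4 := l1_obs Z g
        have h5 : |r| * ∑ x, |(Z *ᵥ g) x| ≤ (|τ| + 1) * (nZ * j) :=
          mul_le_mul hr' h4 (Finset.sum_nonneg fun _ _ => abs_nonneg _) (by positivity)
        rw [hB, add_mul]
        linarith
      rw [hs0]
      refine le_trans ?_ (add_le_add le_rfl h1)
      rw [← Finset.sum_add_distrib]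
      exact Finset.sum_le_sum fun x _ => abs_add_le _ _
    have hD : ∀ x, |D x (a + (A + r • Z) *ᵥ g)| ≤ K * Real.exp (K * s0 + K * B * j) := by
      intro x
      have hx : C x ≤ K := Finset.single_le_sum (f := C) (fun x _ => hC x) (Finset.mem_univ x)
      refine (hCb x _).trans (mul_le_mul hx (Real.exp_le_exp.2 ?_) (Real.exp_pos _).le K0)
      have h6 : 0 ≤ ∑ x, |(a + (A + r • Z) *ᵥ g) x| :=
        Finset.sum_nonneg fun _ _ => abs_nonneg _
      calc C x * ∑ x, |(a + (A + r • Z) *ᵥ g) x| ≤ K * (s0 + B * j) :=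
            mul_le_mul hx hJ h6 K0
        _ = K * s0 + K * B * j := by ring
    calc |∑ x, (Z *ᵥ g) x * D x (a + (A + r • Z) *ᵥ g)|
        ≤ ∑ x, |(Z *ᵥ g) x| * (K * Real.exp (K * s0 + K * B * j)) := by
          refine (Finset.abs_sum_le_sum_abs _ _).trans (Finset.sum_le_sum fun x _ => ?_)
          rw [abs_mul]
          exact mul_le_mul_of_nonneg_left (hD x) (abs_nonneg _)
      _ = (∑ x, |(Z *ᵥ g) x|) * (K * Real.exp (K * s0 + K * B * j)) :=
          (Finset.sum_mul _ _ _).symm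
      _ ≤ (nZ * j) * (K * Real.exp (K * s0 + K * B * j)) :=
          mul_le_mul_of_nonneg_right (l1_obs Z g) (by positivity)
      _ ≤ (nZ * Real.exp j) * (K * Real.exp (K * s0 + K * B * j)) := by
          refine mul_le_mul_of_nonneg_right (mul_le_mul_of_nonneg_left ?_ nZ0) (by positivity)
          linarith [Real.add_one_le_exp j]
      _ = (nZ * K * Real.exp (K * s0)) * Real.exp ((1 + K * B) * j) := by
          rw [Real.exp_add, add_mul, one_mul, Real.exp_add]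
          ring
      _ ≤ _ := by
          refine mul_le_mul (le_max_left _ _) (Real.exp_le_exp.2
            (mul_le_mul_of_nonneg_right (le_max_right _ _) j0)) (Real.exp_pos _).le ?_
          exact le_max_of_le_right (by positivity)
  obtain ⟨C, hC, hCb⟩ := hb
  have hm : ∀ r : ℝ, Measurable fun g : I → ℝ => F (a + (A + r • Z) *ᵥ g) := fun r =>
    (egr_lin h.g0 a (A + r • Z)).meas
  have hm1 : Measurable fun g : I → ℝ => ∑ x, (Z *ᵥ g) x * D x (a + (A + τ • Z) *ᵥ g) := by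
    refine Finset.measurable_sum _ fun x _ => Measurable.mul ?_
      (egr_lin (h.g1 x) a (A + τ • Z)).meas
    simp only [mulVec, dotProduct]
    fun_prop
  have h2 := (hasDerivAt_integral_of_dominated_loc_of_deriv_le (μ := gau I) (𝕜 := ℝ)
    (F := fun (r : ℝ) g => F (a + (A + r • Z) *ᵥ g))
    (F' := fun (r : ℝ) g => ∑ x, (Z *ᵥ g) x * D x (a + (A + r • Z) *ᵥ g))
    (x₀ := τ) (s := Metric.ball τ 1) (bound := fun g => C * Real.exp (C * ∑ i, |g i|))
    (Metric.ball_mem_nhds τ one_pos)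
    (Filter.Eventually.of_forall fun r => (hm r).aestronglyMeasurable)
    (egr_integrable (egr_lin h.g0 a (A + τ • Z))) hm1.aestronglyMeasurable
    (Filter.Eventually.of_forall fun g r hr => by
      rw [Metric.mem_ball, Real.dist_eq] at hr
      rw [Real.norm_eq_abs]
      exact hCb g r hr)
    ((integrable_exp_norm (I := I) C).const_mul C)
    (Filter.Eventually.of_forall fun g r _ => hp g r)).2
  refine h2.congr_deriv ?_
  -- Stein in every coordinate
  set W : Matrix V I ℝ := A + τ • Z with hW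
  have hst : ∀ (x : V) (i : I), ∫ g, g i * D x (a + W *ᵥ g) ∂(gau I) =
      ∫ g, ∑ y, W y i * D2 x y (a + W *ᵥ g) ∂(gau I) := by
    intro x i
    have hd : DirD (fun g : I → ℝ => D x (a + W *ᵥ g))
        (fun g => ∑ y, (W *ᵥ (Pi.single i 1 : I → ℝ)) y * D2 x y (a + W *ᵥ g))
        (Pi.single i 1) := by
      intro g
      have h1 := h.d2 x (W *ᵥ (Pi.single i 1 : I → ℝ)) (a + W *ᵥ g)
      simpa only [obs_shift] using h1
    have e1 : EGr fun g : I → ℝ => D x (a + W *ᵥ g) := egr_lin (h.g1 x) a W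
    have e2 : EGr fun g : I → ℝ => ∑ y, (W *ᵥ (Pi.single i 1 : I → ℝ)) y *
        D2 x y (a + W *ᵥ g) :=
      egr_sum _ fun y _ => (egr_lin (h.g2 x y) a W).cmul _
    have s := stein e1 e2 (Pi.single i 1) hd
    have e3 : ∀ g : I → ℝ, ∑ k, (Pi.single i (1 : ℝ) : I → ℝ) k * g k = g i := by
      intro g
      rw [Finset.sum_eq_single i]
      · simp
      · intro k _ hk
        simp [Pi.single_eq_of_ne hk]
      · simp
    simp only [e3, Matrix.mulVec_single_one, Matrix.col_apply] at s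
    exact s
  have e4 : (fun g : I → ℝ => ∑ x, (Z *ᵥ g) x * D x (a + W *ᵥ g)) =
      fun g => ∑ x, ∑ i, Z x i * (g i * D x (a + W *ᵥ g)) := by
    funext g
    refine Finset.sum_congr rfl fun x _ => ?_
    simp only [mulVec, dotProduct]
    rw [Finset.sum_mul]
    exact Finset.sum_congr rfl fun i _ => by ring
  have i5 : ∀ (x : V) (i : I), Integrable (fun g : I → ℝ => Z x i * (g i * D x (a + W *ᵥ g)))
      (gau I) := fun x i =>
    egr_integrable (((egr_co i).mul (egr_lin (h.g1 x) a W)).cmul _)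
  have i6 : ∀ (x y : V), Integrable (fun g : I → ℝ => (Z * Wᵀ) x y * D2 x y (a + W *ᵥ g))
      (gau I) := fun x y => egr_integrable ((egr_lin (h.g2 x y) a W).cmul _)
  have i7 : ∀ (x y : V), Integrable (fun g : I → ℝ => D2 x y (a + W *ᵥ g)) (gau I) :=
    fun x y => egr_integrable (egr_lin (h.g2 x y) a W)
  rw [e4, integral_finsetSum _ fun x _ => integrable_finsetSum _ fun i _ => i5 x i,
    integral_finsetSum _ fun x _ => integrable_finsetSum _ fun y _ => i6 x y]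
  refine Finset.sum_congr rfl fun x _ => ?_
  rw [integral_finsetSum _ fun i _ => i5 x i, integral_finsetSum _ fun y _ => i6 x y]
  simp only [integral_const_mul]
  have e8 : ∀ i, ∫ g, g i * D x (a + W *ᵥ g) ∂(gau I) =
      ∑ y, W y i * ∫ g, D2 x y (a + W *ᵥ g) ∂(gau I) := by
    intro i
    rw [hst x i, integral_finsetSum _ fun y _ => (i7 x y).const_mul _]
    simp only [integral_const_mul]
  simp only [e8, Matrix.mul_apply, Matrix.transpose_apply, Finset.mul_sum, Finset.sum_mul]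
  rw [Finset.sum_comm]
  refine Finset.sum_congr rfl fun y _ => Finset.sum_congr rfl fun i _ => ?_
  ring

/-! ### the instance `Rs` -/

variable {μ : (V → ℤ) → ℝ}

lemma Ex_li (hμ : EM μ) (J u : V → ℝ) : Ex μ J (li u) = ∑ x, u x * mn μ J x := by
  have h1 : (li u : (V → ℤ) → ℝ) = fun h => ∑ x, u x * (h x : ℝ) := rfl
  rw [h1, H114.Ex_sum hμ J _ fun x => (gr_co x).cmul (u x)]
  exact Finset.sum_congr rfl fun x _ => TM.H104.Ex_cmul _ _ _

lemma Gm_symm (μ : (V → ℤ) → ℝ) : (Gm μ)ᵀ = Gm μ := by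
  ext x y
  simp only [Matrix.transpose_apply, Gm, Cm, Matrix.of_apply]
  exact TM.H104.Cv_comm _ _ _

/-- `Rs` has two derivatives of exponential growth -/
theorem c2g_Rs (hμ : EM μ) (hG : GT μ) : C2G (Rs μ) (fun x J => mn μ J x - (Gm μ *ᵥ J) x)
    (fun x y J => Cm μ J x y - Gm μ x y) := by
  have hlin : ∀ x, EGr fun J : V → ℝ => (Gm μ *ᵥ J) x := by
    intro x
    simp only [mulVec, dotProduct]
    exact egr_sum _ fun y _ => (egr_coord y).cmul _
  refine ⟨egr_Rs hμ hG, fun x => (egr_mn hμ hG x).sub (hlin x),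
    fun x y => (egr_Cm hμ hG x y).sub (EGr.const _), fun u J => ?_, fun x u J => ?_⟩
  · have h1 : HasDerivAt (fun s : ℝ => Lg μ (J + s • u)) (Ex μ J (li u)) 0 := by
      have := TM.H104.hasDerivAt_Lg hμ J u 0
      simpa using this
    have h2 : HasDerivAt (fun s : ℝ => qf (Gm μ) (J + s • u) / 2) (bf (Gm μ) u J) 0 := by
      have e : (fun s : ℝ => qf (Gm μ) (J + s • u) / 2) =
          fun s => (qf (Gm μ) J + 2 * (s * bf (Gm μ) J u) + s ^ 2 * qf (Gm μ) u) / 2 := by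
        funext s
        rw [qf_add_vec (Gm_symm μ), bf_smul_right, qf_smul]
      rw [e]
      have a1 : HasDerivAt (fun s : ℝ => 2 * (s * bf (Gm μ) J u)) (2 * (1 * bf (Gm μ) J u)) 0 :=
        ((hasDerivAt_id (0 : ℝ)).mul_const _).const_mul 2
      have a2 : HasDerivAt (fun s : ℝ => s ^ 2 * qf (Gm μ) u)
          (((2 : ℕ) * (0 : ℝ) ^ (2 - 1)) * qf (Gm μ) u) 0 :=
        (hasDerivAt_pow 2 (0 : ℝ)).mul_const _
      have a3 := (((hasDerivAt_const (0 : ℝ) (qf (Gm μ) J)).add a1).add a2).div_const 2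
      refine a3.congr_deriv ?_
      rw [bf_comm (Gm_symm μ) u J]
      simp
    have h3 : HasDerivAt (fun s : ℝ => Rs μ (J + s • u))
        (Ex μ J (li u) - bf (Gm μ) u J) 0 := by
      unfold Rs
      exact (h1.sub_const _).sub h2
    refine h3.congr_deriv ?_
    rw [Ex_li hμ, bf_eq]
    simp only [dotProduct, mul_sub, Finset.sum_sub_distrib]
  · have h1 : HasDerivAt (fun s : ℝ => mn μ (J + s • u) x)
        (Cv μ J (fun h => (h x : ℝ)) (li u)) 0 := by
      have := TM.H104.hasDerivAt_Ex hμ (gr_co x) J u 0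
      simpa [mn] using this
    have h2 : HasDerivAt (fun s : ℝ => (Gm μ *ᵥ (J + s • u)) x) ((Gm μ *ᵥ u) x) 0 := by
      have e : (fun s : ℝ => (Gm μ *ᵥ (J + s • u)) x) =
          fun s => (Gm μ *ᵥ J) x + s * (Gm μ *ᵥ u) x := by
        funext s
        rw [mulVec_add, mulVec_smul, Pi.add_apply, Pi.smul_apply, smul_eq_mul]
      rw [e]
      have := ((hasDerivAt_id (0 : ℝ)).mul_const ((Gm μ *ᵥ u) x)).const_add ((Gm μ *ᵥ J) x)
      simpa using this
    refine (h1.sub h2).congr_deriv ?_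
    have h3 : Cv μ J (fun h => (h x : ℝ)) (li u) = ∑ y, u y * Cm μ J x y := by
      classical
      have e1 : (fun h : V → ℤ => (h x : ℝ)) = li (Pi.single x (1 : ℝ)) := by
        funext h
        unfold TM.H104.li
        rw [Finset.sum_eq_single x]
        · simp
        · intro y _ hy
          simp [Pi.single_eq_of_ne hy]
        · simp
      rw [e1, ← H114.bf_Cm hμ, bf_eq]
      simp [dotProduct, mulVec, Pi.single_apply, mul_comm]
    rw [h3]
    simp only [mulVec, dotProduct, mul_sub, Finset.sum_sub_distrib]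
    congr 1
    exact Finset.sum_congr rfl fun y _ => mul_comm _ _

lemma sum_D2 (J u w : V → ℝ) :
    ∑ x, ∑ y, u x * w y * (Cm μ J x y - Gm μ x y) = bf (Cm μ J - Gm μ) u w := by
  unfold bf
  simp only [Matrix.sub_apply]
  exact Finset.sum_congr rfl fun x _ => Finset.sum_congr rfl fun y _ => by ring

/-- **BUMP for `Rs`**, two directions -/
theorem bump (hμ : EM μ) (hG : GT μ) (a : V → ℝ) (A : Matrix V I ℝ) (v v' : I → ℝ) :
    ∫ g, ((∑ i, v i * g i) * (∑ i, v' i * g i) - ∑ i, v i * v' i) *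
        Rs μ (a + A *ᵥ g) ∂(gau I) =
      ∫ g, bf (Cm μ (a + A *ᵥ g) - Gm μ) (A *ᵥ v) (A *ᵥ v') ∂(gau I) := by
  have h := (c2g_Rs hμ hG).bump a A v v'
  simp only [sum_D2] at h
  exact h

/-- **BUMP for `Rs`**, one direction -/
theorem bump_one (hμ : EM μ) (hG : GT μ) (a : V → ℝ) (A : Matrix V I ℝ) (v : I → ℝ) :
    ∫ g, ((∑ i, v i * g i) ^ 2 - ∑ i, v i ^ 2) * Rs μ (a + A *ᵥ g) ∂(gau I) =
      ∫ g, qf (Cm μ (a + A *ᵥ g) - Gm μ) (A *ᵥ v) ∂(gau I) := by
  have h := bump hμ hG a A v v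
  simp only [← sq] at h
  exact h

/-- **ray derivative of `E Rs`** -/
theorem ray_Rs (hμ : EM μ) (hG : GT μ) (a : V → ℝ) (A Z : Matrix V I ℝ) (τ : ℝ) :
    HasDerivAt (fun τ : ℝ => ∫ g, Rs μ (a + (A + τ • Z) *ᵥ g) ∂(gau I))
      (∫ g, ∑ x, ∑ y, (Z * (A + τ • Z)ᵀ) x y *
        (Cm μ (a + (A + τ • Z) *ᵥ g) x y - Gm μ x y) ∂(gau I)) τ :=
  (c2g_Rs hμ hG).ray a A Z τ

/-- trace of a quadratic form over the columns of `Z` -/
lemma sum_qf_col (M : Matrix V V ℝ) (Z : Matrix V I ℝ) :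
    ∑ x, ∑ y, (Z * Zᵀ) x y * M x y = ∑ i, qf M fun x => Z x i := by
  unfold qf
  simp only [Matrix.mul_apply, Matrix.transpose_apply, Finset.sum_mul]
  rw [Finset.sum_congr rfl fun x _ => Finset.sum_comm, Finset.sum_comm]
  refine Finset.sum_congr rfl fun i _ => Finset.sum_congr rfl fun x _ =>
    Finset.sum_congr rfl fun y _ => ?_
  ring

/-- **ray derivative, independent parts** (`A Zᵀ = 0`): `τ Σ_i E Rs''[Z e_i, Z e_i]` -/
theorem ray_Rs_ind (hμ : EM μ) (hG : GT μ) (a : V → ℝ) {A Z : Matrix V I ℝ}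
    (hAZ : Z * Aᵀ = 0) (τ : ℝ) :
    HasDerivAt (fun τ : ℝ => ∫ g, Rs μ (a + (A + τ • Z) *ᵥ g) ∂(gau I))
      (τ * ∫ g, ∑ i, qf (Cm μ (a + (A + τ • Z) *ᵥ g) - Gm μ) (fun x => Z x i) ∂(gau I)) τ := by
  have h := ray_Rs hμ hG a A Z τ
  refine h.congr_deriv ?_
  rw [← integral_const_mul]
  refine integral_congr_ae (Filter.Eventually.of_forall fun g => ?_)
  simp only
  rw [← sum_qf_col, Finset.mul_sum]
  refine Finset.sum_congr rfl fun x _ => ?_
  rw [Finset.mul_sum]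
  refine Finset.sum_congr rfl fun y _ => ?_
  rw [Matrix.transpose_add, Matrix.mul_add, hAZ, zero_add, Matrix.transpose_smul,
    Matrix.mul_smul, Matrix.smul_apply, smul_eq_mul, Matrix.sub_apply]
  ring

end

end Vale.Agent.P159.H708
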