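import Vale.Agent.P159.H447.MassF

/-!
P159 / H708: CL-AP. Closure for block noise and for fields of the Cameron-Martin ball.

* `K4_cm`: `κ₄(h⁴) ≤ |v|⁴ K4S (A Aᵀ)(A Aᵀ)` for `h = A v`;
* `cl_det`: closure for `h = A v`;
* `cl_gau`: closure along the Gaussian source `A g`, the bad set of `Rs (2ⁿ A g) ≤ 1` given by its
  probability;
* `Rs_sum_le`: convexity, several parts.
-/

namespace Vale.Agent.P159.H708

open Finset Matrix MeasureTheory ProbabilityTheory Real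
open Vale.Agent.P159.TM.H104 (EM Ex Cv K3 Lg li nh Gr)
open Vale.Agent.P159.H37
open Vale.Agent.P159.H447

noncomputable section

variable {V : Type*} [Fintype V] {I : Type*} [Fintype I] {μ : (V → ℤ) → ℝ}

/-- the defect `|v|² A Aᵀ - (A v)(A v)ᵀ` as a Gram matrix -/
def dfm (A : Matrix V I ℝ) (v : I → ℝ) : Matrix (I × I) V ℝ :=
  Matrix.of fun p x => (√2)⁻¹ * (v p.1 * A x p.2 - v p.2 * A x p.1)

omit [Fintype V] in
lemma dfm_gram (A : Matrix V I ℝ) (v : I → ℝ) :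
    (∑ i, v i ^ 2) • ((Aᵀ)ᵀ * Aᵀ) -
        (Matrix.of fun (_ : Unit) (x : V) => (A *ᵥ v) x)ᵀ *
          (Matrix.of fun (_ : Unit) (x : V) => (A *ᵥ v) x) =
      (dfm A v)ᵀ * dfm A v := by
  ext x y
  simp only [Matrix.sub_apply, Matrix.smul_apply, Matrix.mul_apply, Matrix.transpose_apply,
    Matrix.of_apply, smul_eq_mul, dfm, Finset.univ_unique, Finset.sum_const, Finset.card_singleton,
    one_smul, Fintype.sum_prod_type, mulVec, dotProduct]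
  have h2 : (√2)⁻¹ * (√2)⁻¹ = (1 / 2 : ℝ) := by
    rw [← mul_inv, Real.mul_self_sqrt (by norm_num)]
    norm_num
  have h3 : ∀ i j, (√2)⁻¹ * (v i * A x j - v j * A x i) * ((√2)⁻¹ * (v i * A y j - v j * A y i)) =
      1 / 2 * (v i ^ 2 * (A x j * A y j)) + 1 / 2 * (v j ^ 2 * (A x i * A y i)) -
        1 / 2 * ((A y i * v i) * (A x j * v j)) - 1 / 2 * ((A x i * v i) * (A y j * v j)) := by
    intro i j
    calc (√2)⁻¹ * (v i * A x j - v j * A x i) * ((√2)⁻¹ * (v i * A y j - v j * A y i))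
        = ((√2)⁻¹ * (√2)⁻¹) * ((v i * A x j - v j * A x i) * (v i * A y j - v j * A y i)) := by
          ring
      _ = _ := by rw [h2]; ring
  simp only [h3, Finset.sum_sub_distrib, Finset.sum_add_distrib, ← Finset.mul_sum,
    ← Finset.sum_mul]
  ring

/-- fourth cumulant of a Cameron-Martin vector -/
theorem K4_cm (hμ : EM μ) (he : Ev μ) (hK : PK μ) (A : Matrix V I ℝ) (v : I → ℝ) :
    K4 μ (A *ᵥ v) (A *ᵥ v) (A *ᵥ v) (A *ᵥ v) ≤
      (∑ i, v i ^ 2) ^ 2 * K4S μ (A * Aᵀ) (A * Aᵀ) := by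
  have h1 := K4S_mono hμ he hK (Finset.sum_nonneg fun i _ => sq_nonneg (v i))
    (Matrix.of fun (_ : Unit) (x : V) => (A *ᵥ v) x) (dfm A v) Aᵀ (dfm_gram A v)
  have h2 : (Matrix.of fun (_ : Unit) (x : V) => (A *ᵥ v) x)ᵀ *
      (Matrix.of fun (_ : Unit) (x : V) => (A *ᵥ v) x) = vecMulVec (A *ᵥ v) (A *ᵥ v) := by
    ext x y
    simp [Matrix.mul_apply, vecMulVec_apply]
  rw [h2, K4S_rank hμ he, Matrix.transpose_transpose] at h1
  exact h1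

/-- **CL1: closure for Cameron-Martin vectors** -/
theorem cl_det (hμ : EM μ) (he : Ev μ) (hK : PK μ) (A : Matrix V I ℝ) {D : ℝ}
    (h : K4S μ (A * Aᵀ) (A * Aᵀ) ≤ D) (n : ℕ) (v : I → ℝ)
    (h1 : Rs μ ((2 : ℝ) ^ n • (A *ᵥ v)) ≤ 1) :
    Rs μ (A *ᵥ v) ≤ 8 * (√(D / 2) * ∑ i, v i ^ 2) ^ (2 - 2 * (1 / 2 : ℝ) ^ n) := by
  refine (H789.Rs_closure hμ he hK (A *ᵥ v) n h1).trans ?_
  have h6 : (0 : ℝ) ≤ 2 - 2 * (1 / 2 : ℝ) ^ n := by
    have : (1 / 2 : ℝ) ^ n ≤ 1 := pow_le_one₀ (by norm_num) (by norm_num)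
    linarith
  refine mul_le_mul_of_nonneg_left (Real.rpow_le_rpow (Real.sqrt_nonneg _) ?_ h6) (by norm_num)
  have s0 : 0 ≤ ∑ i, v i ^ 2 := Finset.sum_nonneg fun i _ => sq_nonneg _
  rw [Real.sqrt_le_left (mul_nonneg (Real.sqrt_nonneg _) s0), mul_pow]
  have hD0 : 0 ≤ D := by
    have h2 := K4S_nonneg hμ he hK (A * Aᵀ)
    linarith
  rw [Real.sq_sqrt (by linarith)]
  have h3 := K4_cm hμ he hK A v
  have h4 := mul_le_mul_of_nonneg_left h (sq_nonneg (∑ i, v i ^ 2))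
  linarith

/-- **CL2: closure along a Gaussian source** -/
theorem cl_gau (hμ : EM μ) (he : Ev μ) (hK : PK μ) (A : Matrix V I ℝ) {D : ℝ} (hD : 0 < D)
    (h : K4S μ (A * Aᵀ) (A * Aᵀ) ≤ D) (n : ℕ) {lam : ℝ} (hl : 0 ≤ lam) {p : ℝ}
    (hp : (gau I).real {g | 1 < Rs μ ((2 : ℝ) ^ n • (A *ᵥ g))} ≤ p) :
    (gau I).real {g | 8 * √(lam * D / 2) ^ (2 - 2 * (1 / 2 : ℝ) ^ n) < Rs μ (A *ᵥ g)}
      ≤ p + 6 * Real.exp (-(√lam / 10)) := by
  have h1 := Rs_tail hμ he hK A hD h n hl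
  refine le_trans ?_ (add_le_add hp h1)
  refine le_trans (measureReal_mono ?_ (measure_ne_top _ _)) (measureReal_union_le _ _)
  intro g hg
  by_cases h2 : Rs μ ((2 : ℝ) ^ n • (A *ᵥ g)) ≤ 1
  · exact Or.inr ⟨h2, hg⟩
  · exact Or.inl (not_le.1 h2)

/-- convexity: a sum of `m` parts -/
theorem Rs_sum_le (hμ : EM μ) (he : Ev μ) (hK : PK μ) {κ : Type*} (s : Finset κ) (hs : s.Nonempty)
    (F : κ → V → ℝ) :
    Rs μ (∑ i ∈ s, F i) ≤ (s.card : ℝ)⁻¹ * ∑ i ∈ s, Rs μ ((s.card : ℝ) • F i) := by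
  have hc : (0 : ℝ) < s.card := by exact_mod_cast hs.card_pos
  have h1 := (H789.Rs_convex hμ he hK).map_sum_le (t := s) (w := fun _ => (s.card : ℝ)⁻¹)
    (p := fun i => (s.card : ℝ) • F i) (fun _ _ => by positivity)
    (by rw [Finset.sum_const, nsmul_eq_mul, mul_inv_cancel₀ hc.ne']) fun _ _ => Set.mem_univ _
  have h2 : ∑ i ∈ s, (s.card : ℝ)⁻¹ • (s.card : ℝ) • F i = ∑ i ∈ s, F i :=
    Finset.sum_congr rfl fun i _ => by rw [smul_smul, inv_mul_cancel₀ hc.ne', one_smul]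
  rw [h2] at h1
  simpa only [smul_eq_mul, ← Finset.mul_sum] using h1

/-- two parts -/
theorem Rs_add_le (hμ : EM μ) (he : Ev μ) (hK : PK μ) (F G : V → ℝ) :
    Rs μ (F + G) ≤ (Rs μ ((2 : ℝ) • F) + Rs μ ((2 : ℝ) • G)) / 2 := by
  have h1 := (H789.Rs_convex hμ he hK).2 (Set.mem_univ ((2 : ℝ) • F))
    (Set.mem_univ ((2 : ℝ) • G)) (show (0 : ℝ) ≤ 1 / 2 by norm_num)
    (show (0 : ℝ) ≤ 1 / 2 by norm_num) (by norm_num)
  have h2 : (1 / 2 : ℝ) • (2 : ℝ) • F + (1 / 2 : ℝ) • (2 : ℝ) • G = F + G := by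
    rw [smul_smul, smul_smul]
    norm_num
  rw [h2] at h1
  simp only [smul_eq_mul] at h1
  linarith

/-- `T ≤ R(2 ·)` -/
theorem Tq_le (hμ : EM μ) (he : Ev μ) (hK : PK μ) (J : V → ℝ) : Tq μ J ≤ Rs μ ((2 : ℝ) • J) := by
  have h1 := H114.Tq_eq μ J
  have h2 := H789.Rs_nonneg hμ he hK J
  linarith

end

end Vale.Agent.P159.H708
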