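import Vale.Agent.P159.H708.Coarse
import Vale.Agent.P159.H692.Neut
import Vale.Agent.P159.TM.H41.Ker

/-!
P159 / H708: THE GAUSSIAN FACTS OF THE COARSE GRAINING MAP (module VB6, part (Q0)), bounds.

`Dom A ν c`, `S = 1 - ν⁻¹ A`, `δ = 16 ρ² ν / c ≤ 1/2`, `s₀ = S 0 0`.
-/

set_option linter.unusedSectionVars false

namespace Vale.Agent.P159.H708

open Finset Matrix MeasureTheory
open Vale.Agent.P159.TM.H764 (EE cN sN dt)
open Vale.Agent.P159.TM.Spec (V)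
open Vale.Agent.P159.H37 (qf gau bf cellP)
open Vale.Agent.P159.H864 (TI CT sym fc mlt cobV cl up Gc Wl als rd lapM)
open Vale.Agent.P159.H363 (pin Nf)
open Vale.Agent.P159.H462 (Dom avgM ti_avgM sym_avgM)

noncomputable section

section bounds

variable {N ρ : ℕ} [NeZero N] [NeZero (N / ρ)] {A : Matrix (V N) (V N) ℝ} {ν c : ℝ}

/-! ### the smoothing matrix -/

lemma ti_S (h : Nf A) (ν : ℝ) : TI (1 - ν⁻¹ • A) := H864.TI.one.sub (h.ti.smul _)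

lemma sym_S (A : Matrix (V N) (V N) ℝ) (ν : ℝ) (k : V N) :
    sym (1 - ν⁻¹ • A) k = 1 - ν⁻¹ * sym A k := by
  rw [H864.sym_sub, H864.sym_one, H864.sym_smul]

lemma S_nonneg (h : Dom A ν c) (k : V N) : 0 ≤ sym (1 - ν⁻¹ • A) k := by
  rw [sym_S]
  have h1 := h.le k
  have h2 := h.hν
  have h3 : ν⁻¹ * sym A k ≤ 1 := by
    rw [inv_mul_le_iff₀ h2, mul_one]
    exact h1
  linarith

lemma S_le_one (h : Dom A ν c) (k : V N) : sym (1 - ν⁻¹ • A) k ≤ 1 := by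
  rw [sym_S]
  have h1 := h.nn k
  have h2 := h.hν
  have h3 : 0 ≤ ν⁻¹ * sym A k := by positivity
  linarith

lemma S_le (h : Dom A ν c) (k : V N) : sym (1 - ν⁻¹ • A) k ≤ ν / (ν + c * EE k) := by
  rw [sym_S]
  have h1 := h.ge k
  have h2 := h.hν
  have h3 := h.hc
  have h4 : 0 ≤ EE k := TM.H764.EE_nonneg k
  have h5 : ν⁻¹ * (ν * (c * EE k) / (ν + c * EE k)) ≤ ν⁻¹ * sym A k :=
    mul_le_mul_of_nonneg_left h1 (by positivity)
  have h6 : ν⁻¹ * (ν * (c * EE k) / (ν + c * EE k)) = 1 - ν / (ν + c * EE k) := by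
    have : 0 < ν + c * EE k := by positivity
    field_simp
    ring
  linarith

lemma EE_S_le (h : Dom A ν c) (k : V N) : EE k * sym (1 - ν⁻¹ • A) k ≤ ν / c := by
  have h1 := S_le h k
  have h2 := h.hν
  have h3 := h.hc
  have h4 : 0 ≤ EE k := TM.H764.EE_nonneg k
  refine (mul_le_mul_of_nonneg_left h1 h4).trans ?_
  have h5 : 0 < ν + c * EE k := by positivity
  rw [mul_div_assoc', div_le_div_iff₀ h5 h3]
  nlinarith

lemma S_qf_nonneg (h : Dom A ν c) (u : V N → ℝ) : 0 ≤ qf (1 - ν⁻¹ • A) u :=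
  (H864.psd_iff (ti_S (Nf.of_dom h) ν)).2 (S_nonneg h) u

lemma S_qf_le (h : Dom A ν c) (u : V N → ℝ) : qf (1 - ν⁻¹ • A) u ≤ ∑ x, u x ^ 2 := by
  rw [← H864.qf_one]
  exact (H864.qf_le_iff (ti_S (Nf.of_dom h) ν) H864.TI.one).2 (fun k => by
    rw [H864.sym_one]; exact S_le_one h k) u

/-- `|S u|² ≤ <u, S u>` -/
lemma S_sq_le (h : Dom A ν c) (u : V N → ℝ) :
    ∑ x, ((1 - ν⁻¹ • A) *ᵥ u) x ^ 2 ≤ qf (1 - ν⁻¹ • A) u := by
  have ht := ti_S (Nf.of_dom h) ν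
  have e : ∑ x, ((1 - ν⁻¹ • A) *ᵥ u) x ^ 2 = qf ((1 - ν⁻¹ • A)ᵀ * (1 - ν⁻¹ • A)) u :=
    (H37.qf_gram _ _).symm
  rw [e, ht.transpose]
  refine (H864.qf_le_iff (ht.mul ht) ht).2 (fun k => ?_) u
  rw [H864.sym_mul ht ht]
  have h1 := S_nonneg h k
  have h2 := S_le_one h k
  nlinarith

lemma qf_mulVec_gen {V' W : Type*} [Fintype V'] [Fintype W] (M : Matrix V' V' ℝ)
    (P : Matrix V' W ℝ) (u : W → ℝ) : qf M (P *ᵥ u) = qf (Pᵀ * M * P) u := by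
  rw [H37.qf_eq, H37.qf_eq, Matrix.mul_assoc, ← mulVec_mulVec, ← mulVec_mulVec,
    Matrix.dotProduct_mulVec u, Matrix.vecMul_transpose]

/-- Dirichlet form of `S u` -/
lemma grd_S_le (h : Dom A ν c) (u : V N → ℝ) :
    TM.H859.dirE ((1 - ν⁻¹ • A) *ᵥ u) ≤ ν / c * qf (1 - ν⁻¹ • A) u := by
  have ht := ti_S (Nf.of_dom h) ν
  have hl := H864.ti_lapM (N := N)
  rw [TM.H41.dirE_eq, ← H864.qf_lapM, qf_mulVec_gen, ht.transpose, ← H864.qf_smul_mat]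
  refine (H864.qf_le_iff ((ht.mul hl).mul ht) (ht.smul _)).2 (fun k => ?_) u
  rw [H864.sym_mul (ht.mul hl) ht, H864.sym_mul ht hl, H864.sym_lapM, H864.sym_smul]
  have h1 := S_nonneg h k
  have h2 := EE_S_le h k
  nlinarith

/-- Poincare inequality in the cells -/
lemma poincare (hρ : ρ ∣ N) (u : V N → ℝ) :
    ∑ x, (u x - (cellP N ρ *ᵥ u) x) ^ 2 ≤ 16 * (ρ : ℝ) ^ 2 * TM.H859.dirE u := by
  have : NeZero ρ := ⟨(H864.l_pos hρ).ne'⟩
  have hN : N = (N / ρ) * ρ := (Nat.div_mul_cancel hρ).symm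
  have h1 := H692.poin (n := N / ρ) (l := ρ) hN u
  refine le_trans (le_of_eq ?_) h1
  refine Finset.sum_congr rfl fun x _ => ?_
  rw [H864.cellP_mulVec hρ]
  rfl

/-- `|(1-P) S v|² ≤ δ <v, S v>` -/
lemma rough_S_le (hρ : ρ ∣ N) (h : Dom A ν c) (v : V N → ℝ) :
    ∑ x, (((1 - ν⁻¹ • A) *ᵥ v) x - (cellP N ρ *ᵥ ((1 - ν⁻¹ • A) *ᵥ v)) x) ^ 2
      ≤ 16 * (ρ : ℝ) ^ 2 * ν / c * qf (1 - ν⁻¹ • A) v := by
  refine (poincare hρ _).trans ?_
  have h1 := grd_S_le h v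
  calc 16 * (ρ : ℝ) ^ 2 * TM.H859.dirE ((1 - ν⁻¹ • A) *ᵥ v)
      ≤ 16 * (ρ : ℝ) ^ 2 * (ν / c * qf (1 - ν⁻¹ • A) v) :=
        mul_le_mul_of_nonneg_left h1 (by positivity)
    _ = 16 * (ρ : ℝ) ^ 2 * ν / c * qf (1 - ν⁻¹ • A) v := by ring

/-- rough fields: `<u, S u> ≤ δ |u|²` -/
lemma S_rough (hρ : ρ ∣ N) (h : Dom A ν c) {u : V N → ℝ} (hu : cellP N ρ *ᵥ u = 0) :
    qf (1 - ν⁻¹ • A) u ≤ 16 * (ρ : ℝ) ^ 2 * ν / c * ∑ x, u x ^ 2 := by
  set S := (1 - ν⁻¹ • A) with hS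
  set q := qf S u with hq
  set v := S *ᵥ u with hv
  have hq0 : 0 ≤ q := S_qf_nonneg h u
  have h1 : q = ∑ x, u x * (v x - (cellP N ρ *ᵥ v) x) := by
    have h2 : q = ∑ x, u x * v x := by rw [hq, H37.qf_eq]; rfl
    have h3 : ∑ x, u x * (cellP N ρ *ᵥ v) x = 0 := by
      have h4 : ∑ x, u x * (cellP N ρ *ᵥ v) x = u ⬝ᵥ (cellP N ρ *ᵥ v) := rfl
      rw [h4, Matrix.dotProduct_mulVec, ← Matrix.mulVec_transpose, H864.cellP_tr, hu,
        zero_dotProduct]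
    simp only [mul_sub]
    rw [Finset.sum_sub_distrib, ← h2, h3, sub_zero]
  have h5 : q ^ 2 ≤ (∑ x, u x ^ 2) * (16 * (ρ : ℝ) ^ 2 * ν / c * q) := by
    calc q ^ 2 = (∑ x, u x * (v x - (cellP N ρ *ᵥ v) x)) ^ 2 := by rw [← h1]
      _ ≤ (∑ x, u x ^ 2) * ∑ x, (v x - (cellP N ρ *ᵥ v) x) ^ 2 :=
        Finset.sum_mul_sq_le_sq_mul_sq _ _ _
      _ ≤ _ := mul_le_mul_of_nonneg_left (rough_S_le hρ h u)
        (Finset.sum_nonneg fun _ _ => sq_nonneg _)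
  rcases hq0.eq_or_lt with h6 | h6
  · rw [← h6]
    have h7 := h.hν
    have h8 := h.hc
    have : 0 ≤ ∑ x, u x ^ 2 := Finset.sum_nonneg fun _ _ => sq_nonneg _
    positivity
  · have h9 : q * q ≤ (16 * (ρ : ℝ) ^ 2 * ν / c * ∑ x, u x ^ 2) * q := by nlinarith
    exact le_of_mul_le_mul_right h9 h6

/-- rough fields: `ν (1-δ) |u|² ≤ <u, A u>` -/
lemma A_rough (hρ : ρ ∣ N) (h : Dom A ν c) {u : V N → ℝ} (hu : cellP N ρ *ᵥ u = 0) :
    ν * (1 - 16 * (ρ : ℝ) ^ 2 * ν / c) * ∑ x, u x ^ 2 ≤ qf A u := by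
  have h1 := S_rough hρ h hu
  have h2 := h.hν
  have h3 : qf (1 - ν⁻¹ • A) u = ∑ x, u x ^ 2 - ν⁻¹ * qf A u := by
    rw [H864.qf_sub_mat, H864.qf_one, H864.qf_smul_mat]
  rw [h3] at h1
  have h4 : ν * (∑ x, u x ^ 2 - ν⁻¹ * qf A u) ≤ ν * (16 * (ρ : ℝ) ^ 2 * ν / c * ∑ x, u x ^ 2) :=
    mul_le_mul_of_nonneg_left h1 h2.le
  have h5 : ν * (∑ x, u x ^ 2 - ν⁻¹ * qf A u) = ν * ∑ x, u x ^ 2 - qf A u := by
    field_simp
  rw [h5] at h4
  nlinarith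

/-! ### the remainder `r = m2 - lf` -/

lemma cellP_of_av (hρ : ρ ∣ N) {I : Type*} {M : Matrix (V N) I ℝ} (hM : avM N ρ * M = 0) :
    cellP N ρ * M = 0 := by
  rw [← lf_av hρ, Matrix.mul_assoc, hM, Matrix.mul_zero]

lemma cellP_r (hρ : ρ ∣ N) (h : Nf A) : cellP N ρ * (m2 ρ A - lfM N ρ) = 0 :=
  cellP_of_av hρ (av_r hρ h)

lemma cellP_lf (hρ : ρ ∣ N) : cellP N ρ * lfM N ρ = lfM N ρ := by
  rw [← lf_av hρ, Matrix.mul_assoc, av_lf hρ, Matrix.mul_one]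

lemma cellP_Sg (hρ : ρ ∣ N) (h : Nf A) : cellP N ρ * Sg ρ A = 0 :=
  cellP_of_av hρ (av_Sg hρ h)

/-- `r = (1-P) S m2` -/
lemma r_eq (hρ : ρ ∣ N) (h : Nf A) (ν : ℝ) :
    m2 ρ A - lfM N ρ = (1 - cellP N ρ) * ((1 - ν⁻¹ • A) * m2 ρ A) := by
  rw [S_m2 hρ h ν, Matrix.mul_add, ← Matrix.mul_assoc, Matrix.sub_mul 1 _ (lfM N ρ),
    Matrix.one_mul, cellP_lf hρ, sub_self, Matrix.zero_mul, zero_add, Matrix.sub_mul 1,
    Matrix.one_mul, cellP_r hρ h, sub_zero]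

/-- the basic bound of the remainder -/
theorem r_sq_le (hρ : ρ ∣ N) (h : Dom A ν c) (hδ : 16 * (ρ : ℝ) ^ 2 * ν / c ≤ 1 / 2)
    (f : V (N / ρ) → ℝ) :
    ∑ x, ((m2 ρ A - lfM N ρ) *ᵥ f) x ^ 2
      ≤ 4 * (16 * (ρ : ℝ) ^ 2 * ν / c) * qf (1 - ν⁻¹ • A) (lfM N ρ *ᵥ f) := by
  have hn := Nf.of_dom h
  set δ := 16 * (ρ : ℝ) ^ 2 * ν / c with hδd
  have hδ0 : 0 ≤ δ := by
    have h1 := h.hν
    have h2 := h.hc
    rw [hδd]
    positivity
  set S := (1 - ν⁻¹ • A) with hS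
  set w := (m2 ρ A - lfM N ρ) *ᵥ f with hw
  set a := (S *ᵥ (lfM N ρ *ᵥ f)) - (cellP N ρ *ᵥ (S *ᵥ (lfM N ρ *ᵥ f))) with ha
  set b := (S *ᵥ w) - (cellP N ρ *ᵥ (S *ᵥ w)) with hb
  have e1 : w = a + b := by
    have h1 : m2 ρ A *ᵥ f = lfM N ρ *ᵥ f + w := by
      rw [hw, Matrix.sub_mulVec]
      abel
    have h2 : w = (1 - cellP N ρ) *ᵥ (S *ᵥ (m2 ρ A *ᵥ f)) := by
      rw [hw, r_eq hρ hn ν, mulVec_mulVec, mulVec_mulVec, Matrix.mul_assoc]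
    have h3 : ∀ v : V N → ℝ, (1 - cellP N ρ) *ᵥ v = v - cellP N ρ *ᵥ v := by
      intro v
      rw [Matrix.sub_mulVec, Matrix.one_mulVec]
    rw [h1, mulVec_add, mulVec_add, h3, h3] at h2
    exact h2
  have ha2 : ∑ x, a x ^ 2 ≤ δ * qf S (lfM N ρ *ᵥ f) := rough_S_le hρ h _
  have hwr : cellP N ρ *ᵥ w = 0 := by
    rw [hw, mulVec_mulVec, cellP_r hρ hn, zero_mulVec]
  have hb2 : ∑ x, b x ^ 2 ≤ δ * (δ * ∑ x, w x ^ 2) :=
    (rough_S_le hρ h _).trans (mul_le_mul_of_nonneg_left (S_rough hρ h hwr) hδ0)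
  have hw2 : ∑ x, w x ^ 2 ≤ 2 * ∑ x, a x ^ 2 + 2 * ∑ x, b x ^ 2 := by
    rw [Finset.mul_sum, Finset.mul_sum, ← Finset.sum_add_distrib]
    refine Finset.sum_le_sum fun x _ => ?_
    have : w x = a x + b x := congrFun e1 x
    rw [this]
    nlinarith [sq_nonneg (a x - b x)]
  have hw0 : 0 ≤ ∑ x, w x ^ 2 := Finset.sum_nonneg fun _ _ => sq_nonneg _
  have hδ2 : δ * δ ≤ 1 / 4 := by nlinarith
  nlinarith

/-! ### (4a) operator norm of the conditional mean -/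

lemma sum_lf_sq (hρ : ρ ∣ N) (f : V (N / ρ) → ℝ) :
    ∑ x, (lfM N ρ *ᵥ f) x ^ 2 = (ρ : ℝ) ^ 2 * ∑ X, f X ^ 2 := by
  simp only [lf_mulVec hρ]
  rw [← Finset.sum_fiberwise_of_maps_to (s := univ) (t := (univ : Finset (V (N / ρ))))
    (g := fun x : V N => (cl x : V (N / ρ))) fun x _ => Finset.mem_univ _, Finset.mul_sum]
  refine Finset.sum_congr rfl fun X _ => ?_
  have e : ∀ x ∈ univ.filter (fun x : V N => (cl x : V (N / ρ)) = X), f (cl x) ^ 2 = f X ^ 2 := by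
    intro x hx
    rw [(Finset.mem_filter.1 hx).2]
  rw [Finset.sum_congr rfl e, Finset.sum_const, nsmul_eq_mul, H864.card_cell hρ]

lemma delta_nonneg (h : Dom A ν c) (ρ : ℕ) : 0 ≤ 16 * (ρ : ℝ) ^ 2 * ν / c := by
  have h1 := h.hν
  have h2 := h.hc
  positivity

/-- `|r f|² ≤ 4 δ ρ² |f|²` -/
lemma r_op (hρ : ρ ∣ N) (h : Dom A ν c) (hδ : 16 * (ρ : ℝ) ^ 2 * ν / c ≤ 1 / 2)
    (f : V (N / ρ) → ℝ) :
    ∑ x, ((m2 ρ A - lfM N ρ) *ᵥ f) x ^ 2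
      ≤ 4 * (16 * (ρ : ℝ) ^ 2 * ν / c) * ((ρ : ℝ) ^ 2 * ∑ X, f X ^ 2) := by
  refine (r_sq_le hρ h hδ f).trans ?_
  have h1 := S_qf_le h (lfM N ρ *ᵥ f)
  rw [sum_lf_sq hρ] at h1
  exact mul_le_mul_of_nonneg_left h1 (mul_nonneg (by norm_num) (delta_nonneg h ρ))

/-- **(4a)** -/
theorem m2_op (hρ : ρ ∣ N) (h : Dom A ν c) (hδ : 16 * (ρ : ℝ) ^ 2 * ν / c ≤ 1 / 2)
    (f : V (N / ρ) → ℝ) :
    ∑ x, (m2 ρ A *ᵥ f) x ^ 2
      ≤ ((ρ : ℝ) * (1 + 2 * (16 * (ρ : ℝ) ^ 2 * ν / c))) ^ 2 * ∑ X, f X ^ 2 := by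
  have hn := Nf.of_dom h
  set δ := 16 * (ρ : ℝ) ^ 2 * ν / c with hδd
  have hδ0 : 0 ≤ δ := delta_nonneg h ρ
  set w := (m2 ρ A - lfM N ρ) *ᵥ f with hw
  set g := lfM N ρ *ᵥ f with hg
  have h1 : m2 ρ A *ᵥ f = g + w := by
    rw [hw, Matrix.sub_mulVec]
    abel
  have hwr : cellP N ρ *ᵥ w = 0 := by
    rw [hw, mulVec_mulVec, cellP_r hρ hn, zero_mulVec]
  have hgr : cellP N ρ *ᵥ g = g := by
    rw [hg, mulVec_mulVec, cellP_lf hρ]
  have h2 : ∑ x, g x * w x = 0 := by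
    have h3 : ∑ x, g x * w x = g ⬝ᵥ w := rfl
    rw [h3, ← hgr, dotProduct_comm, Matrix.dotProduct_mulVec, ← Matrix.mulVec_transpose,
      H864.cellP_tr, hwr, zero_dotProduct]
  have h4 : ∑ x, (m2 ρ A *ᵥ f) x ^ 2 = ∑ x, g x ^ 2 + ∑ x, w x ^ 2 := by
    rw [h1]
    have e : ∀ x, (g + w) x ^ 2 = g x ^ 2 + w x ^ 2 + 2 * (g x * w x) := by
      intro x
      rw [Pi.add_apply]
      ring
    simp only [e]
    rw [Finset.sum_add_distrib, Finset.sum_add_distrib, ← Finset.mul_sum, h2]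
    ring
  have h5 := r_op hρ h hδ f
  have h6 := sum_lf_sq hρ f
  rw [h4, h6]
  have h7 : 0 ≤ (ρ : ℝ) ^ 2 * ∑ X, f X ^ 2 :=
    mul_nonneg (sq_nonneg _) (Finset.sum_nonneg fun _ _ => sq_nonneg _)
  calc (ρ : ℝ) ^ 2 * ∑ X, f X ^ 2 + ∑ x, w x ^ 2
      ≤ (ρ : ℝ) ^ 2 * ∑ X, f X ^ 2 + 4 * δ * ((ρ : ℝ) ^ 2 * ∑ X, f X ^ 2) := by linarith
    _ ≤ ((ρ : ℝ) * (1 + 2 * δ)) ^ 2 * ∑ X, f X ^ 2 := by
      have : ((ρ : ℝ) * (1 + 2 * δ)) ^ 2 * ∑ X, f X ^ 2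
          = (1 + 2 * δ) ^ 2 * ((ρ : ℝ) ^ 2 * ∑ X, f X ^ 2) := by ring
      rw [this]
      have h8 : 0 ≤ (4 * δ ^ 2) * ((ρ : ℝ) ^ 2 * ∑ X, f X ^ 2) := mul_nonneg (by positivity) h7
      nlinarith

/-- **(4a)** transposed: operator norm of `m2ᵀ` -/
theorem m2_opT (hρ : ρ ∣ N) (h : Dom A ν c) (hδ : 16 * (ρ : ℝ) ^ 2 * ν / c ≤ 1 / 2)
    (u : V N → ℝ) :
    ∑ X, (∑ x, m2 ρ A x X * u x) ^ 2
      ≤ ((ρ : ℝ) * (1 + 2 * (16 * (ρ : ℝ) ^ 2 * ν / c))) ^ 2 * ∑ x, u x ^ 2 := by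
  set op := (ρ : ℝ) * (1 + 2 * (16 * (ρ : ℝ) ^ 2 * ν / c)) with hop
  set f : V (N / ρ) → ℝ := fun X => ∑ x, m2 ρ A x X * u x with hf
  set q := ∑ X, f X ^ 2 with hq
  have hq0 : 0 ≤ q := Finset.sum_nonneg fun _ _ => sq_nonneg _
  have h1 : q = ∑ x, u x * (m2 ρ A *ᵥ f) x := by
    have e1 : ∀ X, f X ^ 2 = ∑ x, u x * (m2 ρ A x X * f X) := by
      intro X
      rw [pow_two]
      conv_lhs => rw [hf]
      simp only [Finset.sum_mul]
      exact Finset.sum_congr rfl fun x _ => by ring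
    rw [hq]
    simp only [e1]
    rw [Finset.sum_comm]
    refine Finset.sum_congr rfl fun x _ => ?_
    rw [← Finset.mul_sum]
    rfl
  have h2 : q ^ 2 ≤ (∑ x, u x ^ 2) * (op ^ 2 * q) := by
    calc q ^ 2 = (∑ x, u x * (m2 ρ A *ᵥ f) x) ^ 2 := by rw [← h1]
      _ ≤ (∑ x, u x ^ 2) * ∑ x, (m2 ρ A *ᵥ f) x ^ 2 := Finset.sum_mul_sq_le_sq_mul_sq _ _ _
      _ ≤ _ := mul_le_mul_of_nonneg_left (m2_op hρ h hδ f)
        (Finset.sum_nonneg fun _ _ => sq_nonneg _)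
  rcases hq0.eq_or_lt with h6 | h6
  · rw [← h6]
    exact mul_nonneg (sq_nonneg _) (Finset.sum_nonneg fun _ _ => sq_nonneg _)
  · have h9 : q * q ≤ (op ^ 2 * ∑ x, u x ^ 2) * q := by nlinarith
    exact le_of_mul_le_mul_right h9 h6

/-! ### (4b) columns of the remainder -/

/-- entries of a nonnegative translation invariant form -/
lemma abs_entry_le {S : Matrix (V N) (V N) ℝ} (hS : TI S) (h0 : ∀ k, 0 ≤ sym S k) (x y : V N) :
    |S x y| ≤ S 0 0 := by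
  rw [hS.inversion x y, hS.diag_eq 0, abs_mul, abs_of_nonneg (by positivity)]
  refine mul_le_mul_of_nonneg_left ?_ (by positivity)
  refine (Finset.abs_sum_le_sum_abs _ _).trans (Finset.sum_le_sum fun k _ => ?_)
  rw [abs_mul, abs_of_nonneg (h0 k)]
  have h1 : |cN (dt k (y - x))| ≤ 1 := Real.abs_cos_le_one _
  calc sym S k * |cN (dt k (y - x))| ≤ sym S k * 1 := mul_le_mul_of_nonneg_left h1 (h0 k)
    _ = sym S k := mul_one _

lemma qf_le_diag {S : Matrix (V N) (V N) ℝ} (hS : TI S) (h0 : ∀ k, 0 ≤ sym S k) (u : V N → ℝ) :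
    qf S u ≤ S 0 0 * (∑ x, |u x|) ^ 2 := by
  have e : qf S u = ∑ x, ∑ y, u x * S x y * u y := by
    rw [H37.qf_eq]
    unfold dotProduct Matrix.mulVec dotProduct
    refine Finset.sum_congr rfl fun x _ => ?_
    rw [Finset.mul_sum]
    exact Finset.sum_congr rfl fun y _ => by ring
  rw [e, pow_two, Finset.sum_mul_sum, Finset.mul_sum]
  refine Finset.sum_le_sum fun x _ => ?_
  rw [Finset.mul_sum]
  refine Finset.sum_le_sum fun y _ => ?_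
  have h1 := abs_entry_le hS h0 x y
  calc u x * S x y * u y ≤ |u x * S x y * u y| := le_abs_self _
    _ = |S x y| * (|u x| * |u y|) := by rw [abs_mul, abs_mul]; ring
    _ ≤ S 0 0 * (|u x| * |u y|) := mul_le_mul_of_nonneg_right h1 (by positivity)

lemma S00_nonneg (h : Dom A ν c) : 0 ≤ (1 - ν⁻¹ • A) 0 0 := by
  have := abs_entry_le (ti_S (Nf.of_dom h) ν) (S_nonneg h) 0 0
  exact (abs_nonneg _).trans this

lemma single_sq (X : V (N / ρ)) : ∑ Y, (Pi.single X (1 : ℝ) : V (N / ρ) → ℝ) Y ^ 2 = 1 := by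
  have : ∀ Y, (Pi.single X (1 : ℝ) : V (N / ρ) → ℝ) Y ^ 2 = if Y = X then 1 else 0 := by
    intro Y
    rw [Pi.single_apply]
    split_ifs <;> simp
  simp only [this]
  rw [Finset.sum_ite_eq']
  simp

lemma mulVec_single_one' {I J : Type*} [Fintype J] [DecidableEq J] (M : Matrix I J ℝ) (X : J)
    (w : I) : (M *ᵥ (Pi.single X (1 : ℝ))) w = M w X := by
  rw [Matrix.mulVec_single]
  simp

/-- `<1_X, S 1_X> ≤ ρ⁴ S(0,0)` -/
lemma qf_cell_le (hρ : ρ ∣ N) (h : Dom A ν c) (X : V (N / ρ)) :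
    qf (1 - ν⁻¹ • A) (lfM N ρ *ᵥ Pi.single X 1) ≤ (ρ : ℝ) ^ 4 * (1 - ν⁻¹ • A) 0 0 := by
  refine (qf_le_diag (ti_S (Nf.of_dom h) ν) (S_nonneg h) _).trans (le_of_eq ?_)
  have e : ∑ x, |(lfM N ρ *ᵥ Pi.single X (1 : ℝ)) x| = (ρ : ℝ) ^ 2 := by
    have e1 : ∀ x, |(lfM N ρ *ᵥ Pi.single X (1 : ℝ)) x| = if (cl x : V (N / ρ)) = X then 1 else 0 := by
      intro x
      rw [mulVec_single_one', lf_apply hρ]
      split_ifs <;> simp
    simp only [e1]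
    rw [← Finset.sum_filter, Finset.sum_const, nsmul_eq_mul, H864.card_cell hρ, mul_one]
  rw [e]
  ring

/-- **(4b)** squares -/
theorem r_col_sq (hρ : ρ ∣ N) (h : Dom A ν c) (hδ : 16 * (ρ : ℝ) ^ 2 * ν / c ≤ 1 / 2)
    (X : V (N / ρ)) :
    ∑ w, (m2 ρ A - lfM N ρ) w X ^ 2
      ≤ 4 * (16 * (ρ : ℝ) ^ 2 * ν / c) * ((ρ : ℝ) ^ 4 * (1 - ν⁻¹ • A) 0 0) := by
  have h1 := r_sq_le hρ h hδ (Pi.single X 1)
  simp only [mulVec_single_one'] at h1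
  exact h1.trans (mul_le_mul_of_nonneg_left (qf_cell_le hρ h X)
    (mul_nonneg (by norm_num) (delta_nonneg h ρ)))

lemma sum_abs_le_N (u : V N → ℝ) : ∑ x, |u x| ≤ N * √(∑ x, u x ^ 2) := by
  have h1 : (∑ x, |u x|) ^ 2 ≤ (N : ℝ) ^ 2 * ∑ x, u x ^ 2 := by
    have h2 := sq_sum_le_card_mul_sum_sq (s := (univ : Finset (V N))) (f := fun x => |u x|)
    have h3 : (((univ : Finset (V N)).card : ℕ) : ℝ) = (N : ℝ) ^ 2 := card_real N
    rw [h3] at h2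
    simpa only [sq_abs] using h2
  have h4 : ∑ x, |u x| ≤ √((N : ℝ) ^ 2 * ∑ x, u x ^ 2) := Real.le_sqrt_of_sq_le h1
  rwa [Real.sqrt_mul (by positivity), Real.sqrt_sq (by positivity)] at h4

/-- **(4b)** -/
theorem r_col_abs (hρ : ρ ∣ N) (h : Dom A ν c) (hδ : 16 * (ρ : ℝ) ^ 2 * ν / c ≤ 1 / 2)
    (X : V (N / ρ)) :
    ∑ w, |(m2 ρ A - lfM N ρ) w X|
      ≤ (ρ : ℝ) ^ 2 * (2 * N * √(16 * (ρ : ℝ) ^ 2 * ν / c * (1 - ν⁻¹ • A) 0 0)) := by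
  refine (sum_abs_le_N fun w => (m2 ρ A - lfM N ρ) w X).trans ?_
  have h1 := Real.sqrt_le_sqrt (r_col_sq hρ h hδ X)
  have h2 : √(4 * (16 * (ρ : ℝ) ^ 2 * ν / c) * ((ρ : ℝ) ^ 4 * (1 - ν⁻¹ • A) 0 0))
      = 2 * (ρ : ℝ) ^ 2 * √(16 * (ρ : ℝ) ^ 2 * ν / c * (1 - ν⁻¹ • A) 0 0) := by
    have e : 4 * (16 * (ρ : ℝ) ^ 2 * ν / c) * ((ρ : ℝ) ^ 4 * (1 - ν⁻¹ • A) 0 0)
        = (2 * (ρ : ℝ) ^ 2) ^ 2 * (16 * (ρ : ℝ) ^ 2 * ν / c * (1 - ν⁻¹ • A) 0 0) := by ring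
    rw [e, Real.sqrt_mul (by positivity), Real.sqrt_sq (by positivity)]
  rw [h2] at h1
  calc (N : ℝ) * √(∑ w, (m2 ρ A - lfM N ρ) w X ^ 2)
      ≤ N * (2 * (ρ : ℝ) ^ 2 * √(16 * (ρ : ℝ) ^ 2 * ν / c * (1 - ν⁻¹ • A) 0 0)) :=
        mul_le_mul_of_nonneg_left h1 (by positivity)
    _ = _ := by ring

/-! ### (4d) the variance of `S B g` and the factor of the main function -/

/-- `<u, Sg u> ≤ 2 |(1-P) u|² / ν` -/
theorem Sg_le (hρ : ρ ∣ N) (h : Dom A ν c) (hδ : 16 * (ρ : ℝ) ^ 2 * ν / c ≤ 1 / 2)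
    (u : V N → ℝ) :
    qf (Sg ρ A) u ≤ 2 / ν * ∑ x, (u x - (cellP N ρ *ᵥ u) x) ^ 2 := by
  have hn := Nf.of_dom h
  have hν := h.hν
  set v := Sg ρ A *ᵥ u with hv
  set q := qf (Sg ρ A) u with hq
  have hq0 : 0 ≤ q := Sg_nonneg hρ hn u
  have hvr : cellP N ρ *ᵥ v = 0 := by
    rw [hv, mulVec_mulVec, cellP_Sg hρ hn, zero_mulVec]
  have h1 : q = qf A v := by
    rw [hq, hv, qf_mulVec_gen, Sg_tr hρ hn, Sg_A_Sg hρ hn]
  have h2 := A_rough hρ h hvr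
  have h3 : q = ∑ x, (u x - (cellP N ρ *ᵥ u) x) * v x := by
    have h4 : ∑ x, (cellP N ρ *ᵥ u) x * v x = 0 := by
      have h5 : ∑ x, (cellP N ρ *ᵥ u) x * v x = v ⬝ᵥ (cellP N ρ *ᵥ u) := by
        rw [dotProduct_comm]; rfl
      rw [h5, Matrix.dotProduct_mulVec, ← Matrix.mulVec_transpose, H864.cellP_tr, hvr,
        zero_dotProduct]
    simp only [sub_mul]
    rw [Finset.sum_sub_distrib, h4, sub_zero, hq, H37.qf_eq]
    rfl
  have h6 : q ^ 2 ≤ (∑ x, (u x - (cellP N ρ *ᵥ u) x) ^ 2) * ∑ x, v x ^ 2 := by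
    rw [h3]
    exact Finset.sum_mul_sq_le_sq_mul_sq _ _ _
  have h7 : ν / 2 * ∑ x, v x ^ 2 ≤ q := by
    rw [h1]
    refine le_trans ?_ h2
    refine mul_le_mul_of_nonneg_right ?_ (Finset.sum_nonneg fun _ _ => sq_nonneg _)
    nlinarith
  set D := ∑ x, (u x - (cellP N ρ *ᵥ u) x) ^ 2 with hD
  have hD0 : 0 ≤ D := Finset.sum_nonneg fun _ _ => sq_nonneg _
  rcases hq0.eq_or_lt with h8 | h8
  · rw [← h8]
    positivity
  · have h9 : ∑ x, v x ^ 2 ≤ 2 / ν * q := by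
      have : 2 / ν * (ν / 2 * ∑ x, v x ^ 2) ≤ 2 / ν * q := mul_le_mul_of_nonneg_left h7 (by positivity)
      have e : 2 / ν * (ν / 2 * ∑ x, v x ^ 2) = ∑ x, v x ^ 2 := by field_simp
      rwa [e] at this
    have h10 : q * q ≤ (2 / ν * D) * q := by
      calc q * q = q ^ 2 := by ring
        _ ≤ D * ∑ x, v x ^ 2 := h6
        _ ≤ D * (2 / ν * q) := mul_le_mul_of_nonneg_left h9 hD0
        _ = _ := by ring
    exact le_of_mul_le_mul_right h10 h8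

lemma single_sq_N (w : V N) : ∑ y, (Pi.single w (1 : ℝ) : V N → ℝ) y ^ 2 = 1 := by
  have : ∀ y, (Pi.single w (1 : ℝ) : V N → ℝ) y ^ 2 = if y = w then 1 else 0 := by
    intro Y
    rw [Pi.single_apply]
    split_ifs <;> simp
  simp only [this]
  rw [Finset.sum_ite_eq']
  simp

lemma qf_single_one (M : Matrix (V N) (V N) ℝ) (w : V N) : qf M (Pi.single w 1) = M w w := by
  rw [H37.qf_eq, single_dotProduct, mulVec_single_one', one_mul]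

/-- **(4d)** `(S Sg S)(w,w) ≤ 32 ρ² S(0,0) / c` -/
theorem var_le (hρ : ρ ∣ N) (h : Dom A ν c) (hδ : 16 * (ρ : ℝ) ^ 2 * ν / c ≤ 1 / 2)
    (w : V N) :
    ((1 - ν⁻¹ • A) * Sg ρ A * (1 - ν⁻¹ • A)) w w ≤ 32 * (ρ : ℝ) ^ 2 / c * (1 - ν⁻¹ • A) 0 0 := by
  have hn := Nf.of_dom h
  have hν := h.hν
  have hc := h.hc
  have ht := ti_S hn ν
  have e1 : ((1 - ν⁻¹ • A) * Sg ρ A * (1 - ν⁻¹ • A)) w w
      = qf (Sg ρ A) ((1 - ν⁻¹ • A) *ᵥ Pi.single w 1) := by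
    rw [qf_mulVec_gen, ht.transpose, qf_single_one]
  have e2 := Sg_le hρ h hδ ((1 - ν⁻¹ • A) *ᵥ Pi.single w 1)
  have e3 := rough_S_le hρ h (Pi.single w 1)
  rw [qf_single_one, ht.diag] at e3
  rw [e1]
  calc qf (Sg ρ A) ((1 - ν⁻¹ • A) *ᵥ Pi.single w 1)
      ≤ 2 / ν * (16 * (ρ : ℝ) ^ 2 * ν / c * (1 - ν⁻¹ • A) 0 0) :=
        e2.trans (mul_le_mul_of_nonneg_left e3 (by positivity))
    _ = 32 * (ρ : ℝ) ^ 2 / c * (1 - ν⁻¹ • A) 0 0 := by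
      field_simp
      ring

/-- the sum of the squares of a row of `S B`, any root `B` of `Sg` -/
lemma row_SB {I : Type*} [Fintype I] {B : Matrix (V N) I ℝ} (h : Nf A) (hB : B * Bᵀ = Sg ρ A)
    (ν : ℝ) (w : V N) :
    ∑ i, (((1 - ν⁻¹ • A : Matrix (V N) (V N) ℝ) * B : Matrix (V N) I ℝ) w i) ^ 2
      = ((1 - ν⁻¹ • A) * Sg ρ A * (1 - ν⁻¹ • A)) w w := by
  have ht := ti_S h ν
  have e : (1 - ν⁻¹ • A) * Sg ρ A * (1 - ν⁻¹ • A)
      = ((1 - ν⁻¹ • A : Matrix (V N) (V N) ℝ) * B : Matrix (V N) I ℝ)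
        * ((1 - ν⁻¹ • A : Matrix (V N) (V N) ℝ) * B : Matrix (V N) I ℝ)ᵀ := by
    rw [Matrix.transpose_mul, ht.transpose, ← hB]
    simp only [Matrix.mul_assoc]
  rw [e, Matrix.mul_apply]
  refine Finset.sum_congr rfl fun i _ => ?_
  rw [Matrix.transpose_apply, pow_two]

/-! ### (4c) the variance of `r f'` -/

lemma trace_cellP_mul (hρ : ρ ∣ N) {Y : Matrix (V N) (V N) ℝ} (hY : TI Y) :
    (cellP N ρ * Y).trace = ∑ p, sym Y p * Wl ρ p := by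
  rw [← H864.trace_Gc hρ, (H864.ti_Gc hρ hY.ct).trace_eq]
  simp only [H864.sym_Gc hρ hY]
  unfold als
  exact Finset.sum_fiberwise _ _ _

lemma trace_rough_le (hρ : ρ ∣ N) {Y : Matrix (V N) (V N) ℝ} (hY : TI Y)
    (h0 : ∀ p, 0 ≤ sym Y p) :
    ((1 - cellP N ρ) * Y).trace ≤ (ρ : ℝ) ^ 2 * ∑ p, EE p * sym Y p := by
  rw [Matrix.sub_mul, Matrix.one_mul, Matrix.trace_sub, trace_cellP_mul hρ hY, hY.trace_eq,
    ← Finset.sum_sub_distrib, Finset.mul_sum]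
  refine Finset.sum_le_sum fun p _ => ?_
  have h1 := H864.one_sub_Wl_le hρ p
  have h2 := h0 p
  nlinarith

/-- the symbol of `S (pI A) S` -/
lemma EE_sym_le (h : Dom A ν c) (p : V N) :
    EE p * sym ((1 - ν⁻¹ • A) * pI A * (1 - ν⁻¹ • A)) p ≤ c⁻¹ * sym (1 - ν⁻¹ • A) p := by
  have hn := Nf.of_dom h
  have ht := ti_S hn ν
  rw [H864.sym_mul (ht.mul (ti_pI A)) ht, H864.sym_mul ht (ti_pI A), sym_pI]
  have hc := h.hc
  have hν := h.hν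
  have s0 := S_nonneg h p
  by_cases hp : p = 0
  · rw [hp]
    have : EE (0 : V N) = 0 := TM.H764.EE_zero
    rw [this, zero_mul]
    have := S_nonneg h 0
    positivity
  have hE : 0 ≤ EE p := TM.H764.EE_nonneg p
  have ha := h.sym_pos hp
  have hge := h.ge p
  have hS := S_le h p
  set a := sym A p with had
  set σ := sym (1 - ν⁻¹ • A) p with hσ
  have hd : 0 < ν + c * EE p := by positivity
  -- EE / a ≤ (ν + c EE)/(ν c)
  have h1 : EE p * σ * a⁻¹ ≤ c⁻¹ := by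
    rw [← div_eq_mul_inv, div_le_iff₀ ha]
    have h2 : EE p * σ ≤ EE p * (ν / (ν + c * EE p)) := mul_le_mul_of_nonneg_left hS hE
    have h3 : EE p * (ν / (ν + c * EE p)) = c⁻¹ * (ν * (c * EE p) / (ν + c * EE p)) := by
      field_simp
    have h4 : c⁻¹ * (ν * (c * EE p) / (ν + c * EE p)) ≤ c⁻¹ * a :=
      mul_le_mul_of_nonneg_left hge (by positivity)
    linarith
  have : EE p * (σ * a⁻¹ * σ) = (EE p * σ * a⁻¹) * σ := by ring
  rw [this]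
  exact mul_le_mul_of_nonneg_right h1 s0

lemma trace_mul_self_tr_nonneg {I J : Type*} [Fintype I] [Fintype J] (B : Matrix I J ℝ) :
    0 ≤ (B * Bᵀ).trace := by
  unfold Matrix.trace
  refine Finset.sum_nonneg fun i _ => ?_
  rw [Matrix.diag_apply, Matrix.mul_apply]
  exact Finset.sum_nonneg fun j _ => by rw [Matrix.transpose_apply]; exact mul_self_nonneg _

/-- **(4c)** total -/
theorem trace_r_le (hρ : ρ ∣ N) (h : Dom A ν c) :
    ((m2 ρ A - lfM N ρ) * Kc ρ A * (m2 ρ A - lfM N ρ)ᵀ).trace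
      ≤ (ρ : ℝ) ^ 2 * ((N : ℝ) ^ 2 * (c⁻¹ * (1 - ν⁻¹ • A) 0 0)) := by
  have hn := Nf.of_dom h
  have ht := ti_S hn ν
  set S := (1 - ν⁻¹ • A) with hS
  set P := cellP N ρ with hP
  have hPt : (1 - P)ᵀ = 1 - P := by
    rw [Matrix.transpose_sub, Matrix.transpose_one, hP, H864.cellP_tr]
  have hPP : (1 - P) * (1 - P) = 1 - P := by
    rw [Matrix.mul_sub, Matrix.mul_one, Matrix.sub_mul, Matrix.one_mul, hP, H864.cellP_mul_self hρ,
      sub_self, sub_zero]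
  have e1 : (m2 ρ A - lfM N ρ) * Kc ρ A * (m2 ρ A - lfM N ρ)ᵀ
      = (1 - P) * S * (m2 ρ A * Kc ρ A * (m2 ρ A)ᵀ) * S * (1 - P) := by
    rw [r_eq hρ hn ν, Matrix.transpose_mul, Matrix.transpose_mul, ht.transpose, hPt]
    simp only [Matrix.mul_assoc, hS, hP]
  have e2 : (1 - P) * S * (m2 ρ A * Kc ρ A * (m2 ρ A)ᵀ) * S * (1 - P)
      = (1 - P) * (S * pI A * S) * (1 - P)
        - ((1 - P) * S * Bm ρ A) * ((1 - P) * S * Bm ρ A)ᵀ := by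
    have e3 : m2 ρ A * Kc ρ A * (m2 ρ A)ᵀ = pI A - Bm ρ A * (Bm ρ A)ᵀ := by
      rw [Bm_mul hρ hn]
      unfold Sg
      abel
    rw [e3, Matrix.transpose_mul, Matrix.transpose_mul, ht.transpose, hPt]
    simp only [Matrix.mul_sub, Matrix.sub_mul, Matrix.mul_assoc]
    abel
  have e4 : ((1 - P) * (S * pI A * S) * (1 - P)).trace = ((1 - P) * (S * pI A * S)).trace := by
    rw [Matrix.trace_mul_comm, ← Matrix.mul_assoc, hPP]
  have hY : TI (S * pI A * S) := (ht.mul (ti_pI A)).mul ht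
  have hY0 : ∀ p, 0 ≤ sym (S * pI A * S) p := by
    intro p
    rw [H864.sym_mul (ht.mul (ti_pI A)) ht, H864.sym_mul ht (ti_pI A), sym_pI]
    have h1 := S_nonneg h p
    have h2 := h.nn p
    positivity
  rw [e1, e2, Matrix.trace_sub, e4]
  have h3 := trace_mul_self_tr_nonneg ((1 - P) * S * Bm ρ A)
  have h4 := trace_rough_le hρ hY hY0
  have h5 : ∑ p, EE p * sym (S * pI A * S) p ≤ ∑ p, c⁻¹ * sym S p :=
    Finset.sum_le_sum fun p _ => EE_sym_le h p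
  have h6 : ∑ p, c⁻¹ * sym S p = (N : ℝ) ^ 2 * (c⁻¹ * S 0 0) := by
    rw [← Finset.mul_sum, ht.diag_eq 0]
    have : (N : ℝ) ≠ 0 := by exact_mod_cast NeZero.ne N
    field_simp
  calc ((1 - P) * (S * pI A * S)).trace - (((1 - P) * S * Bm ρ A) * ((1 - P) * S * Bm ρ A)ᵀ).trace
      ≤ (ρ : ℝ) ^ 2 * ∑ p, EE p * sym (S * pI A * S) p := by linarith
    _ ≤ (ρ : ℝ) ^ 2 * ((N : ℝ) ^ 2 * (c⁻¹ * S 0 0)) := by
      refine mul_le_mul_of_nonneg_left ?_ (sq_nonneg _)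
      rw [← h6]
      exact h5

/-- **(4c)** one cell -/
theorem rvar_le (hρ : ρ ∣ N) (h : Dom A ν c) (X : V (N / ρ)) :
    ∑ w with (cl w : V (N / ρ)) = X,
        ∑ j, (((m2 ρ A - lfM N ρ) * pin (Ac ρ A)) w j) ^ 2
      ≤ (ρ : ℝ) ^ 2 * ((ρ : ℝ) ^ 2 * (c⁻¹ * (1 - ν⁻¹ • A) 0 0)) := by
  have hn := Nf.of_dom h
  have hρ0 := rho_pos hρ
  set r := m2 ρ A - lfM N ρ with hr
  set T := r * Kc ρ A * rᵀ with hT
  have e1 : ∀ w, ∑ j, ((r * pin (Ac ρ A)) w j) ^ 2 = T w w := by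
    intro w
    have e2 : T = (r * pin (Ac ρ A)) * (r * pin (Ac ρ A))ᵀ := by
      have : (r * pin (Ac ρ A)) * (r * pin (Ac ρ A))ᵀ
          = r * (pin (Ac ρ A) * (pin (Ac ρ A))ᵀ) * rᵀ := by
        rw [Matrix.transpose_mul]
        simp only [Matrix.mul_assoc]
      rw [this, pI_eq_pin (nf_Ac hρ hn), pI_Ac hρ hn]
    rw [e2, Matrix.mul_apply]
    refine Finset.sum_congr rfl fun i _ => ?_
    rw [Matrix.transpose_apply, pow_two]
  simp only [e1]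
  have e3 : ∀ (a : V (N / ρ)) (w : V N), T (w + up a) (w + up a) = T w w := by
    intro a w
    rw [hT, Matrix.mul_apply, Matrix.mul_apply, ← Equiv.sum_comp (Equiv.addRight a)]
    refine Finset.sum_congr rfl fun Y _ => ?_
    simp only [Equiv.coe_addRight, Matrix.transpose_apply]
    rw [hr, r_up hρ, Matrix.mul_apply, Matrix.mul_apply, ← Equiv.sum_comp (Equiv.addRight a)]
    congr 1
    refine Finset.sum_congr rfl fun Z _ => ?_
    simp only [Equiv.coe_addRight]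
    rw [r_up hρ, (ti_Kc hρ A).tr]
  have e4 : T.trace = (((N / ρ : ℕ) : ℝ) ^ 2)
      * ∑ w with (cl w : V (N / ρ)) = X, T w w := by
    unfold Matrix.trace
    simp only [Matrix.diag_apply]
    rw [H864.sum_cells hρ (fun x => T x x)]
    have e5 : ∀ c : V (N / ρ), ∑ x with (cl x : V (N / ρ)) = 0, T (x + up c) (x + up c)
        = ∑ x with (cl x : V (N / ρ)) = 0, T x x := fun c =>
      Finset.sum_congr rfl fun x _ => e3 c x
    simp only [e5]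
    rw [Finset.sum_const, nsmul_eq_mul]
    congr 1
    · exact card_real (N / ρ)
    · rw [Finset.sum_filter, Finset.sum_filter, ← Equiv.sum_comp (Equiv.addRight (up X : V N))
        (fun x => if (cl x : V (N / ρ)) = X then T x x else 0)]
      refine Finset.sum_congr rfl fun x _ => ?_
      have e8 : (cl (x + up X) : V (N / ρ)) = cl x + X := H864.cl_add_up hρ x X
      simp only [Equiv.coe_addRight, e8, add_eq_right, e3 X x]
  have e6 := trace_r_le hρ h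
  rw [← hr, ← hT, e4] at e6
  have hNr := Nρ hρ
  have hn0 : (0 : ℝ) < ((N / ρ : ℕ) : ℝ) := by exact_mod_cast NeZero.pos (N / ρ)
  rw [← hNr] at e6
  have e7 : (((N / ρ : ℕ) : ℝ) ^ 2) * ∑ w with (cl w : V (N / ρ)) = X, T w w
      ≤ (((N / ρ : ℕ) : ℝ) ^ 2) * ((ρ : ℝ) ^ 2 * ((ρ : ℝ) ^ 2 * (c⁻¹ * (1 - ν⁻¹ • A) 0 0))) := by
    refine e6.trans (le_of_eq ?_)
    ring
  exact le_of_mul_le_mul_left e7 (by positivity)

/-! ### row sums of the coarse smoothing matrix -/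

/-- **s1**: `∑_W |Sc(W,X)| ≤ 1 + 2 N δ √S(0,0)` for entrywise nonnegative `S` -/
theorem ssum_le (hρ : ρ ∣ N) (h : Dom A ν c) (hδ : 16 * (ρ : ℝ) ^ 2 * ν / c ≤ 1 / 2)
    (hS0 : ∀ x y, 0 ≤ (1 - ν⁻¹ • A) x y) (X : V (N / ρ)) :
    ∑ W, |(1 - (ν * (ρ : ℝ) ^ 2)⁻¹ • Ac ρ A) W X|
      ≤ 1 + 2 * N * (16 * (ρ : ℝ) ^ 2 * ν / c) * √((1 - ν⁻¹ • A) 0 0) := by
  have hn := Nf.of_dom h
  have hρ0 := rho_pos hρ
  have ht := ti_S hn ν
  set δ := 16 * (ρ : ℝ) ^ 2 * ν / c with hδd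
  have hδ0 : 0 ≤ δ := delta_nonneg h ρ
  set S := (1 - ν⁻¹ • A) with hS
  set r := m2 ρ A - lfM N ρ with hr
  set Sc := 1 - (ν * (ρ : ℝ) ^ 2)⁻¹ • Ac ρ A with hSc
  have e1 : Sc = avM N ρ * (S * lfM N ρ) + avM N ρ * (S * r) := by
    have h1 : avM N ρ * (S * m2 ρ A) = Sc := by
      rw [hS, S_m2 hρ hn ν, Matrix.mul_add, ← Matrix.mul_assoc, av_lf hρ, Matrix.one_mul,
        av_r hρ hn, add_zero]
    rw [← h1, ← Matrix.mul_add, ← Matrix.mul_add]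
    congr 2
    rw [hr]
    abel
  -- first part
  have e2 : ∑ W, |(avM N ρ * (S * lfM N ρ)) W X| = 1 := by
    have e3 : ∀ W, |(avM N ρ * (S * lfM N ρ)) W X| = ∑ w, avM N ρ W w * (S * lfM N ρ) w X := by
      intro W
      rw [Matrix.mul_apply, abs_of_nonneg]
      refine Finset.sum_nonneg fun w _ => mul_nonneg ?_ ?_
      · rw [av_apply]; split_ifs <;> positivity
      · rw [Matrix.mul_apply]
        refine Finset.sum_nonneg fun y _ => mul_nonneg (hS0 w y) ?_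
        rw [lf_apply hρ]; split_ifs <;> norm_num
    simp only [e3]
    rw [Finset.sum_comm]
    have e4 : ∀ w, ∑ W, avM N ρ W w * (S * lfM N ρ) w X
        = ((ρ : ℝ) ^ 2)⁻¹ * (S * lfM N ρ) w X := by
      intro w
      rw [← Finset.sum_mul, col_av]
    simp only [e4]
    rw [← Finset.mul_sum]
    simp only [Matrix.mul_apply]
    rw [Finset.sum_comm]
    have e5 : ∀ y, ∑ w, S w y = 1 := by
      intro y
      rw [hS]
      simp only [Matrix.sub_apply, Matrix.smul_apply, smul_eq_mul]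
      rw [Finset.sum_sub_distrib, ← Finset.mul_sum, col_of_zero hn.ti hn.zero, mul_zero, sub_zero]
      simp [Matrix.one_apply]
    have e6 : ∀ y, ∑ w, S w y * lfM N ρ y X = lfM N ρ y X := by
      intro y
      rw [← Finset.sum_mul, e5, one_mul]
    simp only [e6]
    simp only [lf_apply hρ]
    rw [← Finset.sum_filter, Finset.sum_const, nsmul_eq_mul, H864.card_cell hρ, mul_one,
      inv_mul_cancel₀ (by positivity)]
  -- second part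
  have e7 : ∑ W, |(avM N ρ * (S * r)) W X| ≤ 2 * N * δ * √(S 0 0) := by
    have f1 : ∀ W, |(avM N ρ * (S * r)) W X| ≤ ∑ w, avM N ρ W w * |(S * r) w X| := by
      intro W
      rw [Matrix.mul_apply]
      refine (Finset.abs_sum_le_sum_abs _ _).trans (le_of_eq ?_)
      refine Finset.sum_congr rfl fun w _ => ?_
      rw [abs_mul, abs_of_nonneg]
      rw [av_apply]; split_ifs <;> positivity
    have f2 : ∑ W, |(avM N ρ * (S * r)) W X| ≤ ((ρ : ℝ) ^ 2)⁻¹ * ∑ w, |(S * r) w X| := by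
      refine (Finset.sum_le_sum fun W _ => f1 W).trans (le_of_eq ?_)
      rw [Finset.sum_comm, Finset.mul_sum]
      refine Finset.sum_congr rfl fun w _ => ?_
      rw [← Finset.sum_mul, col_av]
    have f3 : ∑ w, |(S * r) w X| ≤ N * √(∑ w, (S * r) w X ^ 2) :=
      sum_abs_le_N fun w => (S * r) w X
    have f4 : ∑ w, (S * r) w X ^ 2 ≤ (2 * δ * (ρ : ℝ) ^ 2) ^ 2 * S 0 0 := by
      have g1 := S_sq_le h (r *ᵥ Pi.single X 1)
      have g2 : ∀ w, (S *ᵥ (r *ᵥ Pi.single X 1)) w = (S * r) w X := by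
        intro w
        rw [mulVec_mulVec, mulVec_single_one']
      have hwr : cellP N ρ *ᵥ (r *ᵥ Pi.single X 1) = 0 := by
        rw [mulVec_mulVec, cellP_r hρ hn, zero_mulVec]
      have g3 := S_rough hρ h hwr
      have g4 := r_col_sq hρ h hδ X
      have g5 : ∑ w, (r *ᵥ Pi.single X (1 : ℝ)) w ^ 2 = ∑ w, r w X ^ 2 := by
        simp only [mulVec_single_one']
      rw [← hS] at g1 g3 g4
      simp only [g2] at g1
      rw [g5] at g3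
      calc ∑ w, (S * r) w X ^ 2 ≤ δ * ∑ w, r w X ^ 2 := g1.trans g3
        _ ≤ δ * (4 * δ * ((ρ : ℝ) ^ 4 * S 0 0)) := mul_le_mul_of_nonneg_left g4 hδ0
        _ = _ := by ring
    have f5 : √(∑ w, (S * r) w X ^ 2) ≤ 2 * δ * (ρ : ℝ) ^ 2 * √(S 0 0) := by
      refine (Real.sqrt_le_sqrt f4).trans (le_of_eq ?_)
      rw [Real.sqrt_mul (by positivity), Real.sqrt_sq (by positivity)]
    calc ∑ W, |(avM N ρ * (S * r)) W X| ≤ ((ρ : ℝ) ^ 2)⁻¹ * ∑ w, |(S * r) w X| := f2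
      _ ≤ ((ρ : ℝ) ^ 2)⁻¹ * (N * (2 * δ * (ρ : ℝ) ^ 2 * √(S 0 0))) :=
        mul_le_mul_of_nonneg_left (f3.trans (mul_le_mul_of_nonneg_left f5 (by positivity)))
          (by positivity)
      _ = 2 * N * δ * √(S 0 0) := by
        field_simp
  calc ∑ W, |Sc W X| ≤ ∑ W, (|(avM N ρ * (S * lfM N ρ)) W X| + |(avM N ρ * (S * r)) W X|) := by
        refine Finset.sum_le_sum fun W _ => ?_
        rw [e1, Matrix.add_apply]
        exact abs_add_le _ _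
    _ = 1 + ∑ W, |(avM N ρ * (S * r)) W X| := by rw [Finset.sum_add_distrib, e2]
    _ ≤ 1 + 2 * N * δ * √(S 0 0) := by linarith

/-! ### the diagonal of the smoothing matrix -/

/-- `S(0,0) ≤ 1/N² + 25 (ν/c) (1 + log (1 + 9c/ν))` -/
theorem S00_le (h : Dom A ν c) :
    (1 - ν⁻¹ • A) 0 0
      ≤ ((N : ℝ) ^ 2)⁻¹ + 25 * (ν / c) * (1 + Real.log (1 + 9 * c / ν)) := by
  have hn := Nf.of_dom h
  have hν := h.hν
  have hc := h.hc
  have hN : (0 : ℝ) < N := by exact_mod_cast NeZero.pos N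
  rw [(ti_S hn ν).diag_eq 0]
  have h1 := H462.sum_log (N := N) (ν := 9) (m := ν / c) (by norm_num) (by positivity)
  have h2 : ∑ k, sym (1 - ν⁻¹ • A) k
      ≤ 1 + ν / c * ∑ k ∈ H462.low N 9, (EE k + ν / c)⁻¹ := by
    rw [← Finset.add_sum_erase _ _ (Finset.mem_univ (0 : V N)), Finset.mul_sum]
    refine add_le_add (S_le_one h 0) ?_
    have h3 : (univ : Finset (V N)).erase 0 = H462.low N 9 := by
      ext k
      unfold H462.low
      rw [Finset.mem_erase, Finset.mem_filter]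
      constructor
      · intro hk
        refine ⟨Finset.mem_univ _, hk.1, ?_⟩
        have h8 : -1 ≤ cN k.1 := Real.neg_one_le_cos _
        have h9 : -1 ≤ cN k.2 := Real.neg_one_le_cos _
        unfold EE
        linarith
      · intro hk
        exact ⟨hk.2.1, Finset.mem_univ _⟩
    rw [h3]
    refine Finset.sum_le_sum fun k _ => ?_
    have h4 := S_le h k
    have h5 : 0 ≤ EE k := TM.H764.EE_nonneg k
    have h6 : ν / (ν + c * EE k) = ν / c * (EE k + ν / c)⁻¹ := by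
      have : 0 < ν + c * EE k := by positivity
      have : 0 < EE k + ν / c := by positivity
      field_simp
      ring
    rw [← h6]
    exact h4
  have h7 : (9 : ℝ) / (ν / c) = 9 * c / ν := by field_simp
  rw [h7] at h1
  calc ((N : ℝ) ^ 2)⁻¹ * ∑ k, sym (1 - ν⁻¹ • A) k
      ≤ ((N : ℝ) ^ 2)⁻¹ * (1 + ν / c * (25 * (N : ℝ) ^ 2 * (1 + Real.log (1 + 9 * c / ν)))) := by
        refine mul_le_mul_of_nonneg_left (h2.trans ?_) (by positivity)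
        have := mul_le_mul_of_nonneg_left h1 (by positivity : (0 : ℝ) ≤ ν / c)
        linarith
    _ = _ := by
      field_simp

end bounds

end

end Vale.Agent.P159.H708
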