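import Vale.Agent.P159.H708.Coarse2
import Vale.Agent.P159.H963.DenC

/-!
P159 / H708: the numbers of the coarse graining step (module VB6): the structure `H963.CG` from
`Dom A ν c`, and the factor `GC` of the main function.
-/

set_option linter.unusedSectionVars false

namespace Vale.Agent.P159.H708

open Finset Matrix MeasureTheory
open Vale.Agent.P159.TM.H764 (EE)
open Vale.Agent.P159.TM.Spec (V)
open Vale.Agent.P159.H37 (qf gau)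
open Vale.Agent.P159.H864 (TI CT sym cl up)
open Vale.Agent.P159.H363 (pin Nf)
open Vale.Agent.P159.H462 (Dom)
open Vale.Agent.P159.H963 (CG vC GC)
open scoped Real

noncomputable section

variable {N ρ : ℕ} [NeZero N] [NeZero (N / ρ)] {A : Matrix (V N) (V N) ℝ} {ν c : ℝ}

/-- **the quantitative hypotheses of the coarse graining**, `δ = 16 ρ² ν / c ≤ 1/2`,
`s₀ = S(0,0)`: `d3 = ρ √(s₀/c)`, `e4 = 2 N √(δ s₀)`, `s1 = 1 + 2 N δ √s₀`, `op = ρ (1 + 2 δ)` -/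
theorem cg_of_dom (hρ : ρ ∣ N) (h : Dom A ν c) (hδ : 16 * (ρ : ℝ) ^ 2 * ν / c ≤ 1 / 2)
    (hS0 : ∀ x y, 0 ≤ (1 - ν⁻¹ • A) x y) :
    CG ρ A ν ((ρ : ℝ) * √(c⁻¹ * (1 - ν⁻¹ • A) 0 0))
      (2 * N * √(16 * (ρ : ℝ) ^ 2 * ν / c * (1 - ν⁻¹ • A) 0 0))
      (1 + 2 * N * (16 * (ρ : ℝ) ^ 2 * ν / c) * √((1 - ν⁻¹ • A) 0 0))
      ((ρ : ℝ) * (1 + 2 * (16 * (ρ : ℝ) ^ 2 * ν / c))) where
  rvar := by
    refine (rvar_le hρ h 0).trans (le_of_eq ?_)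
    have h1 := S00_nonneg h
    have h2 := h.hc
    rw [mul_pow, Real.sq_sqrt (by positivity)]
  rsum := r_col_abs hρ h hδ 0
  ssum := ssum_le hρ h hδ hS0 0
  opn := m2_opT hρ h hδ
  d30 := by positivity
  op0 := by
    have h1 := delta_nonneg h ρ
    positivity

lemma vC_eq (hρ : ρ ∣ N) (h : Nf A) (ν : ℝ) (w : V N) :
    vC ρ A ν w = ((1 - ν⁻¹ • A) * Sg ρ A * (1 - ν⁻¹ • A)) w w :=
  row_SB h (Bm_mul hρ h) ν w

lemma vC_nonneg (ρ : ℕ) [NeZero (N / ρ)] (A : Matrix (V N) (V N) ℝ) (ν : ℝ) (w : V N) :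
    0 ≤ vC ρ A ν w := by
  unfold vC
  exact Finset.sum_nonneg fun _ _ => sq_nonneg _

/-- variance of `S B g` -/
theorem vC_le (hρ : ρ ∣ N) (h : Dom A ν c) (hδ : 16 * (ρ : ℝ) ^ 2 * ν / c ≤ 1 / 2) (w : V N) :
    vC ρ A ν w ≤ 32 * (ρ : ℝ) ^ 2 / c * (1 - ν⁻¹ • A) 0 0 := by
  rw [vC_eq hρ (Nf.of_dom h)]
  exact var_le hρ h hδ w

lemma GC_pos (ρ : ℕ) [NeZero (N / ρ)] (A : Matrix (V N) (V N) ℝ) (ν : ℝ) : 0 < GC ρ A ν := by
  unfold GC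
  refine Finset.sum_pos (fun w _ => Real.exp_pos _) ⟨0, ?_⟩
  rw [Finset.mem_filter]
  exact ⟨Finset.mem_univ _, H864.cl_zero⟩

/-- `GC ≤ ρ²` -/
theorem GC_le (hρ : ρ ∣ N) : GC ρ A ν ≤ (ρ : ℝ) ^ 2 := by
  unfold GC
  have h1 : ∑ w with (cl w : V (N / ρ)) = 0, Real.exp (-(2 * π ^ 2 * vC ρ A ν w))
      ≤ ∑ w : V N with (cl w : V (N / ρ)) = 0, (1 : ℝ) := by
    refine Finset.sum_le_sum fun w _ => ?_
    have := vC_nonneg ρ A ν w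
    rw [Real.exp_le_one_iff]
    have : 0 ≤ 2 * π ^ 2 * vC ρ A ν w := by positivity
    linarith
  rw [Finset.sum_const, nsmul_eq_mul, H864.card_cell hρ, mul_one] at h1
  exact h1

/-- `ρ² (1 - 64 π² ρ² s₀ / c) ≤ GC` -/
theorem GC_ge (hρ : ρ ∣ N) (h : Dom A ν c) (hδ : 16 * (ρ : ℝ) ^ 2 * ν / c ≤ 1 / 2) :
    (ρ : ℝ) ^ 2 * (1 - 2 * π ^ 2 * (32 * (ρ : ℝ) ^ 2 / c * (1 - ν⁻¹ • A) 0 0)) ≤ GC ρ A ν := by
  unfold GC
  have h1 : ∑ w : V N with (cl w : V (N / ρ)) = 0,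
        (1 - 2 * π ^ 2 * (32 * (ρ : ℝ) ^ 2 / c * (1 - ν⁻¹ • A) 0 0))
      ≤ ∑ w with (cl w : V (N / ρ)) = 0, Real.exp (-(2 * π ^ 2 * vC ρ A ν w)) := by
    refine Finset.sum_le_sum fun w _ => ?_
    have h2 := vC_le hρ h hδ w
    have h3 := Real.add_one_le_exp (-(2 * π ^ 2 * vC ρ A ν w))
    have h4 : 2 * π ^ 2 * vC ρ A ν w
        ≤ 2 * π ^ 2 * (32 * (ρ : ℝ) ^ 2 / c * (1 - ν⁻¹ • A) 0 0) :=
      mul_le_mul_of_nonneg_left h2 (by positivity)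
    linarith
  rw [Finset.sum_const, nsmul_eq_mul, H864.card_cell hρ] at h1
  exact h1

/-- the diagonal of the smoothing matrix in a form ready for use: `ν N² ≥ 1`, `ν ≤ c` -/
theorem S00_le' (h : Dom A ν c) (hN : 1 ≤ ν * (N : ℝ) ^ 2) (hc1 : c ≤ 1) (hνc : ν ≤ c) :
    (1 - ν⁻¹ • A) 0 0 ≤ 100 * (ν / c) * (1 + Real.log (1 / ν)) := by
  have hν := h.hν
  have hc := h.hc
  have hNp : (0 : ℝ) < N := by exact_mod_cast NeZero.pos N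
  have h1 := S00_le h
  have h2 : ((N : ℝ) ^ 2)⁻¹ ≤ ν / c := by
    have h3 : ((N : ℝ) ^ 2)⁻¹ ≤ ν := by
      rw [inv_le_iff_one_le_mul₀ (by positivity)]
      exact hN
    have h4 : ν ≤ ν / c := by
      rw [le_div_iff₀ hc]
      nlinarith
    linarith
  have h5 : Real.log (1 + 9 * c / ν) ≤ Real.log 10 + Real.log (1 / ν) := by
    rw [← Real.log_mul (by norm_num) (by positivity)]
    refine Real.log_le_log (by positivity) ?_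
    rw [mul_one_div, le_div_iff₀ hν, add_mul, one_mul, div_mul_cancel₀ _ hν.ne']
    nlinarith
  have h6 : Real.log 10 ≤ 2.5 := by
    have e1 : Real.log 10 = Real.log 2 + Real.log 5 := by
      rw [← Real.log_mul (by norm_num) (by norm_num)]; norm_num
    have e2 : Real.log 2 ≤ 0.7 := by
      have := Real.log_two_lt_d9
      linarith
    have e3 : Real.log 5 ≤ 1.8 := by
      have : Real.log 5 ≤ Real.log (2 ^ (5 / 2 : ℝ)) := by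
        refine Real.log_le_log (by norm_num) ?_
        have e4 : (2 : ℝ) ^ (5 / 2 : ℝ) = √(2 ^ 5) := by
          rw [Real.sqrt_eq_rpow, ← Real.rpow_natCast, ← Real.rpow_mul (by norm_num)]
          norm_num
        rw [e4]
        exact Real.le_sqrt_of_sq_le (by norm_num)
      rw [Real.log_rpow (by norm_num)] at this
      linarith
    linarith
  have h7 : 0 ≤ Real.log (1 / ν) := by
    refine Real.log_nonneg ?_
    rw [le_div_iff₀ hν]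
    linarith
  have h8 : 0 ≤ ν / c := by positivity
  nlinarith

/-- **one coarse graining step for the densities**, all numbers in terms of
`δ = 16 ρ² ν / c ≤ 1/2`, `s₀ = S(0,0) ≤ s`, `2 N δ √s ≤ 1` -/
theorem den_coarse_dom (hρ : ρ ∣ N) (h : Dom A ν c) (hδ : 16 * (ρ : ℝ) ^ 2 * ν / c ≤ 1 / 2)
    (hS0 : ∀ x y, 0 ≤ (1 - ν⁻¹ • A) x y) {s : ℝ} (hs : (1 - ν⁻¹ • A) 0 0 ≤ s)
    (hs1 : 2 * N * (16 * (ρ : ℝ) ^ 2 * ν / c) * √s ≤ 1)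
    {z : ℂ} {d : ℝ} (hd0 : 0 ≤ d) {ψ : V N → (V N → ℝ) → ℂ} (hD : H889.Den A ν z d ψ) :
    H889.Den (Ac ρ A) (ν * (ρ : ℝ) ^ 2) (z * (GC ρ A ν : ℂ))
      ((ρ : ℝ) ^ 2 * (‖z‖ * (4 * π * (ρ * √(c⁻¹ * s)) + 2 * N * √(16 * (ρ : ℝ) ^ 2 * ν / c * s))
        + (1 + 2 * (16 * (ρ : ℝ) ^ 2 * ν / c)) * d))
      (H889.dn (m2 ρ A) (Bm ρ A) ψ) := by
  have hn := Nf.of_dom h
  have hc := h.hc
  have h0 := S00_nonneg h
  have h1 := H963.den_coarse hρ hn (cg_of_dom hρ h hδ hS0) hd0 hD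
  have hδ0 := delta_nonneg h ρ
  refine ⟨h1.m, h1.bd, h1.ch, h1.cov, fun x => (h1.dev x).trans ?_⟩
  set δ := 16 * (ρ : ℝ) ^ 2 * ν / c with hδd
  set s₀ := (1 - ν⁻¹ • A) 0 0 with hs₀
  have e1 : √(c⁻¹ * s₀) ≤ √(c⁻¹ * s) :=
    Real.sqrt_le_sqrt (mul_le_mul_of_nonneg_left hs (by positivity))
  have e2 : √(δ * s₀) ≤ √(δ * s) := Real.sqrt_le_sqrt (mul_le_mul_of_nonneg_left hs hδ0)
  have e3 : 1 + 2 * N * δ * √s₀ ≤ 2 := by
    have : 2 * N * δ * √s₀ ≤ 2 * N * δ * √s :=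
      mul_le_mul_of_nonneg_left (Real.sqrt_le_sqrt hs) (by positivity)
    linarith
  have hπ := Real.pi_pos
  have e4 : 2 * π * (1 + 2 * N * δ * √s₀) * (ρ * √(c⁻¹ * s₀)) ≤ 4 * π * (ρ * √(c⁻¹ * s)) := by
    have f1 : 2 * π * (1 + 2 * N * δ * √s₀) ≤ 4 * π := by nlinarith
    exact mul_le_mul f1 (mul_le_mul_of_nonneg_left e1 (by positivity)) (by positivity)
      (by positivity)
  have e5 : 2 * N * √(δ * s₀) ≤ 2 * N * √(δ * s) := mul_le_mul_of_nonneg_left e2 (by positivity)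
  have e6 : ‖z‖ * ((ρ : ℝ) ^ 2 * (2 * π * (1 + 2 * N * δ * √s₀) * (ρ * √(c⁻¹ * s₀))
        + 2 * N * √(δ * s₀)))
      ≤ (ρ : ℝ) ^ 2 * (‖z‖ * (4 * π * (ρ * √(c⁻¹ * s)) + 2 * N * √(δ * s))) := by
    have f1 : ‖z‖ * ((ρ : ℝ) ^ 2 * (2 * π * (1 + 2 * N * δ * √s₀) * (ρ * √(c⁻¹ * s₀))
        + 2 * N * √(δ * s₀)))
        = (ρ : ℝ) ^ 2 * (‖z‖ * (2 * π * (1 + 2 * N * δ * √s₀) * (ρ * √(c⁻¹ * s₀))
        + 2 * N * √(δ * s₀))) := by ring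
    rw [f1]
    exact mul_le_mul_of_nonneg_left (mul_le_mul_of_nonneg_left (add_le_add e4 e5)
      (norm_nonneg _)) (sq_nonneg _)
  have e7 : (ρ : ℝ) * (1 + 2 * δ) * ρ * d = (ρ : ℝ) ^ 2 * ((1 + 2 * δ) * d) := by ring
  rw [e7]
  calc _ ≤ (ρ : ℝ) ^ 2 * (‖z‖ * (4 * π * (ρ * √(c⁻¹ * s)) + 2 * N * √(δ * s)))
        + (ρ : ℝ) ^ 2 * ((1 + 2 * δ) * d) := by linarith
    _ = _ := by ring

end

end Vale.Agent.P159.H708
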