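import Vale.Agent.P159.H686.Xfer
import Vale.Agent.P159.H552.GauHS2

/-!
P159 / H708: module WL, part 1: calculus of `H686.Cmp` (comparison of two laws seen through window
maps): composition, inverse, push forward, Gaussian laws (Hilbert-Schmidt close covariances),
laws with a weight `1 ≤ W ≤ 1 + η` off a small set.
-/

namespace Vale.Agent.P159.H708

open MeasureTheory Matrix
open Vale.Agent.P159.H686 (Cmp)
open Vale.Agent.P159.H37 (gau)

section abs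

variable {Ω Ω' Ω'' X Y : Type*} [MeasurableSpace Ω] [MeasurableSpace Ω'] [MeasurableSpace Ω'']
  [MeasurableSpace X] [MeasurableSpace Y]

lemma cmp_mono {ν : Measure Ω} {ν' : Measure Ω'} {w : Ω → X} {w' : Ω' → X} {h τ h' τ' : ℝ}
    [Nonempty X] (H : Cmp ν ν' w w' h τ) (hh : h ≤ h') (hτ : τ ≤ τ') : Cmp ν ν' w w' h' τ' := by
  intro ψ B hψ h0 hB
  refine (H ψ B hψ h0 hB).trans ?_
  have h1 : 0 ≤ ∫ x, ψ (w x) ∂ν := integral_nonneg fun x => h0 _
  obtain ⟨z⟩ := ‹Nonempty X›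
  have hB0 : 0 ≤ B := (h0 z).trans (hB z)
  exact add_le_add (mul_le_mul_of_nonneg_right hh h1) (mul_le_mul_of_nonneg_right hτ hB0)

lemma cmp_of_eq {ν : Measure Ω} {ν' : Measure Ω'} {w : Ω → X} {w' : Ω' → X} {h τ : ℝ}
    [Nonempty X] (hh : 0 ≤ h) (hτ : 0 ≤ τ)
    (he : ∀ (ψ : X → ℝ) (B : ℝ), Measurable ψ → (∀ z, 0 ≤ ψ z) → (∀ z, ψ z ≤ B) →
      ∫ x, ψ (w' x) ∂ν' = ∫ x, ψ (w x) ∂ν) : Cmp ν ν' w w' h τ := by
  intro ψ B hψ h0 hB
  rw [he ψ B hψ h0 hB, sub_self, abs_zero]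
  have h1 : 0 ≤ ∫ x, ψ (w x) ∂ν := integral_nonneg fun x => h0 _
  obtain ⟨z⟩ := ‹Nonempty X›
  have hB0 : 0 ≤ B := (h0 z).trans (hB z)
  positivity

lemma cmp_refl (ν : Measure Ω) (w : Ω → X) [Nonempty X] {h τ : ℝ} (hh : 0 ≤ h) (hτ : 0 ≤ τ) :
    Cmp ν ν w w h τ := cmp_of_eq hh hτ fun _ _ _ _ _ => rfl

/-- composition -/
theorem cmp_trans {ν : Measure Ω} {ν' : Measure Ω'} {ν'' : Measure Ω''} {w : Ω → X} {w' : Ω' → X}
    {w'' : Ω'' → X} {h₁ τ₁ h₂ τ₂ : ℝ} (hh : 0 ≤ h₂) (H₁ : Cmp ν ν' w w' h₁ τ₁)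
    (H₂ : Cmp ν' ν'' w' w'' h₂ τ₂) :
    Cmp ν ν'' w w'' (h₁ + h₂ + h₁ * h₂) (τ₁ + τ₂ + h₂ * τ₁) := by
  intro ψ B hψ h0 hB
  have a₁ := H₁ ψ B hψ h0 hB
  have a₂ := H₂ ψ B hψ h0 hB
  set e := ∫ x, ψ (w x) ∂ν with he
  set e' := ∫ x, ψ (w' x) ∂ν' with he'
  set e'' := ∫ x, ψ (w'' x) ∂ν'' with he''
  have b := (abs_le.1 a₁).2
  have h1 : h₂ * e' ≤ h₂ * (e + (h₁ * e + τ₁ * B)) := mul_le_mul_of_nonneg_left (by linarith) hh
  calc |e'' - e| ≤ |e'' - e'| + |e' - e| := abs_sub_le _ _ _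
    _ ≤ (h₂ * e' + τ₂ * B) + (h₁ * e + τ₁ * B) := add_le_add a₂ a₁
    _ ≤ (h₁ + h₂ + h₁ * h₂) * e + (τ₁ + τ₂ + h₂ * τ₁) * B := by
      nlinarith

/-- inverse -/
theorem cmp_symm {ν : Measure Ω} {ν' : Measure Ω'} {w : Ω → X} {w' : Ω' → X} {h τ : ℝ}
    (hh : h < 1) (hh0 : 0 ≤ h) (H : Cmp ν ν' w w' h τ) :
    Cmp ν' ν w' w (h / (1 - h)) (τ / (1 - h)) := by
  intro ψ B hψ h0 hB
  have a := H ψ B hψ h0 hB
  set e := ∫ x, ψ (w x) ∂ν with he
  set e' := ∫ x, ψ (w' x) ∂ν' with he'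
  have h1 : 0 < 1 - h := by linarith
  have b := (abs_le.1 a).1
  have h2 : e ≤ (e' + τ * B) / (1 - h) := by
    rw [le_div_iff₀ h1]
    linarith
  rw [abs_sub_comm]
  refine a.trans ?_
  have h3 : h * e ≤ h * ((e' + τ * B) / (1 - h)) := mul_le_mul_of_nonneg_left h2 hh0
  have h4 : h * ((e' + τ * B) / (1 - h)) + τ * B = h / (1 - h) * e' + τ / (1 - h) * B := by
    field_simp
    ring
  linarith

/-- push forward by a measurable map -/
theorem cmp_map {ν : Measure Ω} {ν' : Measure Ω'} {w : Ω → X} {w' : Ω' → X} {h τ : ℝ}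
    (H : Cmp ν ν' w w' h τ) {T : X → Y} (hT : Measurable T) :
    Cmp ν ν' (fun x => T (w x)) (fun x => T (w' x)) h τ := by
  intro ψ B hψ h0 hB
  exact H (fun z => ψ (T z)) B (hψ.comp hT) (fun z => h0 _) fun z => hB _

/-- **laws with a weight**: `E_ν φ = E_ρ[W φ(fl)] / E_ρ W`, `1 ≤ W`, `W ≤ 1 + η` off `Bd`,
`∫_Bd W ≤ b ∫ W` -/
theorem cmp_weight {ρ : Measure Ω} [IsProbabilityMeasure ρ] {ν : Measure Ω'} {fl : Ω → Ω'}
    {w : Ω' → X} (hfl : Measurable fl) (hw : Measurable w) {W : Ω → ℝ} (hWi : Integrable W ρ)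
    (hW1 : ∀ x, 1 ≤ W x) {Bd : Set Ω} (hBd : MeasurableSet Bd) {η b : ℝ} (hη : 0 ≤ η)
    (hWη : ∀ x, x ∉ Bd → W x ≤ 1 + η) (hb : ∫ x in Bd, W x ∂ρ ≤ b * ∫ x, W x ∂ρ)
    (hν : ∀ (φ : X → ℝ) (B : ℝ), Measurable φ → (∀ z, 0 ≤ φ z) → (∀ z, φ z ≤ B) →
      ∫ x, φ (w x) ∂ν = (∫ x, W x * φ (w (fl x)) ∂ρ) / ∫ x, W x ∂ρ) :
    Cmp ρ ν (fun x => w (fl x)) w (η + b) b := by
  intro ψ B hψ h0 hB
  have hΩ : Nonempty Ω := by
    by_contra hne
    rw [not_nonempty_iff] at hne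
    have h1 : ρ Set.univ = 0 := by rw [Set.eq_empty_of_isEmpty Set.univ, measure_empty]
    rw [measure_univ] at h1
    exact one_ne_zero h1
  obtain ⟨x₀⟩ := hΩ
  have hB0 : 0 ≤ B := (h0 (w (fl x₀))).trans (hB _)
  set Z := ∫ x, W x ∂ρ with hZ
  set g : Ω → ℝ := fun x => ψ (w (fl x)) with hg
  have hgm : Measurable g := hψ.comp (hw.comp hfl)
  have hg0 : ∀ x, 0 ≤ g x := fun x => h0 _
  have hgB : ∀ x, g x ≤ B := fun x => hB _
  have ig : Integrable g ρ := Integrable.of_bound hgm.aestronglyMeasurable B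
    (Filter.Eventually.of_forall fun x => by
      rw [Real.norm_eq_abs, abs_of_nonneg (hg0 x)]
      exact hgB x)
  have iWg : Integrable (fun x => W x * g x) ρ :=
    hWi.mul_bdd (c := B) hgm.aestronglyMeasurable (Filter.Eventually.of_forall fun x => by
      rw [Real.norm_eq_abs, abs_of_nonneg (hg0 x)]
      exact hgB x)
  have hZ1 : 1 ≤ Z := by
    have : ∫ _x, (1 : ℝ) ∂ρ ≤ Z := integral_mono (integrable_const _) hWi hW1
    simpa using this
  have hZ0 : 0 < Z := by linarith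
  set e := ∫ x, g x ∂ρ with he
  have he0 : 0 ≤ e := integral_nonneg hg0
  set I := ∫ x, W x * g x ∂ρ with hI
  rw [hν ψ B hψ h0 hB]
  change |I / Z - e| ≤ (η + b) * e + b * B
  -- upper bound of `Z`
  have s1 := integral_add_compl hBd hWi
  have h1 : ∫ x in Bdᶜ, W x ∂ρ ≤ 1 + η := by
    have h2 : ∫ x in Bdᶜ, W x ∂ρ ≤ ∫ _ in Bdᶜ, (1 + η) ∂ρ :=
      setIntegral_mono_on hWi.integrableOn (integrable_const _) hBd.compl fun x hx => hWη x hx
    refine h2.trans ?_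
    rw [setIntegral_const, smul_eq_mul]
    have h3 : ρ.real Bdᶜ ≤ 1 := measureReal_le_one
    nlinarith
  have hb0 : 0 ≤ b := by
    have h2 : 0 ≤ ∫ x in Bd, W x ∂ρ := setIntegral_nonneg hBd fun x _ => by linarith [hW1 x]
    by_contra hc
    push Not at hc
    have : b * Z < 0 := mul_neg_of_neg_of_pos hc hZ0
    linarith
  have hZu : Z ≤ 1 + η + b * Z := by linarith
  -- upper bound of `I`
  have s2 := integral_add_compl hBd iWg
  have u1 : ∫ x in Bdᶜ, W x * g x ∂ρ ≤ (1 + η) * e := by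
    have h2 : ∫ x in Bdᶜ, W x * g x ∂ρ ≤ ∫ x in Bdᶜ, (1 + η) * g x ∂ρ :=
      setIntegral_mono_on iWg.integrableOn (ig.const_mul _).integrableOn hBd.compl fun x hx =>
        mul_le_mul_of_nonneg_right (hWη x hx) (hg0 x)
    rw [integral_const_mul] at h2
    have h3 : ∫ x in Bdᶜ, g x ∂ρ ≤ e :=
      setIntegral_le_integral ig (Filter.Eventually.of_forall hg0)
    have : (1 + η) * ∫ x in Bdᶜ, g x ∂ρ ≤ (1 + η) * e :=
      mul_le_mul_of_nonneg_left h3 (by linarith)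
    linarith
  have u2 : ∫ x in Bd, W x * g x ∂ρ ≤ b * Z * B := by
    have h2 : ∫ x in Bd, W x * g x ∂ρ ≤ ∫ x in Bd, W x * B ∂ρ :=
      setIntegral_mono_on iWg.integrableOn (hWi.mul_const B).integrableOn hBd fun x _ =>
        mul_le_mul_of_nonneg_left (hgB x) (by linarith [hW1 x])
    rw [integral_mul_const] at h2
    exact h2.trans (mul_le_mul_of_nonneg_right hb hB0)
  have hIu : I ≤ (1 + η) * e + b * Z * B := by linarith
  -- lower bound of `I`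
  have hIl : e ≤ I := integral_mono ig iWg fun x => by
    have := hW1 x
    have := hg0 x
    change g x ≤ W x * g x
    nlinarith
  rw [abs_le]
  constructor
  · -- `I / Z ≥ e / Z ≥ (1 - η - b) e`
    have h2 : e / Z ≤ I / Z := div_le_div_of_nonneg_right hIl hZ0.le
    have h3 : (1 - (η + b)) * e ≤ e / Z := by
      rw [le_div_iff₀ hZ0]
      by_cases hc : η + b ≤ 1
      · have h4 : (1 - (η + b)) * Z ≤ 1 := by
          have h5 : Z * (1 - b) ≤ 1 + η := by linarith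
          have h6 : (1 - (η + b)) * Z ≤ (1 - b) * Z - η * Z := by linarith
          nlinarith
        nlinarith
      · push Not at hc
        have : (1 - (η + b)) * e * Z ≤ 0 := by
          have h7 : (1 - (η + b)) * e ≤ 0 := mul_nonpos_of_nonpos_of_nonneg (by linarith) he0
          exact mul_nonpos_of_nonpos_of_nonneg h7 hZ0.le
        linarith
    have h4 : 0 ≤ b * B := mul_nonneg hb0 hB0
    linarith
  · have h2 : I / Z ≤ ((1 + η) * e + b * Z * B) / Z := div_le_div_of_nonneg_right hIu hZ0.le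
    have h3 : ((1 + η) * e + b * Z * B) / Z = (1 + η) * e / Z + b * B := by
      field_simp
    have h4 : (1 + η) * e / Z ≤ (1 + η) * e := by
      rw [div_le_iff₀ hZ0]
      have : 0 ≤ (1 + η) * e := by positivity
      nlinarith
    have h5 : 0 ≤ b * e := mul_nonneg hb0 he0
    linarith

end abs

/-! ### Gaussian laws -/

section gauss

variable {I I' J : Type*} [Fintype I] [Fintype I'] [Fintype J]

/-- **Gaussian laws with Hilbert-Schmidt close covariances** -/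
theorem cmp_hs [DecidableEq I] {B₁ : Matrix J I ℝ} {B₂ : Matrix J I' ℝ} {H : Matrix I I ℝ}
    (hH : Hᵀ = H) (h : B₂ * B₂ᵀ = B₁ * (1 + H) * B₁ᵀ) {η : ℝ} (hη : 0 < η) (hη2 : η ≤ 1 / 4)
    (hHS : ∑ x, ∑ y, H x y ^ 2 ≤ η ^ 2) {d : ℝ} (hd : 0 ≤ d) :
    Cmp (gau I) (gau I') (fun g => B₁ *ᵥ g) (fun g => B₂ *ᵥ g) d
      (2 * (1 + d) ^ (-(1 / (4 * η)))) := by
  intro ψ B hψ h0 hB
  have hB0 : 0 ≤ B := (h0 0).trans (hB 0)
  have a1 := H552.hs_le hH h (κ := 1 + d) hη (by linarith) (by linarith) hHS hψ h0 hB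
  have a2 := H552.hs_ge hH h (κ := 1 + d) hη hη2 (by linarith) hHS hψ h0 hB
  set e := ∫ g, ψ (B₁ *ᵥ g) ∂(gau I) with he
  set e' := ∫ g, ψ (B₂ *ᵥ g) ∂(gau I') with he'
  have he0 : 0 ≤ e := integral_nonneg fun x => h0 _
  have he'0 : 0 ≤ e' := integral_nonneg fun x => h0 _
  have h1 : (1 + d) ^ (-(1 / (2 * η))) ≤ (1 + d) ^ (-(1 / (4 * η))) := by
    refine Real.rpow_le_rpow_of_exponent_le (by linarith) ?_
    rw [neg_le_neg_iff]
    exact div_le_div_of_nonneg_left (by norm_num) (by linarith) (by linarith)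
  set t := (1 + d) ^ (-(1 / (4 * η))) with ht
  have ht0 : 0 ≤ t := by positivity
  rw [abs_le]
  constructor
  · -- `e ≤ (1 + d) e' + 2 B t`
    have h2 : e - e' ≤ d * e' + 2 * B * t := by linarith
    by_cases hc : e ≤ e'
    · have : 0 ≤ d * e + 2 * t * B := by positivity
      linarith
    · push Not at hc
      have h3 : d * e' ≤ d * e := mul_le_mul_of_nonneg_left hc.le hd
      linarith
  · have h2 : 2 * B * (1 + d) ^ (-(1 / (2 * η))) ≤ 2 * B * t :=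
      mul_le_mul_of_nonneg_left h1 (by positivity)
    linarith

end gauss

end Vale.Agent.P159.H708
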