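import Vale.Agent.P159.H708.Wl9

/-!
P159 / H708 (module WL), part 10: Hilbert-Schmidt comparison of two window covariances modulo
functions of one variable (`hs_mod`), and the comparison `cmp_two_hs` of the core windows.
-/

set_option linter.unusedSectionVars false

namespace Vale.Agent.P159.H708

open Finset Matrix MeasureTheory
open Vale.Agent.P159.TM.H764 (cN sN dt EE)
open Vale.Agent.P159.TM.Spec (V)
open Vale.Agent.P159.TM.SpecC (wT)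
open Vale.Agent.P159.H864 (TI sym mlt fc hsq)
open Vale.Agent.P159.H462 (Dom)
open Vale.Agent.P159.TM.H459 (sn)
open Vale.Agent.P159.H37 (gau qf wM)
open Vale.Agent.P159.H686 (Cmp fl)
open Vale.Agent.P159.H963 (MF GW nM An ntr Anm)
open Vale.Agent.P159.H733.Torg
open Vale.Agent.P159.H883

noncomputable section

/-! ### linear algebra -/

section alg

variable {I J L : Type*} [Fintype I] [Fintype J] [Fintype L] [DecidableEq I] [DecidableEq J]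

lemma proj_split {P : Matrix J J ℝ} (hPt : Pᵀ = P) (hPP : P * P = P) (u : J → ℝ) :
    ∑ j, (P *ᵥ u) j ^ 2 + ∑ j, ((1 - P) *ᵥ u) j ^ 2 = ∑ j, u j ^ 2 := by
  have hQt : (1 - P)ᵀ = 1 - P := by rw [transpose_sub, transpose_one, hPt]
  have hQQ : (1 - P) * (1 - P) = 1 - P := by
    rw [Matrix.sub_mul, Matrix.one_mul, Matrix.mul_sub, Matrix.mul_one, hPP, sub_self, sub_zero]
  have h1 := qf_gram P u
  have h2 := qf_gram (1 - P) u
  rw [hPt, hPP] at h1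
  rw [hQt, hQQ] at h2
  rw [h1, h2, ← dotProduct_add, ← Matrix.add_mulVec, add_sub_cancel, Matrix.one_mulVec]
  unfold dotProduct
  exact Finset.sum_congr rfl fun j _ => by ring

lemma proj_le {P : Matrix J J ℝ} (hPt : Pᵀ = P) (hPP : P * P = P) (u : J → ℝ) :
    ∑ j, (P *ᵥ u) j ^ 2 ≤ ∑ j, u j ^ 2 := by
  have h1 := proj_split hPt hPP u
  have h2 : 0 ≤ ∑ j, ((1 - P) *ᵥ u) j ^ 2 := Finset.sum_nonneg fun j _ => sq_nonneg _
  linarith

lemma fro_left {P : Matrix J J ℝ} (hPt : Pᵀ = P) (hPP : P * P = P) (X : Matrix J L ℝ) :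
    ∑ i, ∑ j, (P * X) i j ^ 2 ≤ ∑ i, ∑ j, X i j ^ 2 := by
  rw [Finset.sum_comm, Finset.sum_comm (f := fun i j => X i j ^ 2)]
  exact Finset.sum_le_sum fun j _ => proj_le hPt hPP fun i => X i j

lemma fro_right {P : Matrix J J ℝ} (hPt : Pᵀ = P) (hPP : P * P = P) (X : Matrix L J ℝ) :
    ∑ i, ∑ j, (X * P) i j ^ 2 ≤ ∑ i, ∑ j, X i j ^ 2 := by
  have e : ∀ i j, (X * P) i j = (P * Xᵀ) j i := by
    intro i j
    have : (X * P)ᵀ = P * Xᵀ := by rw [transpose_mul, hPt]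
    rw [← this, transpose_apply]
  simp only [e]
  rw [Finset.sum_comm, Finset.sum_comm (f := fun i j => X i j ^ 2)]
  exact fro_left hPt hPP Xᵀ

/-- **relative comparison modulo a projection** -/
theorem hs_mod {P : Matrix J J ℝ} (hPt : Pᵀ = P) (hPP : P * P = P) {G1 G2 E : Matrix J J ℝ}
    (hG2 : G2ᵀ = G2) {S : Matrix J I ℝ} (hS : S * Sᵀ = P * G1 * P) {g : ℝ} (hg : 0 < g)
    (hlow : ∀ u, g * ∑ j, (P *ᵥ u) j ^ 2 ≤ ∑ i, (Sᵀ *ᵥ u) i ^ 2)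
    (hE : P * (G2 - G1) * P = P * E * P) {Q : Matrix L J ℝ} (hQ : Q * P = Q) :
    ∃ (B : Matrix L (I ⊕ J) ℝ) (H : Matrix (I ⊕ J) (I ⊕ J) ℝ), Hᵀ = H ∧ B * Bᵀ = Q * G1 * Qᵀ ∧
      B * (1 + H) * Bᵀ = Q * G2 * Qᵀ ∧
      ∑ x, ∑ y, H x y ^ 2 ≤ (g⁻¹) ^ 2 * ∑ i, ∑ j, E i j ^ 2 := by
  have hQt : (1 - P)ᵀ = 1 - P := by rw [transpose_sub, transpose_one, hPt]
  have hQQ : (1 - P) * (1 - P) = 1 - P := by
    rw [Matrix.sub_mul, Matrix.one_mul, Matrix.mul_sub, Matrix.mul_one, hPP, sub_self, sub_zero]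
  set T : Matrix J J ℝ := √g • (1 - P) with hT
  have hTt : Tᵀ = T := by rw [hT, transpose_smul, hQt]
  have hTT : T * Tᵀ = g • (1 - P) := by
    rw [hTt, hT, Matrix.smul_mul, Matrix.mul_smul, hQQ, smul_smul, Real.mul_self_sqrt hg.le]
  set B0 : Matrix J (I ⊕ J) ℝ := fromCols S T with hB0
  have hB0B : B0 * B0ᵀ = P * G1 * P + g • (1 - P) := by
    rw [hB0, transpose_fromCols, fromCols_mul_fromRows, hS, hTT]
  set G2' : Matrix J J ℝ := P * G2 * P + g • (1 - P) with hG2'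
  have hG2t : G2'ᵀ = G2' := by
    rw [hG2', transpose_add, transpose_mul, transpose_mul, hPt, hG2, transpose_smul, hQt,
      Matrix.mul_assoc]
  have hl : ∀ u : J → ℝ, g * ∑ j, u j ^ 2 ≤ ∑ i, (B0ᵀ *ᵥ u) i ^ 2 := by
    intro u
    rw [Fintype.sum_sum_type]
    have e1 : ∀ i : I, (B0ᵀ *ᵥ u) (Sum.inl i) = (Sᵀ *ᵥ u) i := fun i => rfl
    have e2 : ∀ j : J, (B0ᵀ *ᵥ u) (Sum.inr j) = (Tᵀ *ᵥ u) j := fun j => rfl
    simp only [e1, e2]
    have e3 : ∑ j, (Tᵀ *ᵥ u) j ^ 2 = g * ∑ j, ((1 - P) *ᵥ u) j ^ 2 := by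
      rw [hTt, hT, Finset.mul_sum]
      refine Finset.sum_congr rfl fun j _ => ?_
      rw [Matrix.smul_mulVec, Pi.smul_apply, smul_eq_mul, mul_pow, Real.sq_sqrt hg.le]
    rw [e3, ← proj_split hPt hPP u, mul_add]
    exact add_le_add (hlow u) le_rfl
  obtain ⟨H, hH, hHG, hHS⟩ := hs_of_ent hG2t hg hl
  have hPQ : P * Qᵀ = Qᵀ := by
    have := congrArg Matrix.transpose hQ
    rwa [transpose_mul, hPt] at this
  have key : ∀ G : Matrix J J ℝ, Q * (P * G * P + g • (1 - P)) * Qᵀ = Q * G * Qᵀ := by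
    intro G
    have e1 : Q * (1 - P) = 0 := by rw [Matrix.mul_sub, Matrix.mul_one, hQ, sub_self]
    have e2 : Q * (P * G * P) * Qᵀ = (Q * P) * G * (P * Qᵀ) := by simp only [Matrix.mul_assoc]
    rw [Matrix.mul_add, Matrix.add_mul, Matrix.mul_smul, e1, smul_zero, Matrix.zero_mul,
      add_zero, e2, hQ, hPQ]
  refine ⟨Q * B0, H, hH, ?_, ?_, hHS.trans ?_⟩
  · rw [transpose_mul, ← key, ← hB0B]
    simp only [Matrix.mul_assoc]
  · rw [transpose_mul, ← key, ← hG2', ← hHG]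
    simp only [Matrix.mul_assoc]
  · refine mul_le_mul_of_nonneg_left ?_ (by positivity)
    have e1 : G2' - B0 * B0ᵀ = P * E * P := by
      rw [hB0B, hG2', add_sub_add_right_eq_sub, ← Matrix.sub_mul, ← Matrix.mul_sub, hE]
    rw [e1]
    exact (fro_right hPt hPP _).trans (fro_left hPt hPP _)

end alg

/-! ### the projection of two boxes -/

section blk

variable {D : ℕ} {N N2 : ℕ} [NeZero N] [NeZero N2]

/-- the box of half side `D` -/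
def bx (D : ℕ) : Finset (ℤ × ℤ) := (Finset.Icc (-(D : ℤ)) D) ×ˢ (Finset.Icc (-(D : ℤ)) D)

lemma mem_bx {ζ : ℤ × ℤ} : ζ ∈ bx D ↔ ζ.1.natAbs ≤ D ∧ ζ.2.natAbs ≤ D := by
  unfold bx
  rw [Finset.mem_product, Finset.mem_Icc, Finset.mem_Icc]
  omega

/-- the number of points of a box -/
def nB (D : ℕ) : ℝ := (2 * (D : ℝ) + 1) ^ 2

lemma nB_pos (D : ℕ) : 0 < nB D := by unfold nB; positivity

lemma card_bx (D : ℕ) : ((bx D).card : ℝ) = nB D := by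
  have h := card_Bx D
  rw [Fintype.card_coe] at h
  have h2 : (bx D).card = (2 * D + 1) ^ 2 := h
  rw [h2]
  unfold nB
  push_cast
  ring

/-- the block of a window point -/
def blk (D : ℕ) : Bx D ⊕ Bx D → Bool := Sum.elim (fun _ => false) fun _ => true

/-- the base point of a box -/
def z0 (D : ℕ) : Bx D := ⟨(0, 0), by simp⟩

/-- the index of the base point of a block -/
def b0 (D : ℕ) : Bx D ⊕ Bx D → Bx D ⊕ Bx D :=
  Sum.elim (fun _ => Sum.inl (z0 D)) fun _ => Sum.inr (z0 D)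

/-- same block -/
def Mb (D : ℕ) : Matrix (Bx D ⊕ Bx D) (Bx D ⊕ Bx D) ℝ :=
  Matrix.of fun i j => if blk D i = blk D j then 1 else 0

/-- the projection on zero block sums -/
def Pb (D : ℕ) : Matrix (Bx D ⊕ Bx D) (Bx D ⊕ Bx D) ℝ := 1 - (nB D)⁻¹ • Mb D

/-- increments -/
def Qb (D : ℕ) : Matrix (Bx D ⊕ Bx D) (Bx D ⊕ Bx D) ℝ :=
  Matrix.of fun i j => (if j = i then 1 else 0) - (if j = b0 D i then 1 else 0)

/-- evaluation at the window points -/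
def evb (D : ℕ) (p q : V N) : Matrix (Bx D ⊕ Bx D) (V N) ℝ :=
  Matrix.of fun j y => if y = bB D p q j + ip N (zB D j) then 1 else 0

lemma blk_b0 (i : Bx D ⊕ Bx D) : blk D (b0 D i) = blk D i := by
  rcases i with i | i <;> rfl

lemma card_blk (D : ℕ) (b : Bool) :
    ∑ k : Bx D ⊕ Bx D, (if blk D k = b then (1 : ℝ) else 0) = nB D := by
  have h : (Fintype.card (Bx D) : ℝ) = nB D := by
    rw [card_Bx]
    unfold nB
    push_cast
    ring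
  rw [Fintype.sum_sum_type]
  cases b <;> simp [blk] <;> simpa using h

lemma mul_Mb (r : Bx D ⊕ Bx D → Bool → ℝ) :
    (Matrix.of fun i j => r i (blk D j)) * Mb D = nB D • Matrix.of fun i j => r i (blk D j) := by
  ext i j
  rw [Matrix.mul_apply, Matrix.smul_apply, smul_eq_mul]
  unfold Mb
  simp only [Matrix.of_apply]
  have : ∀ k, r i (blk D k) * (if blk D k = blk D j then (1 : ℝ) else 0) =
      r i (blk D j) * (if blk D k = blk D j then 1 else 0) := by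
    intro k
    split_ifs with h
    · rw [h]
    · simp
  simp only [this]
  rw [← Finset.mul_sum, card_blk]
  ring

lemma Mb_t : (Mb D)ᵀ = Mb D := by
  ext i j
  unfold Mb
  simp only [transpose_apply, Matrix.of_apply, eq_comm]

lemma Mb_Mb : Mb D * Mb D = nB D • Mb D := mul_Mb fun i b => if blk D i = b then 1 else 0

lemma Pb_t : (Pb D)ᵀ = Pb D := by
  unfold Pb
  rw [transpose_sub, transpose_one, transpose_smul, Mb_t]

lemma mul_Pb (r : Bx D ⊕ Bx D → Bool → ℝ) : (Matrix.of fun i j => r i (blk D j)) * Pb D = 0 := by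
  unfold Pb
  rw [Matrix.mul_sub, Matrix.mul_one, Matrix.mul_smul, mul_Mb, smul_smul,
    inv_mul_cancel₀ (nB_pos D).ne', one_smul, sub_self]

lemma Pb_mul (r : Bool → Bx D ⊕ Bx D → ℝ) : Pb D * (Matrix.of fun i j => r (blk D i) j) = 0 := by
  have h := mul_Pb (D := D) fun i b => r b i
  have h2 := congrArg Matrix.transpose h
  rw [transpose_mul, Pb_t, transpose_zero] at h2
  exact h2

lemma Pb_Pb : Pb D * Pb D = Pb D := by
  have h : Mb D * Pb D = 0 := mul_Pb fun i b => if blk D i = b then 1 else 0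
  calc Pb D * Pb D = (1 - (nB D)⁻¹ • Mb D) * Pb D := rfl
    _ = Pb D := by rw [Matrix.sub_mul, Matrix.one_mul, Matrix.smul_mul, h, smul_zero, sub_zero]

lemma Qb_mul {L : Type*} (M : Matrix (Bx D ⊕ Bx D) L ℝ) (i : Bx D ⊕ Bx D) (y : L) :
    (Qb D * M) i y = M i y - M (b0 D i) y := by
  rw [Matrix.mul_apply]
  unfold Qb
  simp only [Matrix.of_apply, sub_mul, ite_mul, one_mul, zero_mul, Finset.sum_sub_distrib,
    Finset.sum_ite_eq', mem_univ, if_true]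

lemma Qb_Pb : Qb D * Pb D = Qb D := by
  have h : Qb D * Mb D = 0 := by
    ext i j
    rw [Qb_mul]
    unfold Mb
    simp only [Matrix.of_apply, blk_b0, sub_self, Matrix.zero_apply]
  unfold Pb
  rw [Matrix.mul_sub, Matrix.mul_one, Matrix.mul_smul, h, smul_zero, sub_zero]

lemma Qb_evb (p q : V N) : Qb D * evb D p q = mw (bB D p q) (zB D) := by
  ext i y
  rw [Qb_mul]
  unfold evb mw
  simp only [Matrix.of_apply]
  have h1 : bB D p q (b0 D i) + ip N (zB D (b0 D i)) = bB D p q i := by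
    rcases i with i | i <;> simp [b0, bB, zB, z0, ip]
  rw [h1]

lemma evb_entry (p q : V N) (K : Matrix (V N) (V N) ℝ) (i j : Bx D ⊕ Bx D) :
    (evb D p q * K * (evb D p q)ᵀ) i j =
      K (bB D p q i + ip N (zB D i)) (bB D p q j + ip N (zB D j)) := by
  rw [Matrix.mul_apply]
  have h1 : ∀ y, (evb D p q * K) i y = K (bB D p q i + ip N (zB D i)) y := by
    intro y
    rw [Matrix.mul_apply]
    unfold evb
    simp only [Matrix.of_apply, ite_mul, one_mul, zero_mul, Finset.sum_ite_eq', mem_univ, if_true]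
  simp only [h1]
  unfold evb
  simp only [Matrix.transpose_apply, Matrix.of_apply, mul_ite, mul_one, mul_zero,
    Finset.sum_ite_eq', mem_univ, if_true]

lemma Pb_rowsum (i : Bx D ⊕ Bx D) : ∑ j, Pb D i j = 0 := by
  have h := congrFun (congrFun (Pb_mul (D := D) fun _ _ => 1) i) i
  rw [Matrix.mul_apply] at h
  simpa using h

lemma Pb_ev_J1 (p q : V N) : Pb D * evb D p q * J1 (V N) = 0 := by
  ext i y
  rw [Matrix.mul_assoc, Matrix.mul_apply]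
  have h1 : ∀ j, (evb D p q * J1 (V N)) j y = J1 (V N) 0 0 := by
    intro j
    rw [Matrix.mul_apply]
    unfold evb J1
    simp only [Matrix.of_apply, ite_mul, one_mul, zero_mul, Finset.sum_ite_eq', mem_univ, if_true]
  simp only [h1]
  rw [← Finset.sum_mul, Pb_rowsum, zero_mul, Matrix.zero_apply]

end blk

/-! ### differences of covariances on a pair of boxes -/

section hsb

variable {D : ℕ} {A A1 A2 β β1 β2 : ℝ} {T T1 T2 : ℤ × ℤ → ℤ × ℤ → ℝ}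

/-- `T` is, modulo functions of one variable, a convolution kernel small in `ℓ²` plus a small
bounded function -/
def HSb (D : ℕ) (T : ℤ × ℤ → ℤ × ℤ → ℝ) (A β : ℝ) : Prop :=
  ∃ f g a : ℤ × ℤ → ℝ, ∑ v ∈ bx (2 * D), a v ^ 2 ≤ A ∧
    ∀ ζ ∈ bx D, ∀ ζ' ∈ bx D, |T ζ ζ' - f ζ - g ζ' - a (ζ' - ζ)| ≤ β

lemma sum_diff_le {a : ℤ × ℤ → ℝ} (h : ∑ v ∈ bx (2 * D), a v ^ 2 ≤ A) :
    ∑ ζ ∈ bx D, ∑ ζ' ∈ bx D, a (ζ' - ζ) ^ 2 ≤ nB D * A := by
  have h1 : ∀ ζ ∈ bx D, ∑ ζ' ∈ bx D, a (ζ' - ζ) ^ 2 ≤ A := by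
    intro ζ hζ
    refine le_trans ?_ h
    rw [mem_bx] at hζ
    have e : ∑ ζ' ∈ bx D, a (ζ' - ζ) ^ 2 = ∑ v ∈ (bx D).image (fun ζ' => ζ' - ζ), a v ^ 2 := by
      rw [Finset.sum_image fun x _ y _ hxy => sub_left_injective hxy]
    rw [e]
    refine Finset.sum_le_sum_of_subset_of_nonneg ?_ fun v _ _ => sq_nonneg _
    intro v hv
    obtain ⟨ζ', hζ', rfl⟩ := Finset.mem_image.1 hv
    rw [mem_bx] at hζ' ⊢
    rw [Prod.fst_sub, Prod.snd_sub]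
    omega
  refine (Finset.sum_le_sum h1).trans (le_of_eq ?_)
  rw [Finset.sum_const, nsmul_eq_mul, card_bx]

lemma HSb.sum (h : HSb D T A β) : ∃ f g : ℤ × ℤ → ℝ,
    ∑ ζ ∈ bx D, ∑ ζ' ∈ bx D, (T ζ ζ' - f ζ - g ζ') ^ 2 ≤ 2 * nB D * A + 2 * nB D ^ 2 * β ^ 2 := by
  obtain ⟨f, g, a, ha, hT⟩ := h
  refine ⟨f, g, ?_⟩
  have h1 : ∑ ζ ∈ bx D, ∑ ζ' ∈ bx D, (T ζ ζ' - f ζ - g ζ') ^ 2 ≤
      ∑ ζ ∈ bx D, ∑ ζ' ∈ bx D, (2 * a (ζ' - ζ) ^ 2 + 2 * β ^ 2) := by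
    refine Finset.sum_le_sum fun ζ hζ => Finset.sum_le_sum fun ζ' hζ' => ?_
    have h2 := hT ζ hζ ζ' hζ'
    have h3 : (T ζ ζ' - f ζ - g ζ' - a (ζ' - ζ)) ^ 2 ≤ β ^ 2 := by
      rw [← sq_abs]
      exact pow_le_pow_left₀ (abs_nonneg _) h2 2
    have h4 := sq_nonneg (T ζ ζ' - f ζ - g ζ' - 2 * a (ζ' - ζ))
    nlinarith
  refine h1.trans ?_
  simp only [Finset.sum_add_distrib, ← Finset.mul_sum, Finset.sum_const, nsmul_eq_mul, card_bx]
  have h5 := sum_diff_le ha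
  nlinarith

lemma HSb.sub (h1 : HSb D T1 A1 β1) (h2 : HSb D T2 A2 β2) :
    HSb D (fun ζ ζ' => T1 ζ ζ' - T2 ζ ζ') (2 * A1 + 2 * A2) (β1 + β2) := by
  obtain ⟨f1, g1, a1, ha1, hT1⟩ := h1
  obtain ⟨f2, g2, a2, ha2, hT2⟩ := h2
  refine ⟨fun ζ => f1 ζ - f2 ζ, fun ζ => g1 ζ - g2 ζ, fun ζ => a1 ζ - a2 ζ, ?_, ?_⟩
  · have h3 : ∑ v ∈ bx (2 * D), (a1 v - a2 v) ^ 2 ≤
        ∑ v ∈ bx (2 * D), (2 * a1 v ^ 2 + 2 * a2 v ^ 2) := by
      refine Finset.sum_le_sum fun v _ => ?_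
      have := sq_nonneg (a1 v + a2 v)
      nlinarith
    rw [Finset.sum_add_distrib, ← Finset.mul_sum, ← Finset.mul_sum] at h3
    linarith
  · intro ζ hζ ζ' hζ'
    have e1 := hT1 ζ hζ ζ' hζ'
    have e2 := hT2 ζ hζ ζ' hζ'
    rw [abs_le] at e1 e2 ⊢
    constructor <;> linarith [e1.1, e1.2, e2.1, e2.2]

lemma HSb.mono (h : HSb D T A1 β1) (hA : A1 ≤ A2) (hβ : β1 ≤ β2) : HSb D T A2 β2 := by
  obtain ⟨f, g, a, ha, hT⟩ := h
  exact ⟨f, g, a, ha.trans hA, fun ζ hζ ζ' hζ' => (hT ζ hζ ζ' hζ').trans hβ⟩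

end hsb

/-! ### the core windows -/

section core

variable {N N2 : ℕ} [NeZero N] [NeZero N2] {D : ℕ}

/-- the base points -/
def bpt (p q : V N) : Bool → V N := fun b => if b then q else p

lemma bB_eq (p q : V N) (i : Bx D ⊕ Bx D) : bB D p q i = bpt p q (blk D i) := by
  rcases i with i | i <;> rfl

/-- sums over the blocks -/
lemma sum_blocks (F : Bool → Bool → ℤ × ℤ → ℤ × ℤ → ℝ) :
    ∑ i : Bx D ⊕ Bx D, ∑ j : Bx D ⊕ Bx D, F (blk D i) (blk D j) (zB D i) (zB D j) =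
      ∑ b : Bool, ∑ b' : Bool, ∑ ζ ∈ bx D, ∑ ζ' ∈ bx D, F b b' ζ ζ' := by
  have hs : ∀ F : ℤ × ℤ → ℝ, ∑ i : Bx D, F i.1 = ∑ ζ ∈ bx D, F ζ := fun F =>
    Finset.sum_coe_sort (bx D) F
  have hs2 : ∀ F : ℤ × ℤ → ℤ × ℤ → ℝ, ∑ i : Bx D, ∑ j : Bx D, F i.1 j.1 =
      ∑ ζ ∈ bx D, ∑ ζ' ∈ bx D, F ζ ζ' := by
    intro F
    rw [← hs fun ζ => ∑ ζ' ∈ bx D, F ζ ζ']
    exact Finset.sum_congr rfl fun i _ => hs _
  have b1 : ∀ i : Bx D, blk D (Sum.inl i) = false := fun _ => rfl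
  have b2 : ∀ i : Bx D, blk D (Sum.inr i) = true := fun _ => rfl
  have c1 : ∀ i : Bx D, zB D (Sum.inl i) = i.1 := fun _ => rfl
  have c2 : ∀ i : Bx D, zB D (Sum.inr i) = i.1 := fun _ => rfl
  simp only [Fintype.sum_sum_type, Fintype.sum_bool, b1, b2, c1, c2, Finset.sum_add_distrib]
  rw [hs2 (F false false), hs2 (F false true), hs2 (F true false), hs2 (F true true)]
  ring

/-- the pairs of blocks -/
lemma two_blk {K : Matrix (V N) (V N) ℝ} {K2 : Matrix (V N2) (V N2) ℝ}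
    {p q : V N} {p2 q2 : V N2} {R Ar β AX βX : ℝ} (hpq : R ≤ sn (q - p))
    (hpq2 : R ≤ sn (q2 - p2))
    (hn : HSb D (fun ζ ζ' => K2 0 (ip N2 (ζ' - ζ)) - K 0 (ip N (ζ' - ζ))) Ar β)
    (hx : ∀ x : V N, R ≤ sn x → HSb D (fun ζ ζ' => K 0 (x + ip N (ζ' - ζ))) AX βX)
    (hx2 : ∀ x : V N2, R ≤ sn x → HSb D (fun ζ ζ' => K2 0 (x + ip N2 (ζ' - ζ))) AX βX)
    (b b' : Bool) : ∃ f g : ℤ × ℤ → ℝ, ∑ ζ ∈ bx D, ∑ ζ' ∈ bx D,
      (K2 0 (bpt p2 q2 b' - bpt p2 q2 b + ip N2 (ζ' - ζ)) -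
        K 0 (bpt p q b' - bpt p q b + ip N (ζ' - ζ)) - f ζ - g ζ') ^ 2 ≤
      if b = b' then 2 * nB D * Ar + 2 * nB D ^ 2 * β ^ 2 else
        2 * nB D * (4 * AX) + 2 * nB D ^ 2 * (2 * βX) ^ 2 := by
  have hneg : ∀ {M : ℕ} [NeZero M] {x y : V M}, R ≤ sn (x - y) → R ≤ sn (y - x) := by
    intro M _ x y h
    rwa [← TM.H459.sn_neg, neg_sub]
  have hcr : ∀ (x : V N) (x2 : V N2), R ≤ sn x → R ≤ sn x2 → ∃ f g : ℤ × ℤ → ℝ,
      ∑ ζ ∈ bx D, ∑ ζ' ∈ bx D, (K2 0 (x2 + ip N2 (ζ' - ζ)) -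
        K 0 (x + ip N (ζ' - ζ)) - f ζ - g ζ') ^ 2 ≤
      2 * nB D * (4 * AX) + 2 * nB D ^ 2 * (2 * βX) ^ 2 := by
    intro x x2 h1 h2
    exact (((hx2 x2 h2).sub (hx x h1)).mono (A2 := 4 * AX) (β2 := 2 * βX) (by linarith)
      (by linarith)).sum
  rcases b with _ | _ <;> rcases b' with _ | _
  · obtain ⟨f, g, h⟩ := hn.sum
    refine ⟨f, g, ?_⟩
    simp only [bpt, sub_self, zero_add, if_true]
    exact h
  · obtain ⟨f, g, h⟩ := hcr _ _ hpq hpq2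
    refine ⟨f, g, ?_⟩
    rw [if_neg (by decide)]
    exact h
  · obtain ⟨f, g, h⟩ := hcr _ _ (hneg hpq) (hneg hpq2)
    refine ⟨f, g, ?_⟩
    rw [if_neg (by decide)]
    exact h
  · obtain ⟨f, g, h⟩ := hn.sum
    refine ⟨f, g, ?_⟩
    simp only [bpt, sub_self, zero_add, if_true]
    exact h

/-- the lower bound of the covariance of the window modulo constants of the blocks -/
lemma low_ev {ν c : ℝ} {A : Matrix (V N) (V N) ℝ} (hA : Dom A ν c)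
    {K : Matrix (V N) (V N) ℝ} (hK : Cv 0 A K) {p q : V N}
    (hsep : ∀ i j : Bx D ⊕ Bx D, bB D p q i + ip N (zB D i) = bB D p q j + ip N (zB D j) → i = j)
    (u : Bx D ⊕ Bx D → ℝ) :
    ν⁻¹ * ∑ j, (Pb D *ᵥ u) j ^ 2 ≤
      u ⬝ᵥ ((Pb D * (evb D p q * K * (evb D p q)ᵀ) * Pb D) *ᵥ u) := by
  have hν := hA.hν
  have e1 : u ⬝ᵥ ((Pb D * (evb D p q * K * (evb D p q)ᵀ) * Pb D) *ᵥ u) =
      qf K ((evb D p q)ᵀ *ᵥ (Pb D *ᵥ u)) := by
    rw [← qf_win, ← Matrix.mulVec_mulVec, ← Matrix.mulVec_mulVec,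
      Matrix.dotProduct_mulVec u, ← Matrix.mulVec_transpose, Pb_t]
  rw [e1]
  set v : Bx D ⊕ Bx D → ℝ := Pb D *ᵥ u with hv
  have hv0 : ∑ j, v j = 0 := by
    rw [hv]
    unfold Matrix.mulVec dotProduct
    rw [Finset.sum_comm]
    refine Finset.sum_eq_zero fun j _ => ?_
    rw [← Finset.sum_mul]
    have h1 : ∑ i, Pb D i j = 0 := by
      rw [← Pb_rowsum j]
      refine Finset.sum_congr rfl fun i _ => ?_
      have := congrFun (congrFun (Pb_t (D := D)) j) i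
      rw [transpose_apply] at this
      exact this
    rw [h1, zero_mul]
  have hU0 : ∑ y, ((evb D p q)ᵀ *ᵥ v) y = 0 := by
    unfold Matrix.mulVec dotProduct
    rw [Finset.sum_comm, ← hv0]
    refine Finset.sum_congr rfl fun j _ => ?_
    rw [← Finset.sum_mul]
    unfold evb
    simp only [Matrix.transpose_apply, Matrix.of_apply, Finset.sum_ite_eq', mem_univ, if_true,
      one_mul]
  refine le_trans ?_ (le_trans (Cv.low0 hK hA le_rfl hU0) le_rfl)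
  rw [add_zero]
  refine mul_le_mul_of_nonneg_left ?_ (by positivity)
  have e2 : ∀ i, ((evb D p q)ᵀ *ᵥ v) (bB D p q i + ip N (zB D i)) = v i := by
    intro i
    unfold Matrix.mulVec dotProduct evb
    simp only [Matrix.transpose_apply, Matrix.of_apply]
    rw [Finset.sum_eq_single i]
    · rw [if_pos rfl, one_mul]
    · intro j _ hj
      rw [if_neg fun he => hj (hsep i j he).symm, zero_mul]
    · intro hi
      exact absurd (mem_univ i) hi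
  calc ∑ j, v j ^ 2 = ∑ j, ((evb D p q)ᵀ *ᵥ v) (bB D p q j + ip N (zB D j)) ^ 2 :=
        Finset.sum_congr rfl fun j _ => by rw [e2]
    _ = ∑ y ∈ univ.image (fun j => bB D p q j + ip N (zB D j)), ((evb D p q)ᵀ *ᵥ v) y ^ 2 := by
        rw [Finset.sum_image fun i _ j _ h => hsep i j h]
    _ ≤ _ := Finset.sum_le_sum_of_subset_of_nonneg (Finset.subset_univ _)
        fun y _ _ => sq_nonneg _

/-- the entries of the difference -/
lemma ent_ev {K : Matrix (V N) (V N) ℝ} (hK : TI K) (p q : V N) (i j : Bx D ⊕ Bx D) :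
    (evb D p q * K * (evb D p q)ᵀ) i j =
      K 0 (bpt p q (blk D j) - bpt p q (blk D i) + ip N (zB D j - zB D i)) := by
  rw [evb_entry, hK.eq (bB D p q i + _), bB_eq, bB_eq, ip_sub]
  congr 1
  abel

/-- functions of one variable are removed by the projection -/
lemma blk_mod {G : Matrix (Bx D ⊕ Bx D) (Bx D ⊕ Bx D) ℝ}
    {F : Bool → Bool → ℤ × ℤ → ℤ × ℤ → ℝ}
    (hG : ∀ i j, G i j = F (blk D i) (blk D j) (zB D i) (zB D j)) {S : Bool → Bool → ℝ}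
    (h : ∀ b b' : Bool, ∃ f g : ℤ × ℤ → ℝ, ∑ ζ ∈ bx D, ∑ ζ' ∈ bx D,
      (F b b' ζ ζ' - f ζ - g ζ') ^ 2 ≤ S b b') :
    ∃ E : Matrix (Bx D ⊕ Bx D) (Bx D ⊕ Bx D) ℝ, Pb D * G * Pb D = Pb D * E * Pb D ∧
      ∑ i, ∑ j, E i j ^ 2 ≤ ∑ b : Bool, ∑ b' : Bool, S b b' := by
  choose f g hfg using h
  have hE1P := mul_Pb (D := D) fun (i : Bx D ⊕ Bx D) (b' : Bool) => f (blk D i) b' (zB D i)
  have hE2P := Pb_mul (D := D) fun (b : Bool) (j : Bx D ⊕ Bx D) => g b (blk D j) (zB D j)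
  refine ⟨G - (Matrix.of fun i j => f (blk D i) (blk D j) (zB D i)) -
    (Matrix.of fun i j => g (blk D i) (blk D j) (zB D j)), ?_, ?_⟩
  · rw [Matrix.mul_sub, Matrix.mul_sub, Matrix.sub_mul, Matrix.sub_mul, hE2P, Matrix.zero_mul,
      sub_zero, Matrix.mul_assoc (Pb D) (Matrix.of _), hE1P, Matrix.mul_zero, sub_zero]
  · have e0 : ∀ i j, (G - (Matrix.of fun i j => f (blk D i) (blk D j) (zB D i)) -
        (Matrix.of fun i j => g (blk D i) (blk D j) (zB D j))) i j ^ 2 =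
        (fun b b' ζ ζ' => (F b b' ζ ζ' - f b b' ζ - g b b' ζ') ^ 2) (blk D i) (blk D j) (zB D i)
          (zB D j) := by
      intro i j
      rw [Matrix.sub_apply, Matrix.sub_apply, hG, Matrix.of_apply, Matrix.of_apply]
    rw [Finset.sum_congr rfl fun i _ => Finset.sum_congr rfl fun j _ => e0 i j]
    refine (le_of_eq (sum_blocks fun b b' ζ ζ' =>
      (F b b' ζ ζ' - f b b' ζ - g b b' ζ') ^ 2)).trans ?_
    exact Finset.sum_le_sum fun b _ => Finset.sum_le_sum fun b' _ => hfg b b'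

/-- **relative comparison of the joint covariances of the core windows** -/
theorem two_hs {ν c : ℝ} {A : Matrix (V N) (V N) ℝ} (hA : Dom A ν c)
    {K : Matrix (V N) (V N) ℝ} {K2 : Matrix (V N2) (V N2) ℝ} (hK : Cv 0 A K) (hK2 : TI K2)
    {p q : V N} {p2 q2 : V N2} {R Ar β AX βX : ℝ} (hpq : R ≤ sn (q - p))
    (hpq2 : R ≤ sn (q2 - p2))
    (hsep : ∀ i j : Bx D ⊕ Bx D, bB D p q i + ip N (zB D i) = bB D p q j + ip N (zB D j) → i = j)
    (hn : HSb D (fun ζ ζ' => K2 0 (ip N2 (ζ' - ζ)) - K 0 (ip N (ζ' - ζ))) Ar β)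
    (hx : ∀ x : V N, R ≤ sn x → HSb D (fun ζ ζ' => K 0 (x + ip N (ζ' - ζ))) AX βX)
    (hx2 : ∀ x : V N2, R ≤ sn x → HSb D (fun ζ ζ' => K2 0 (x + ip N2 (ζ' - ζ))) AX βX)
    {S : Matrix (V N) (V N) ℝ}
    (hS : (Pb D * evb D p q) * (S * Sᵀ) * (Pb D * evb D p q)ᵀ =
      (Pb D * evb D p q) * K * (Pb D * evb D p q)ᵀ) :
    ∃ (B : Matrix (Bx D ⊕ Bx D) (V N ⊕ (Bx D ⊕ Bx D)) ℝ)
      (H : Matrix (V N ⊕ (Bx D ⊕ Bx D)) (V N ⊕ (Bx D ⊕ Bx D)) ℝ), Hᵀ = H ∧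
      B * Bᵀ = mw (bB D p q) (zB D) * K * (mw (bB D p q) (zB D))ᵀ ∧
      mw (bB D p2 q2) (zB D) * K2 * (mw (bB D p2 q2) (zB D))ᵀ = B * (1 + H) * Bᵀ ∧
      ∑ x, ∑ y, H x y ^ 2 ≤ ν ^ 2 *
        (4 * nB D * (Ar + 4 * AX) + 4 * nB D ^ 2 * (β ^ 2 + 4 * βX ^ 2)) := by
  have hν := hA.hν
  have hG2t : (evb D p2 q2 * K2 * (evb D p2 q2)ᵀ)ᵀ = evb D p2 q2 * K2 * (evb D p2 q2)ᵀ := by
    rw [Matrix.transpose_mul, Matrix.transpose_mul, Matrix.transpose_transpose,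
      hK2.transpose, Matrix.mul_assoc]
  obtain ⟨E, hE, hEs⟩ := blk_mod (G := evb D p2 q2 * K2 * (evb D p2 q2)ᵀ -
    evb D p q * K * (evb D p q)ᵀ) (F := fun b b' ζ ζ' =>
      K2 0 (bpt p2 q2 b' - bpt p2 q2 b + ip N2 (ζ' - ζ)) -
        K 0 (bpt p q b' - bpt p q b + ip N (ζ' - ζ)))
    (fun i j => by rw [Matrix.sub_apply, ent_ev hK2, ent_ev hK.ti])
    (two_blk hpq hpq2 hn hx hx2)
  have hSS : (Pb D * evb D p q * S) * (Pb D * evb D p q * S)ᵀ =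
      Pb D * (evb D p q * K * (evb D p q)ᵀ) * Pb D := by
    have e1 : (Pb D * evb D p q * S) * (Pb D * evb D p q * S)ᵀ =
        (Pb D * evb D p q) * (S * Sᵀ) * (Pb D * evb D p q)ᵀ := by
      rw [transpose_mul (Pb D * evb D p q) S]
      simp only [Matrix.mul_assoc]
    rw [e1, hS, transpose_mul, Pb_t]
    simp only [Matrix.mul_assoc]
  have hlow : ∀ u, ν⁻¹ * ∑ j, (Pb D *ᵥ u) j ^ 2 ≤
      ∑ i, ((Pb D * evb D p q * S)ᵀ *ᵥ u) i ^ 2 := by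
    intro u
    rw [qf_gram, hSS]
    exact low_ev hA hK hsep u
  obtain ⟨B, H, hH, hB1, hB2, hHS⟩ := hs_mod (L := Bx D ⊕ Bx D) Pb_t Pb_Pb hG2t hSS
    (show 0 < ν⁻¹ by positivity) hlow hE (Q := Qb D) Qb_Pb
  refine ⟨B, H, hH, ?_, ?_, ?_⟩
  · rw [hB1, ← Qb_evb, transpose_mul]
    simp only [Matrix.mul_assoc]
  · rw [hB2, ← Qb_evb, transpose_mul]
    simp only [Matrix.mul_assoc]
  · refine hHS.trans ?_
    rw [inv_inv]
    refine mul_le_mul_of_nonneg_left (hEs.trans (le_of_eq ?_)) (by positivity)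
    simp only [Fintype.sum_bool]
    norm_num
    ring

end core

/-! ### the laws -/

section laws

variable {N N2 : ℕ} [NeZero N] [NeZero N2]
variable {w : (V N → ℤ) → ℝ} {M : Matrix (V N) (V N) ℝ} {m : ℝ} {x₀ : V N}
variable {w' : (V N2 → ℤ) → ℝ} {M' : Matrix (V N2) (V N2) ℝ} {m' : ℝ} {x₀' : V N2}
variable {ν c ν' c' : ℝ}

/-- **WL**, Hilbert-Schmidt form: the laws of the data of the two core windows `(N; p, q)` and
`(N2; p2, q2)` -/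
theorem cmp_two_hs (hw : GW w) (hb : BW w) (hM : MF M m)
    (hw' : GW w') (hb' : BW w') (hM' : MF M' m')
    (hA : Dom (An w M m x₀) ν c) (hA' : Dom (An w' M' m' x₀') ν' c')
    {Bd : Set (V N → ℝ)} (hBd : MeasurableSet Bd) {Bd' : Set (V N2 → ℝ)}
    (hBd' : MeasurableSet Bd') {η b : ℝ} (hη0 : 0 ≤ η)
    (hη : ∀ F, F ∉ Bd → Wt w M m x₀ F ≤ 1 + η) (hbd : (nuM w M x₀).real Bd ≤ b)
    (hη' : ∀ F, F ∉ Bd' → Wt w' M' m' x₀' F ≤ 1 + η) (hbd' : (nuM w' M' x₀').real Bd' ≤ b)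
    (hηb : η + b ≤ 1 / 8)
    {D : ℕ} (hDN : 4 * D < N) {K : Matrix (V N) (V N) ℝ} {K2 : Matrix (V N2) (V N2) ℝ}
    (hK : Cv 0 (An w M m x₀) K) (hK2 : Cv 0 (An w' M' m' x₀') K2)
    {Ar β AX βX R : ℝ}
    (hn : HSb D (fun ζ ζ' => K2 0 (ip N2 (ζ' - ζ)) - K 0 (ip N (ζ' - ζ))) Ar β)
    (hx : ∀ x : V N, R ≤ sn x → HSb D (fun ζ ζ' => K 0 (x + ip N (ζ' - ζ))) AX βX)
    (hx2 : ∀ x : V N2, R ≤ sn x → HSb D (fun ζ ζ' => K2 0 (x + ip N2 (ζ' - ζ))) AX βX)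
    {p q : V N} {p2 q2 : V N2} (hR : 2 * (D : ℝ) < R) (hpq : R ≤ sn (q - p))
    (hpq2 : R ≤ sn (q2 - p2))
    {δ : ℝ} (hδ : 0 < δ) (hδ4 : δ ≤ 1 / 4)
    (hδ2 : ν ^ 2 * (4 * nB D * (Ar + 4 * AX) + 4 * nB D ^ 2 * (β ^ 2 + 4 * βX ^ 2)) ≤ δ ^ 2)
    {d : ℝ} (hd : 0 ≤ d) (hd8 : d ≤ 1 / 8) :
    Cmp (nuM w M x₀) (nuM w' M' x₀') (wd D p q) (wd D p2 q2)
      (4 * (η + b) + 2 * d) (4 * b + 2 * (2 * (1 + d) ^ (-(1 / (4 * δ))))) := by
  have hne : p ≠ q := by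
    intro h
    rw [h, sub_self] at hpq
    have h0 : sn (0 : V N) = 0 := by simp [TM.H459.sn]
    rw [h0] at hpq
    have : (0 : ℝ) ≤ D := Nat.cast_nonneg _
    push_cast at hpq
    linarith
  have hz : ∀ j : Bx D ⊕ Bx D, (zB D j).1.natAbs ≤ D ∧ (zB D j).2.natAbs ≤ D := by
    rintro (j | j)
    · exact Bx_le j
    · exact Bx_le j
  obtain ⟨hsep, -⟩ := win_sep (fam_two hpq hpq2) hR hDN hz (inj_two hne)
  obtain ⟨S, hS, -, -⟩ := (pc_An hw hb hM x₀).exists_S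
  have hHi : An w M m x₀ * Hi (An w M m x₀) * An w M m x₀ = An w M m x₀ := by
    rw [(pc_An hw hb hM x₀).H_Hi, Matrix.sub_mul, Matrix.one_mul,
      (pc_An hw hb hM x₀).J1_mul, sub_zero]
  have hKA := cv_mul hA hK
  have e1 : (Pb D * evb D p q) * (S * Sᵀ) * (Pb D * evb D p q)ᵀ =
      (Pb D * evb D p q) * K * (Pb D * evb D p q)ᵀ := by
    rw [hS]
    exact win_cov_eq (pc_An hw hb hM x₀) hHi hKA (Pb_ev_J1 p q)
  obtain ⟨B, H, hH, hB1, hB2, hHS⟩ := two_hs hA hK hK2.ti hpq hpq2 hsep hn hx hx2 e1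
  exact cmp_lin hw hb hM hw' hb' hM' hBd hBd' hη0 hη hbd hη' hbd' hηb (mw_J1 _ _)
    (mw_J1 _ _) hKA (cv_mul hA' hK2) hB1 hH hB2 hδ hδ4 (hHS.trans hδ2) hd hd8

end laws

end

end Vale.Agent.P159.H708
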