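import Vale.Agent.P159.H708.Wl10

/-!
P159 / H708 (module WL), part 11: two tori whose step kernels are close in `ℓ²` only (`Nrq`):
near and far differences of the covariances in the form `HSb`.
-/

set_option linter.unusedSectionVars false

namespace Vale.Agent.P159.H708

open Finset Matrix MeasureTheory
open Vale.Agent.P159.TM.H764 (cN sN dt EE)
open Vale.Agent.P159.TM.Spec (V)
open Vale.Agent.P159.TM.SpecC (wT)
open Vale.Agent.P159.H864 (TI sym mlt fc hsq)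
open Vale.Agent.P159.H462 (Dom)
open Vale.Agent.P159.TM.H459 (sn)
open Vale.Agent.P159.H37 (gau qf wM)
open Vale.Agent.P159.H686 (Cmp fl)
open Vale.Agent.P159.H963 (MF GW nM An ntr Anm)
open Vale.Agent.P159.H733.Torg
open Vale.Agent.P159.H883

noncomputable section

variable {N N2 : ℕ} [NeZero N] [NeZero N2]

/-! ### `ℓ²` norms of translation invariant kernels -/

section l2

variable {U P G F : Matrix (V N) (V N) ℝ}

lemma row_fun (hU : TI U) (φ : ℝ → ℝ) (x : V N) : ∑ y, φ (U x y) = ∑ z, φ (U 0 z) := by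
  rw [← Equiv.sum_comp (Equiv.subRight x) fun z => φ (U 0 z)]
  exact Finset.sum_congr rfl fun y _ => by rw [hU.eq x y]; rfl

/-- Cauchy-Schwarz for a product of kernels -/
lemma mul_cs (hG : TI G) (hF : TI F) {a b s : ℝ} (ha : ∑ z, G 0 z ^ 2 ≤ a)
    (hb : ∑ z, F 0 z ^ 2 ≤ b) (ha0 : 0 ≤ a) (hs : 0 ≤ s) (hab : a * b ≤ s ^ 2) (x y : V N) :
    |(G * F) x y| ≤ s := by
  refine abs_le_of_sq_le_sq ?_ hs
  rw [Matrix.mul_apply]
  refine (Finset.sum_mul_sq_le_sq_mul_sq univ _ _).trans ?_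
  have e1 : ∑ w, G x w ^ 2 = ∑ z, G 0 z ^ 2 := row_fun hG (fun t => t ^ 2) x
  have e2 : ∑ w, F w y ^ 2 = ∑ z, F 0 z ^ 2 := by
    rw [← row_fun hF (fun t => t ^ 2) y]
    exact Finset.sum_congr rfl fun w _ => by rw [hF.sy w y]
  rw [e1, e2]
  refine le_trans ?_ hab
  exact mul_le_mul ha hb (Finset.sum_nonneg fun _ _ => sq_nonneg _) ha0

/-- powers of two sub-probability kernels, exponents `≥ 2` -/
lemma pow_sup2 (hU : ∀ x y, 0 ≤ U x y) (hP : ∀ x y, 0 ≤ P x y) (tP : TI P)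
    (rU : ∀ x, ∑ y, U x y ≤ 1) (rP : ∀ x, ∑ y, P x y ≤ 1) {s : ℝ}
    (h1 : ∀ x y, |((U - P) * P) x y| ≤ s) (h2 : ∀ x y, |(U * (U - P)) x y| ≤ s)
    (n : ℕ) (x y : V N) : |(U ^ (n + 2)) x y - (P ^ (n + 2)) x y| ≤ (n + 2 : ℕ) * s := by
  have hs0 : 0 ≤ s := (abs_nonneg _).trans (h1 0 0)
  have e3 : ∀ (n : ℕ) (x y : V N), |(U ^ (n + 1) * (U - P)) x y| ≤ s := by
    intro n x y
    rw [pow_succ, Matrix.mul_assoc, Matrix.mul_apply]
    refine (Finset.abs_sum_le_sum_abs _ _).trans ?_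
    have : ∀ w, |(U ^ n) x w * (U * (U - P)) w y| ≤ (U ^ n) x w * s := fun w => by
      rw [abs_mul, abs_of_nonneg (pow_nonneg' hU n x w)]
      exact mul_le_mul_of_nonneg_left (h2 w y) (pow_nonneg' hU n x w)
    refine (Finset.sum_le_sum fun w _ => this w).trans ?_
    rw [← Finset.sum_mul]
    exact mul_le_of_le_one_left hs0 (pow_row_sub hU rU n x)
  induction n generalizing x y with
  | zero =>
    have e1 : U ^ (0 + 2) - P ^ (0 + 2) = (U - P) * P + U * (U - P) := by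
      rw [zero_add, pow_two, pow_two, Matrix.sub_mul, Matrix.mul_sub]
      abel
    have e2 : (U ^ (0 + 2)) x y - (P ^ (0 + 2)) x y = ((U - P) * P + U * (U - P)) x y := by
      rw [← e1, Matrix.sub_apply]
    rw [e2, Matrix.add_apply]
    refine (abs_add_le _ _).trans ?_
    have a1 := h1 x y
    have a2 := h2 x y
    push_cast
    linarith
  | succ n ih =>
    have e1 : U ^ (n + 2 + 1) - P ^ (n + 2 + 1) =
        (U ^ (n + 2) - P ^ (n + 2)) * P + U ^ (n + 2) * (U - P) := by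
      rw [pow_succ U (n + 2), pow_succ P (n + 2), Matrix.sub_mul, Matrix.mul_sub]
      abel
    have e2 : (U ^ (n + 1 + 2)) x y - (P ^ (n + 1 + 2)) x y =
        ((U ^ (n + 2) - P ^ (n + 2)) * P + U ^ (n + 2) * (U - P)) x y := by
      rw [← e1, Matrix.sub_apply]
    rw [e2, Matrix.add_apply]
    refine (abs_add_le _ _).trans ?_
    have a2 : |(U ^ (n + 2) * (U - P)) x y| ≤ s := e3 (n + 1) x y
    have a1 : |((U ^ (n + 2) - P ^ (n + 2)) * P) x y| ≤ (n + 2 : ℕ) * s := by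
      rw [Matrix.mul_apply]
      refine (Finset.abs_sum_le_sum_abs _ _).trans ?_
      have : ∀ w, |(U ^ (n + 2) - P ^ (n + 2)) x w * P w y| ≤ (n + 2 : ℕ) * s * P w y :=
        fun w => by
          rw [abs_mul, abs_of_nonneg (hP w y), Matrix.sub_apply]
          exact mul_le_mul_of_nonneg_right (ih x w) (hP w y)
      refine (Finset.sum_le_sum fun w _ => this w).trans ?_
      rw [← Finset.mul_sum]
      refine mul_le_of_le_one_right (by positivity) ?_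
      refine le_trans (le_of_eq ?_) (rP y)
      exact Finset.sum_congr rfl fun w _ => tP.sy _ _
    push_cast at a1 ⊢
    linarith

end l2

/-! ### fibres -/

section fibres

variable {h : N ∣ N2} {W : Matrix (V N2) (V N2) ℝ}

lemma fib_sq (h : N ∣ N2) {Q : ℝ} (hQ : ((N2 : ℝ) / N) ^ 2 ≤ Q) (f : V N2 → ℝ) :
    ∑ z : V N, (∑ y ∈ univ.filter (fun y : V N2 => prj h y = z), f y) ^ 2 ≤
      Q * ∑ y, f y ^ 2 := by
  rw [← Finset.sum_fiberwise (s := univ) (g := fun y : V N2 => prj h y) (f := fun y => f y ^ 2),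
    Finset.mul_sum]
  refine Finset.sum_le_sum fun z _ => ?_
  refine (sq_sum_le_card_mul_sum_sq).trans ?_
  rw [card_fib h z]
  exact mul_le_mul_of_nonneg_right hQ (Finset.sum_nonneg fun _ _ => sq_nonneg _)

/-- far part of a periodization -/
lemma fold_far (hW0 : ∀ x y, 0 ≤ W x y) {θ S : ℝ} (hθ : 0 ≤ θ) {z : V N}
    (hW : ∑ y ∈ univ.filter (fun y : V N2 => prj h y = z), W 0 y * Real.exp (θ * sn y) ≤ S)
    {r : ℝ} (hr : r ≤ sn z) :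
    ∑ y ∈ univ.filter (fun y : V N2 => prj h y = z), W 0 y ≤ S * Real.exp (-(θ * r)) := by
  have h2 : ∀ y ∈ univ.filter (fun y : V N2 => prj h y = z), W 0 y ≤
      W 0 y * Real.exp (θ * sn y) * Real.exp (-(θ * r)) := by
    intro y hy
    have hy' : prj h y = z := (Finset.mem_filter.1 hy).2
    have k1 : r ≤ sn y := by
      have := sn_prj h y
      rw [hy'] at this
      have k2 : (sn z : ℝ) ≤ sn y := by exact_mod_cast this
      linarith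
    have k3 : 1 ≤ Real.exp (θ * sn y) * Real.exp (-(θ * r)) := by
      rw [← Real.exp_add]
      refine Real.one_le_exp ?_
      have k4 := mul_le_mul_of_nonneg_left k1 hθ
      linarith
    rw [mul_assoc]
    exact le_mul_of_one_le_right (hW0 _ _) k3
  refine (Finset.sum_le_sum h2).trans ?_
  rw [← Finset.sum_mul]
  exact mul_le_mul_of_nonneg_right hW (Real.exp_pos _).le

/-- a periodization at a point near the origin -/
lemma fold_near (hW0 : ∀ x y, 0 ≤ W x y) {θ S : ℝ} (hθ : 0 ≤ θ) {ζ : ℤ × ℤ}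
    (h1 : 2 * ζ.1.natAbs ≤ N) (h2 : 2 * ζ.2.natAbs ≤ N)
    (hW : ∑ y ∈ univ.filter (fun y : V N2 => prj h y = ip N ζ),
      W 0 y * Real.exp (θ * sn y) ≤ S) :
    |∑ y ∈ univ.filter (fun y : V N2 => prj h y = ip N ζ), W 0 y - W 0 (ip N2 ζ)| ≤
      S * Real.exp (-(θ * (N / 2))) := by
  have hmem : ip N2 ζ ∈ univ.filter (fun z2 : V N2 => prj h z2 = ip N ζ) := by
    rw [Finset.mem_filter]
    exact ⟨mem_univ _, prj_ip h ζ⟩
  rw [← Finset.add_sum_erase _ _ hmem, add_sub_cancel_left, abs_of_nonneg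
    (Finset.sum_nonneg fun y _ => hW0 0 y)]
  have h4 : ∀ y ∈ (univ.filter (fun z2 : V N2 => prj h z2 = ip N ζ)).erase (ip N2 ζ),
      W 0 y ≤ W 0 y * Real.exp (θ * sn y) * Real.exp (-(θ * (N / 2))) := by
    intro y hy
    rw [Finset.mem_erase, Finset.mem_filter] at hy
    have k0 := far h h1 h2 hy.2.2 hy.1
    have k1 : (N : ℝ) / 2 ≤ sn y := by
      have : (N : ℝ) ≤ 2 * sn y := by exact_mod_cast k0
      linarith
    have k3 : 1 ≤ Real.exp (θ * sn y) * Real.exp (-(θ * (N / 2))) := by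
      rw [← Real.exp_add]
      refine Real.one_le_exp ?_
      have k4 := mul_le_mul_of_nonneg_left k1 hθ
      linarith
    rw [mul_assoc]
    exact le_mul_of_one_le_right (hW0 _ _) k3
  refine (Finset.sum_le_sum h4).trans ?_
  rw [← Finset.sum_mul]
  refine mul_le_mul_of_nonneg_right ?_ (Real.exp_pos _).le
  refine le_trans (Finset.sum_le_sum_of_subset_of_nonneg (Finset.erase_subset _ _) ?_) hW
  exact fun y _ _ => mul_nonneg (hW0 _ _) (Real.exp_pos _).le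

/-- `ℓ²` version of `fold_near` -/
lemma fold_l2 (h : N ∣ N2) {Q : ℝ} (hQ : ((N2 : ℝ) / N) ^ 2 ≤ Q)
    {κ a : ℝ} (hκ : 0 ≤ κ) (hW : ∑ y, (W 0 y * Real.exp (κ * sn y)) ^ 2 ≤ a)
    (s : Finset (ℤ × ℤ)) (hs : ∀ ζ ∈ s, 2 * ζ.1.natAbs ≤ N ∧ 2 * ζ.2.natAbs ≤ N)
    (hi : Set.InjOn (fun ζ => ip N ζ) (s : Set (ℤ × ℤ))) :
    ∑ ζ ∈ s, (∑ y ∈ univ.filter (fun y : V N2 => prj h y = ip N ζ), W 0 y -
      W 0 (ip N2 ζ)) ^ 2 ≤ Q * (Real.exp (-(κ * N)) * a) := by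
  have hQ0 : 0 ≤ Q := le_trans (by positivity) hQ
  have h1 : ∀ ζ ∈ s, (∑ y ∈ univ.filter (fun y : V N2 => prj h y = ip N ζ), W 0 y -
      W 0 (ip N2 ζ)) ^ 2 ≤ Q * ∑ y ∈ univ.filter (fun y : V N2 => prj h y = ip N ζ),
        Real.exp (-(κ * N)) * (W 0 y * Real.exp (κ * sn y)) ^ 2 := by
    intro ζ hζ
    have hmem : ip N2 ζ ∈ univ.filter (fun z2 : V N2 => prj h z2 = ip N ζ) := by
      rw [Finset.mem_filter]
      exact ⟨mem_univ _, prj_ip h ζ⟩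
    rw [← Finset.add_sum_erase _ _ hmem, add_sub_cancel_left]
    refine (sq_sum_le_card_mul_sum_sq).trans ?_
    have hc : (((univ.filter fun y : V N2 => prj h y = ip N ζ).erase (ip N2 ζ)).card : ℝ) ≤ Q := by
      refine le_trans ?_ hQ
      rw [← card_fib h (ip N ζ)]
      exact_mod_cast Finset.card_le_card (Finset.erase_subset _ _)
    refine mul_le_mul hc ?_ (Finset.sum_nonneg fun _ _ => sq_nonneg _) hQ0
    refine le_trans (Finset.sum_le_sum fun y hy => ?_)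
      (Finset.sum_le_sum_of_subset_of_nonneg (Finset.erase_subset _ _) fun y _ _ => by positivity)
    rw [Finset.mem_erase, Finset.mem_filter] at hy
    have k0 := far h (hs ζ hζ).1 (hs ζ hζ).2 hy.2.2 hy.1
    have k1 : (N : ℝ) ≤ 2 * sn y := by exact_mod_cast k0
    rw [mul_pow, ← mul_assoc, mul_comm (Real.exp _), mul_assoc, pow_two (Real.exp _),
      ← Real.exp_add, ← Real.exp_add]
    refine le_mul_of_one_le_right (sq_nonneg _) (Real.one_le_exp ?_)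
    nlinarith
  refine (Finset.sum_le_sum h1).trans ?_
  rw [← Finset.mul_sum]
  refine mul_le_mul_of_nonneg_left ?_ hQ0
  have e1 : ∑ ζ ∈ s, ∑ y ∈ univ.filter (fun y : V N2 => prj h y = ip N ζ),
      Real.exp (-(κ * N)) * (W 0 y * Real.exp (κ * sn y)) ^ 2 =
      ∑ z ∈ s.image (fun ζ => ip N ζ), ∑ y ∈ univ.filter (fun y : V N2 => prj h y = z),
      Real.exp (-(κ * N)) * (W 0 y * Real.exp (κ * sn y)) ^ 2 := by
    rw [Finset.sum_image hi]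
  rw [e1]
  refine le_trans (Finset.sum_le_sum_of_subset_of_nonneg (Finset.subset_univ _)
    fun z _ _ => Finset.sum_nonneg fun y _ => by positivity) ?_
  rw [Finset.sum_fiberwise, ← Finset.mul_sum]
  exact mul_le_mul_of_nonneg_left hW (Real.exp_pos _).le

/-- weighted `ℓ²` norm to a pointwise bound of the square -/
lemma wsq {S : Matrix (V N2) (V N2) ℝ} (hS : TI S) (h0 : ∀ x y, 0 ≤ S x y) {κ θ a : ℝ}
    (hθ : 0 ≤ θ) (hθκ : θ ≤ κ) (ha : ∑ y, (S 0 y * Real.exp (κ * sn y)) ^ 2 ≤ a) (z : V N2) :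
    (S * S) 0 z * Real.exp (θ * sn z) ≤ a := by
  set f : V N2 → ℝ := fun y => S 0 y * Real.exp (κ * sn y) with hf
  have hf0 : ∀ y, 0 ≤ f y := fun y => mul_nonneg (h0 _ _) (Real.exp_pos _).le
  have h1 : (S * S) 0 z * Real.exp (θ * sn z) ≤ ∑ v, f v * f (z - v) := by
    rw [Matrix.mul_apply, Finset.sum_mul]
    refine Finset.sum_le_sum fun v _ => ?_
    rw [hS.eq v z]
    have k1 : Real.exp (θ * sn z) ≤ Real.exp (κ * sn v) * Real.exp (κ * sn (z - v)) := by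
      rw [← Real.exp_add]
      refine Real.exp_le_exp.2 ?_
      have k2 := TM.H459.sn_add_le v (z - v)
      have k3 : v + (z - v) = z := by abel
      rw [k3] at k2
      have k4 : (sn z : ℝ) ≤ sn v + sn (z - v) := by exact_mod_cast k2
      have k5 : θ * sn z ≤ θ * (sn v + sn (z - v)) := mul_le_mul_of_nonneg_left k4 hθ
      have k6 : θ * ((sn v : ℝ) + sn (z - v)) ≤ κ * (sn v + sn (z - v)) :=
        mul_le_mul_of_nonneg_right hθκ (by positivity)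
      linarith
    refine (mul_le_mul_of_nonneg_left k1 (mul_nonneg (h0 _ _) (h0 _ _))).trans (le_of_eq ?_)
    simp only [hf]
    ring
  refine h1.trans ?_
  have h2 : ∑ v, f v * f (z - v) ≤ ∑ v, (f v ^ 2 + f (z - v) ^ 2) / 2 := by
    refine Finset.sum_le_sum fun v _ => ?_
    have := sq_nonneg (f v - f (z - v))
    nlinarith
  refine h2.trans ?_
  rw [← Finset.sum_div, Finset.sum_add_distrib]
  have h3 : ∑ v, f (z - v) ^ 2 = ∑ v, f v ^ 2 :=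
    Equiv.sum_comp (Equiv.subLeft z) fun v => f v ^ 2
  rw [h3]
  linarith

/-- pointwise exponential bound of the powers `≥ 2` -/
lemma wpow {S : Matrix (V N2) (V N2) ℝ} (hS : TI S) (h0 : ∀ x y, 0 ≤ S x y)
    (h1 : ∀ x, ∑ y, S x y ≤ 1) {κ C1 a : ℝ} (hκ : 0 < κ)
    (hm : ∑ z, S 0 z * Real.exp (κ * sn z) ≤ C1)
    (ha : ∑ y, (S 0 y * Real.exp (κ * sn y)) ^ 2 ≤ a) {T i : ℕ} (hT : 1 ≤ T) (hi : i ≤ T)
    (y : V N2) :
    (S ^ (i + 2)) 0 y * Real.exp (κ / (2 * √T) * sn y) ≤ 4 * Real.exp (C1 + 1) * a := by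
  have hT' : (1 : ℝ) ≤ T := by exact_mod_cast hT
  have hsT : 1 ≤ √(T : ℝ) := Real.one_le_sqrt.2 hT'
  set θ : ℝ := κ / (2 * √T) with hθ
  have hθ0 : 0 < θ := by positivity
  have hθκ : θ ≤ κ := by
    rw [hθ]
    exact div_le_self hκ.le (by linarith)
  have ha0 : 0 ≤ a := le_trans (Finset.sum_nonneg fun _ _ => sq_nonneg _) ha
  have hSS : TI (S * S) := hS.mul hS
  have e1 : (S ^ (i + 2)) 0 y * Real.exp (θ * sn y) ≤
      ∑ w, (S ^ i) 0 w * Real.exp (θ * sn w) * a := by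
    rw [pow_add, pow_two, Matrix.mul_apply, Finset.sum_mul]
    refine Finset.sum_le_sum fun w _ => ?_
    rw [hSS.eq w y]
    have k1 : Real.exp (θ * sn y) ≤ Real.exp (θ * sn w) * Real.exp (θ * sn (y - w)) := by
      rw [← Real.exp_add]
      refine Real.exp_le_exp.2 ?_
      have k2 := TM.H459.sn_add_le w (y - w)
      have k3 : w + (y - w) = y := by abel
      rw [k3] at k2
      have k4 : (sn y : ℝ) ≤ sn w + sn (y - w) := by exact_mod_cast k2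
      have k5 : θ * sn y ≤ θ * (sn w + sn (y - w)) := mul_le_mul_of_nonneg_left k4 hθ0.le
      linarith
    have k7 : 0 ≤ (S ^ i) 0 w := pow_nonneg' h0 i _ _
    have k8 : 0 ≤ (S * S) 0 (y - w) := by
      rw [Matrix.mul_apply]
      exact Finset.sum_nonneg fun v _ => mul_nonneg (h0 _ _) (h0 _ _)
    have k9 := wsq hS h0 hθ0.le hθκ ha (y - w)
    calc (S ^ i) 0 w * (S * S) 0 (y - w) * Real.exp (θ * sn y)
        ≤ (S ^ i) 0 w * (S * S) 0 (y - w) *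
          (Real.exp (θ * sn w) * Real.exp (θ * sn (y - w))) :=
          mul_le_mul_of_nonneg_left k1 (mul_nonneg k7 k8)
      _ = (S ^ i) 0 w * Real.exp (θ * sn w) *
          ((S * S) 0 (y - w) * Real.exp (θ * sn (y - w))) := by ring
      _ ≤ (S ^ i) 0 w * Real.exp (θ * sn w) * a :=
          mul_le_mul_of_nonneg_left k9 (mul_nonneg k7 (Real.exp_pos _).le)
  refine e1.trans ?_
  rw [← Finset.sum_mul]
  exact mul_le_mul_of_nonneg_right (mgf_sub hS h0 h1 hκ hm hT hi) ha0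

/-- the same over a fibre -/
lemma wfib {S : Matrix (V N2) (V N2) ℝ} (hS : TI S) (h0 : ∀ x y, 0 ≤ S x y)
    (h1 : ∀ x, ∑ y, S x y ≤ 1) {κ C1 a Q : ℝ} (hκ : 0 < κ)
    (hm : ∑ z, S 0 z * Real.exp (κ * sn z) ≤ C1)
    (ha : ∑ y, (S 0 y * Real.exp (κ * sn y)) ^ 2 ≤ a) {T i : ℕ} (hT : 1 ≤ T) (hi : i ≤ T)
    (h : N ∣ N2) (hQ : ((N2 : ℝ) / N) ^ 2 ≤ Q) (z : V N) :
    ∑ y ∈ univ.filter (fun y : V N2 => prj h y = z),
      (S ^ (i + 2)) 0 y * Real.exp (κ / (2 * √T) * sn y) ≤ Q * (4 * Real.exp (C1 + 1) * a) := by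
  have ha0 : 0 ≤ a := le_trans (Finset.sum_nonneg fun _ _ => sq_nonneg _) ha
  refine (Finset.sum_le_card_nsmul _ _ _ fun y _ => wpow hS h0 h1 hκ hm ha hT hi y).trans ?_
  rw [nsmul_eq_mul, card_fib h z]
  exact mul_le_mul_of_nonneg_right hQ (by positivity)

end fibres

/-! ### two tori -/

/-- the data of two tori: sub-probability kernels `U`, `U2` of `A`, `A2`; exponential moment and
weighted `ℓ²` norm of `U2`; `U` is close in `ℓ²` to the periodization of `U2` -/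
structure Nrq (h : N ∣ N2) (A U : Matrix (V N) (V N) ℝ) (A2 U2 : Matrix (V N2) (V N2) ℝ)
    (ν c κ C1 Q B2 η2 : ℝ) : Prop where
  dom : Dom A ν c
  dom2 : Dom A2 ν c
  uk : Uk A U ν
  uk2 : Uk A2 U2 ν
  kp : 0 < κ
  hQ : ((N2 : ℝ) / N) ^ 2 ≤ Q
  η0 : 0 ≤ η2
  mom : ∑ z, U2 0 z * Real.exp (κ * sn z) ≤ C1
  wl2 : ∑ z, (U2 0 z * Real.exp (κ * sn z)) ^ 2 ≤ ν * B2
  dl2 : ∑ z, (U 0 z - ∑ y ∈ univ.filter (fun y : V N2 => prj h y = z), U2 0 y) ^ 2 ≤ ν * η2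

section nrq

variable {A U : Matrix (V N) (V N) ℝ} {A2 U2 : Matrix (V N2) (V N2) ℝ}
  {ν c κ C1 Q B2 η2 σ : ℝ} {h : N ∣ N2}

lemma Nrq.Q1 (hN : Nrq h A U A2 U2 ν c κ C1 Q B2 η2) : 1 ≤ Q := by
  refine le_trans ?_ hN.hQ
  have h1 : (0 : ℝ) < N := by exact_mod_cast Nat.pos_of_ne_zero (NeZero.ne N)
  have h2 : (N : ℝ) ≤ N2 := by
    exact_mod_cast Nat.le_of_dvd (Nat.pos_of_ne_zero (NeZero.ne N2)) h
  have h3 : 1 ≤ (N2 : ℝ) / N := by rwa [le_div_iff₀ h1, one_mul]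
  nlinarith

lemma Nrq.B0 (hN : Nrq h A U A2 U2 ν c κ C1 Q B2 η2) : 0 ≤ B2 := by
  have h1 := le_trans (Finset.sum_nonneg fun _ _ => sq_nonneg _) hN.wl2
  have h2 := hN.dom.hν
  by_contra h3
  push Not at h3
  nlinarith

lemma Nrq.pz_ker (hN : Nrq h A U A2 U2 ν c κ C1 Q B2 η2) (m : ℕ) (z : V N) :
    (pz h U2 ^ m) 0 z = ∑ y ∈ univ.filter (fun y : V N2 => prj h y = z), (U2 ^ m) 0 y :=
  ((per_pz h hN.uk2.ti).pow m).ker z

lemma Nrq.pz_ker1 (hN : Nrq h A U A2 U2 ν c κ C1 Q B2 η2) (z : V N) :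
    pz h U2 0 z = ∑ y ∈ univ.filter (fun y : V N2 => prj h y = z), U2 0 y := by
  have := hN.pz_ker 1 z
  rwa [pow_one, pow_one] at this

lemma Nrq.pz_nn (hN : Nrq h A U A2 U2 ν c κ C1 Q B2 η2) (x y : V N) : 0 ≤ pz h U2 x y := by
  unfold pz
  exact Finset.sum_nonneg fun z _ => hN.uk2.nn _ _

lemma Nrq.pz_row (hN : Nrq h A U A2 U2 ν c κ C1 Q B2 η2) (x : V N) : ∑ y, pz h U2 x y ≤ 1 := by
  rw [row_eq (ti_pz h hN.uk2.ti)]
  simp only [hN.pz_ker1]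
  rw [Finset.sum_fiberwise]
  exact hN.uk2.row 0

/-- `ℓ²` norm of the large kernel -/
lemma Nrq.l2_U2 (hN : Nrq h A U A2 U2 ν c κ C1 Q B2 η2) : ∑ z, U2 0 z ^ 2 ≤ ν * B2 := by
  refine le_trans (Finset.sum_le_sum fun z _ => ?_) hN.wl2
  have h1 : 1 ≤ Real.exp (κ * sn z) :=
    Real.one_le_exp (mul_nonneg hN.kp.le (Nat.cast_nonneg _))
  have h2 := hN.uk2.nn 0 z
  exact pow_le_pow_left₀ h2 (le_mul_of_one_le_right h2 h1) 2

lemma Nrq.l2_pz (hN : Nrq h A U A2 U2 ν c κ C1 Q B2 η2) :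
    ∑ z, pz h U2 0 z ^ 2 ≤ ν * (Q * B2) := by
  simp only [hN.pz_ker1]
  refine (fib_sq h hN.hQ _).trans ?_
  have := mul_le_mul_of_nonneg_left hN.l2_U2 (by linarith [hN.Q1] : 0 ≤ Q)
  linarith

lemma Nrq.l2_diff (hN : Nrq h A U A2 U2 ν c κ C1 Q B2 η2) :
    ∑ z, (U - pz h U2) 0 z ^ 2 ≤ ν * η2 := by
  refine le_trans (le_of_eq (Finset.sum_congr rfl fun z _ => ?_)) hN.dl2
  rw [Matrix.sub_apply, hN.pz_ker1]

lemma Nrq.l2_U (hN : Nrq h A U A2 U2 ν c κ C1 Q B2 η2) :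
    ∑ z, U 0 z ^ 2 ≤ ν * (2 * Q * B2 + 2 * η2) := by
  have h1 := hN.l2_pz
  have h2 := hN.l2_diff
  have h3 : ∑ z, U 0 z ^ 2 ≤ ∑ z, (2 * pz h U2 0 z ^ 2 + 2 * (U - pz h U2) 0 z ^ 2) := by
    refine Finset.sum_le_sum fun z _ => ?_
    rw [Matrix.sub_apply]
    have := sq_nonneg (U 0 z - 2 * pz h U2 0 z)
    nlinarith
  rw [Finset.sum_add_distrib, ← Finset.mul_sum, ← Finset.mul_sum] at h3
  linarith

/-- powers `≥ 2` of `U` and of the periodization -/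
lemma Nrq.pow_pz (hN : Nrq h A U A2 U2 ν c κ C1 Q B2 η2) (hσ0 : 0 ≤ σ)
    (hσ : η2 * (2 * Q * B2 + 2 * η2) ≤ σ ^ 2) (n : ℕ) (x y : V N) :
    |(U ^ (n + 2)) x y - (pz h U2 ^ (n + 2)) x y| ≤ (n + 2 : ℕ) * (ν * σ) := by
  have hν := hN.dom.hν
  have hQ := hN.Q1
  have hB := hN.B0
  have hη := hN.η0
  have tP : TI (pz h U2) := ti_pz h hN.uk2.ti
  have tD : TI (U - pz h U2) := hN.uk.ti.sub tP
  refine pow_sup2 hN.uk.nn hN.pz_nn tP hN.uk.row hN.pz_row ?_ ?_ n x y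
  · refine mul_cs tD tP hN.l2_diff hN.l2_pz (by positivity) (by positivity) ?_
    have h1 : η2 * (Q * B2) ≤ σ ^ 2 := by
      refine le_trans ?_ hσ
      refine mul_le_mul_of_nonneg_left ?_ hη
      have : 0 ≤ Q * B2 := by positivity
      linarith
    calc ν * η2 * (ν * (Q * B2)) = ν ^ 2 * (η2 * (Q * B2)) := by ring
      _ ≤ ν ^ 2 * σ ^ 2 := mul_le_mul_of_nonneg_left h1 (by positivity)
      _ = (ν * σ) ^ 2 := by ring
  · refine mul_cs hN.uk.ti tD hN.l2_U hN.l2_diff (by positivity) (by positivity) ?_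
    calc ν * (2 * Q * B2 + 2 * η2) * (ν * η2) = ν ^ 2 * (η2 * (2 * Q * B2 + 2 * η2)) := by ring
      _ ≤ ν ^ 2 * σ ^ 2 := mul_le_mul_of_nonneg_left hσ (by positivity)
      _ = (ν * σ) ^ 2 := by ring

lemma Nrq.wf (hN : Nrq h A U A2 U2 ν c κ C1 Q B2 η2) {T i : ℕ} (hT : 1 ≤ T) (hi : i ≤ T)
    (z : V N) : ∑ y ∈ univ.filter (fun y : V N2 => prj h y = z),
      (U2 ^ (i + 2)) 0 y * Real.exp (κ / (2 * √T) * sn y) ≤
        Q * (4 * Real.exp (C1 + 1) * (ν * B2)) :=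
  wfib hN.uk2.ti hN.uk2.nn hN.uk2.row hN.kp hN.mom hN.wl2 hT hi h hN.hQ z

/-- powers `≥ 2` at a far point -/
lemma Nrq.pow_far (hN : Nrq h A U A2 U2 ν c κ C1 Q B2 η2) (hσ0 : 0 ≤ σ)
    (hσ : η2 * (2 * Q * B2 + 2 * η2) ≤ σ ^ 2) {T i : ℕ} (hT : 1 ≤ T) (hi : i + 2 ≤ T)
    {z : V N} {r : ℝ} (hr : r ≤ sn z) :
    |(U ^ (i + 2)) 0 z| ≤ ν * (T * σ + Q * B2 * ft κ (C1 + 1) T r) := by
  have hν := hN.dom.hν
  have hθ : 0 ≤ κ / (2 * √(T : ℝ)) := div_nonneg hN.kp.le (by positivity)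
  have h1 := hN.pow_pz hσ0 hσ i 0 z
  have h2 := fold_far (pow_nonneg' hN.uk2.nn (i + 2)) hθ (hN.wf hT (by omega) z) hr
  rw [← hN.pz_ker] at h2
  have h3 : 0 ≤ (pz h U2 ^ (i + 2)) 0 z := pow_nonneg' hN.pz_nn _ _ _
  have h4 : ((i + 2 : ℕ) : ℝ) * (ν * σ) ≤ T * (ν * σ) :=
    mul_le_mul_of_nonneg_right (by exact_mod_cast hi) (by positivity)
  have h5 : Q * (4 * Real.exp (C1 + 1) * (ν * B2)) * Real.exp (-(κ / (2 * √T) * r)) =
      ν * (Q * B2 * ft κ (C1 + 1) T r) := by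
    unfold ft
    rw [show κ / (2 * √(T : ℝ)) * r = κ * r / (2 * √T) by ring]
    ring
  rw [h5] at h2
  rw [abs_le] at h1 ⊢
  constructor <;> linarith [h1.1, h1.2]

/-- powers `≥ 2` at the same integer point of the two tori -/
lemma Nrq.pow_near (hN : Nrq h A U A2 U2 ν c κ C1 Q B2 η2) (hσ0 : 0 ≤ σ)
    (hσ : η2 * (2 * Q * B2 + 2 * η2) ≤ σ ^ 2) {T i : ℕ} (hT : 1 ≤ T) (hi : i + 2 ≤ T)
    {ζ : ℤ × ℤ} (h1 : 2 * ζ.1.natAbs ≤ N) (h2 : 2 * ζ.2.natAbs ≤ N) :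
    |(U2 ^ (i + 2)) 0 (ip N2 ζ) - (U ^ (i + 2)) 0 (ip N ζ)| ≤
      ν * (T * σ + Q * B2 * ft κ (C1 + 1) T (N / 2)) := by
  have hν := hN.dom.hν
  have hθ : 0 ≤ κ / (2 * √(T : ℝ)) := div_nonneg hN.kp.le (by positivity)
  have k1 := hN.pow_pz hσ0 hσ i 0 (ip N ζ)
  have k2 := fold_near (pow_nonneg' hN.uk2.nn (i + 2)) hθ h1 h2 (hN.wf hT (by omega) (ip N ζ))
  rw [← hN.pz_ker] at k2
  have h4 : ((i + 2 : ℕ) : ℝ) * (ν * σ) ≤ T * (ν * σ) :=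
    mul_le_mul_of_nonneg_right (by exact_mod_cast hi) (by positivity)
  have h5 : Q * (4 * Real.exp (C1 + 1) * (ν * B2)) * Real.exp (-(κ / (2 * √T) * (N / 2))) =
      ν * (Q * B2 * ft κ (C1 + 1) T (N / 2)) := by
    unfold ft
    rw [show κ / (2 * √(T : ℝ)) * ((N : ℝ) / 2) = κ * (N / 2) / (2 * √T) by ring]
    ring
  rw [h5] at k2
  rw [abs_le] at k1 k2 ⊢
  constructor <;> linarith [k1.1, k1.2, k2.1, k2.2]

/-- the part of order `≥ 2` of the series -/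
def t2 (ν : ℝ) (U : Matrix (V N) (V N) ℝ) (T : ℕ) (y : V N) : ℝ :=
  ν⁻¹ * ∑ i ∈ range T, (U ^ (i + 2)) 0 y

lemma smU_dec (hν : 0 < ν) (U : Matrix (V N) (V N) ℝ) (T : ℕ) (y : V N) :
    smU 0 ν U (T + 2) 0 y =
      ν⁻¹ * (1 : Matrix (V N) (V N) ℝ) 0 y + ν⁻¹ * U 0 y + t2 ν U T y := by
  rw [smU_apply, add_zero, div_self hν.ne', Finset.sum_range_succ', Finset.sum_range_succ']
  simp only [one_pow, one_mul, pow_zero]
  unfold t2
  have e : (U ^ (0 + 1)) 0 y = U 0 y := by rw [zero_add, pow_one]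
  rw [e]
  ring

/-- far part of a periodization, `ℓ²` -/
lemma fold_far_l2 {W : Matrix (V N2) (V N2) ℝ} (h : N ∣ N2) (hQ : ((N2 : ℝ) / N) ^ 2 ≤ Q)
    {a : ℝ} (hκ : 0 ≤ κ) (hW : ∑ y, (W 0 y * Real.exp (κ * sn y)) ^ 2 ≤ a)
    (s : Finset (V N)) {r : ℝ} (hs : ∀ z ∈ s, r ≤ sn z) :
    ∑ z ∈ s, (∑ y ∈ univ.filter (fun y : V N2 => prj h y = z), W 0 y) ^ 2 ≤
      Q * (Real.exp (-(2 * κ * r)) * a) := by
  have hQ0 : 0 ≤ Q := le_trans (by positivity) hQ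
  have h1 : ∀ z ∈ s, (∑ y ∈ univ.filter (fun y : V N2 => prj h y = z), W 0 y) ^ 2 ≤
      Q * ∑ y ∈ univ.filter (fun y : V N2 => prj h y = z),
        Real.exp (-(2 * κ * r)) * (W 0 y * Real.exp (κ * sn y)) ^ 2 := by
    intro z hz
    refine (sq_sum_le_card_mul_sum_sq).trans ?_
    rw [card_fib h z]
    refine mul_le_mul hQ ?_ (Finset.sum_nonneg fun _ _ => sq_nonneg _) hQ0
    refine Finset.sum_le_sum fun y hy => ?_
    have hy' : prj h y = z := (Finset.mem_filter.1 hy).2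
    have k1 : r ≤ sn y := by
      have := sn_prj h y
      rw [hy'] at this
      have k2 : (sn z : ℝ) ≤ sn y := by exact_mod_cast this
      linarith [hs z hz]
    rw [mul_pow, ← mul_assoc, mul_comm (Real.exp _), mul_assoc, pow_two (Real.exp _),
      ← Real.exp_add, ← Real.exp_add]
    refine le_mul_of_one_le_right (sq_nonneg _) (Real.one_le_exp ?_)
    nlinarith
  refine (Finset.sum_le_sum h1).trans ?_
  rw [← Finset.mul_sum]
  refine mul_le_mul_of_nonneg_left ?_ hQ0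
  refine le_trans (Finset.sum_le_sum_of_subset_of_nonneg (Finset.subset_univ _)
    fun z _ _ => Finset.sum_nonneg fun y _ => by positivity) ?_
  rw [Finset.sum_fiberwise, ← Finset.mul_sum]
  exact mul_le_mul_of_nonneg_left hW (Real.exp_pos _).le

lemma Nrq.l2_near (hN : Nrq h A U A2 U2 ν c κ C1 Q B2 η2) {D : ℕ} (hD : 4 * D < N) :
    ∑ v ∈ bx (2 * D), (ν⁻¹ * (U2 0 (ip N2 v) - U 0 (ip N v))) ^ 2 ≤
      2 / ν * (η2 + Q * B2 * Real.exp (-(κ * N))) := by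
  have hν := hN.dom.hν
  have hinj : Set.InjOn (fun ζ => ip N ζ) (bx (2 * D) : Set (ℤ × ℤ)) := by
    intro v hv v' hv' hvv
    have k1 := mem_bx.1 (Finset.mem_coe.1 hv)
    have k2 := mem_bx.1 (Finset.mem_coe.1 hv')
    exact ip_inj (D := 2 * D) (by omega) k1.1 k1.2 k2.1 k2.2 hvv
  have h1 := fold_l2 (W := U2) h hN.hQ hN.kp.le hN.wl2 (bx (2 * D)) (fun ζ hζ => by
    have := mem_bx.1 hζ
    omega) hinj
  have h2 : ∑ v ∈ bx (2 * D), (U 0 (ip N v) -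
      ∑ y ∈ univ.filter (fun y : V N2 => prj h y = ip N v), U2 0 y) ^ 2 ≤ ν * η2 := by
    refine le_trans ?_ hN.dl2
    rw [← Finset.sum_image (s := bx (2 * D)) (g := fun ζ => ip N ζ) (f := fun z => (U 0 z -
      ∑ y ∈ univ.filter (fun y : V N2 => prj h y = z), U2 0 y) ^ 2) hinj]
    exact Finset.sum_le_sum_of_subset_of_nonneg (Finset.subset_univ _) fun _ _ _ => sq_nonneg _
  have h3 : ∀ v ∈ bx (2 * D), (ν⁻¹ * (U2 0 (ip N2 v) - U 0 (ip N v))) ^ 2 ≤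
      ν⁻¹ ^ 2 * (2 * (∑ y ∈ univ.filter (fun y : V N2 => prj h y = ip N v), U2 0 y -
        U2 0 (ip N2 v)) ^ 2 + 2 * (U 0 (ip N v) -
        ∑ y ∈ univ.filter (fun y : V N2 => prj h y = ip N v), U2 0 y) ^ 2) := by
    intro v _
    rw [mul_pow]
    refine mul_le_mul_of_nonneg_left ?_ (by positivity)
    set P := ∑ y ∈ univ.filter (fun y : V N2 => prj h y = ip N v), U2 0 y
    have := sq_nonneg ((P - U2 0 (ip N2 v)) - (U 0 (ip N v) - P))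
    nlinarith
  refine (Finset.sum_le_sum h3).trans ?_
  rw [← Finset.mul_sum, Finset.sum_add_distrib, ← Finset.mul_sum, ← Finset.mul_sum]
  calc ν⁻¹ ^ 2 * (2 * ∑ v ∈ bx (2 * D), (∑ y ∈ univ.filter (fun y : V N2 => prj h y = ip N v),
        U2 0 y - U2 0 (ip N2 v)) ^ 2 + 2 * ∑ v ∈ bx (2 * D), (U 0 (ip N v) -
        ∑ y ∈ univ.filter (fun y : V N2 => prj h y = ip N v), U2 0 y) ^ 2)
      ≤ ν⁻¹ ^ 2 * (2 * (Q * (Real.exp (-(κ * N)) * (ν * B2))) + 2 * (ν * η2)) := by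
        refine mul_le_mul_of_nonneg_left ?_ (by positivity)
        linarith
    _ = _ := by
        field_simp
        ring

lemma one_ip {D : ℕ} (hD : 4 * D < N) (hNN : N ≤ N2) {v : ℤ × ℤ} (hv : v ∈ bx (2 * D)) :
    (1 : Matrix (V N2) (V N2) ℝ) 0 (ip N2 v) = (1 : Matrix (V N) (V N) ℝ) 0 (ip N v) := by
  have k1 := mem_bx.1 hv
  rw [Matrix.one_apply, Matrix.one_apply]
  by_cases hv0 : v = 0
  · rw [hv0, ip_zero, ip_zero, if_pos rfl, if_pos rfl]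
  · rw [if_neg, if_neg]
    · intro h
      rw [← ip_zero N] at h
      exact hv0 (ip_inj (D := 2 * D) (by omega) (by simp) (by simp) k1.1 k1.2 h).symm
    · intro h
      rw [← ip_zero N2] at h
      exact hv0 (ip_inj (D := 2 * D) (by omega) (by simp) (by simp) k1.1 k1.2 h).symm

lemma t2_bd (hν : 0 < ν) {T : ℕ} {f : ℕ → ℝ} {B : ℝ} (hB : 0 ≤ B)
    (hf : ∀ i < T, |f i| ≤ ν * B) : |ν⁻¹ * ∑ i ∈ range T, f i| ≤ (T + 2 : ℕ) * B := by
  rw [abs_mul, abs_of_pos (show 0 < ν⁻¹ by positivity)]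
  have e2 : |∑ i ∈ range T, f i| ≤ ∑ _i ∈ range T, ν * B :=
    (Finset.abs_sum_le_sum_abs _ _).trans
      (Finset.sum_le_sum fun i hi => hf i (Finset.mem_range.1 hi))
  rw [Finset.sum_const, Finset.card_range, nsmul_eq_mul] at e2
  refine (mul_le_mul_of_nonneg_left e2 (show 0 ≤ ν⁻¹ by positivity)).trans ?_
  have e3 : ν⁻¹ * ((T : ℝ) * (ν * B)) = T * B := by field_simp
  rw [e3]
  refine mul_le_mul_of_nonneg_right ?_ hB
  push_cast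
  linarith

/-- **near differences of the covariances** -/
theorem Nrq.hs_near (hN : Nrq h A U A2 U2 ν c κ C1 Q B2 η2) (hσ0 : 0 ≤ σ)
    (hσ : η2 * (2 * Q * B2 + 2 * η2) ≤ σ ^ 2) {m : ℕ} (hm : 1 ≤ m)
    {K : Matrix (V N) (V N) ℝ} {K2 : Matrix (V N2) (V N2) ℝ} (hK : Cv 0 A K) (hK2 : Cv 0 A2 K2)
    {D : ℕ} (hD : 4 * D < N) :
    HSb D (fun ζ ζ' => K2 0 (ip N2 (ζ' - ζ)) - K 0 (ip N (ζ' - ζ)))
      (2 / ν * (η2 + Q * B2 * Real.exp (-(κ * N))))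
      ((2 * m + 1 : ℕ) * ((2 * m + 1 : ℕ) * σ + Q * B2 * ft κ (C1 + 1) (2 * m + 1) (N / 2)) +
        5 * ν * ((2 * D : ℕ) : ℝ) ^ 2 / (m * c ^ 2)) := by
  have hν := hN.dom.hν
  have hQ := hN.Q1
  have hB := hN.B0
  obtain ⟨T, hT⟩ : ∃ T, 2 * m + 1 = T + 2 := ⟨2 * m - 1, by omega⟩
  have hT1 : 1 ≤ 2 * m + 1 := by omega
  have hNN : N ≤ N2 := Nat.le_of_dvd (Nat.pos_of_ne_zero (NeZero.ne N2)) h
  have hft := ft_nonneg κ (C1 + 1) (2 * m + 1) ((N : ℝ) / 2)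
  refine ⟨fun _ => (K2 0 0 - K 0 0) - (smU 0 ν U2 (2 * m + 1) 0 0 - smU 0 ν U (2 * m + 1) 0 0),
    fun _ => 0, fun v => ν⁻¹ * (U2 0 (ip N2 v) - U 0 (ip N v)), hN.l2_near hD, ?_⟩
  intro ζ hζ ζ' hζ'
  set v : ℤ × ℤ := ζ' - ζ with hv
  have hvb : v ∈ bx (2 * D) := by
    rw [mem_bx] at hζ hζ' ⊢
    rw [hv, Prod.fst_sub, Prod.snd_sub]
    omega
  have k1 := mem_bx.1 hvb
  have g1 := hK.ent hN.dom le_rfl (2 * m + 1) (ip N v)
  have g2 := hK2.ent hN.dom2 le_rfl (2 * m + 1) (ip N2 v)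
  rw [smU_diff hN.dom.ti hN.uk] at g1
  rw [smU_diff hN.dom2.ti hN.uk2] at g2
  have s1 := smooth_ent hN.dom le_rfl hm (sn_ip_le (N := N) k1.1 k1.2)
  have s2 := smooth_ent hN.dom2 le_rfl hm (sn_ip_le (N := N2) k1.1 k1.2)
  have d1 : smU 0 ν U (2 * m + 1) 0 (ip N v) =
      ν⁻¹ * (1 : Matrix (V N) (V N) ℝ) 0 (ip N v) + ν⁻¹ * U 0 (ip N v) + t2 ν U T (ip N v) := by
    rw [hT, smU_dec hν]
  have d2 : smU 0 ν U2 (2 * m + 1) 0 (ip N2 v) =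
      ν⁻¹ * (1 : Matrix (V N) (V N) ℝ) 0 (ip N v) + ν⁻¹ * U2 0 (ip N2 v) +
        t2 ν U2 T (ip N2 v) := by
    rw [hT, smU_dec hν, one_ip hD hNN hvb]
  have h3 : |t2 ν U2 T (ip N2 v) - t2 ν U T (ip N v)| ≤
      (2 * m + 1 : ℕ) * ((2 * m + 1 : ℕ) * σ + Q * B2 * ft κ (C1 + 1) (2 * m + 1) (N / 2)) := by
    have e : t2 ν U2 T (ip N2 v) - t2 ν U T (ip N v) =
        ν⁻¹ * ∑ i ∈ range T, ((U2 ^ (i + 2)) 0 (ip N2 v) - (U ^ (i + 2)) 0 (ip N v)) := by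
      unfold t2
      rw [Finset.sum_sub_distrib]
      ring
    rw [e]
    have := t2_bd hν (T := T) (B := (2 * m + 1 : ℕ) * σ +
      Q * B2 * ft κ (C1 + 1) (2 * m + 1) (N / 2)) (by positivity) (fun i hi =>
      hN.pow_near hσ0 hσ hT1 (show i + 2 ≤ 2 * m + 1 by omega) (ζ := v) (by omega) (by omega))
    rw [← hT] at this
    exact this
  obtain ⟨h31, h32⟩ := abs_le.1 h3
  rw [abs_le]
  constructor <;> linarith [s1.1, s1.2, s2.1, s2.2]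

lemma Nrq.l2_cross (hN : Nrq h A U A2 U2 ν c κ C1 Q B2 η2) {D : ℕ} (hD : 4 * D < N) {R : ℝ}
    {x : V N} (hx : R ≤ sn x) :
    ∑ v ∈ bx (2 * D), (ν⁻¹ * U 0 (x + ip N v)) ^ 2 ≤
      2 / ν * (η2 + Q * B2 * Real.exp (-(2 * κ * (R - 2 * D)))) := by
  have hν := hN.dom.hν
  have hinj : Set.InjOn (fun ζ => x + ip N ζ) (bx (2 * D) : Set (ℤ × ℤ)) := by
    intro v hv v' hv' hvv
    have k1 := mem_bx.1 (Finset.mem_coe.1 hv)
    have k2 := mem_bx.1 (Finset.mem_coe.1 hv')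
    exact ip_inj (D := 2 * D) (by omega) k1.1 k1.2 k2.1 k2.2 (add_left_cancel hvv)
  have h1 := fold_far_l2 (W := U2) h hN.hQ hN.kp.le hN.wl2
    ((bx (2 * D)).image fun ζ => x + ip N ζ) (r := R - 2 * D) (fun z hz => by
      obtain ⟨v, hv, rfl⟩ := Finset.mem_image.1 hz
      have k1 := mem_bx.1 hv
      have k2 := sn_ip_le (N := N) k1.1 k1.2
      have k3 := TM.H459.sn_add_le (x + ip N v) (-ip N v)
      rw [TM.H459.sn_neg] at k3
      have e : x + ip N v + -ip N v = x := by abel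
      rw [e] at k3
      have k4 : sn x ≤ sn (x + ip N v) + 2 * D := by omega
      have k5 : (sn x : ℝ) ≤ sn (x + ip N v) + 2 * D := by exact_mod_cast k4
      linarith)
  rw [Finset.sum_image hinj] at h1
  have h2 : ∑ v ∈ bx (2 * D), (U 0 (x + ip N v) -
      ∑ y ∈ univ.filter (fun y : V N2 => prj h y = x + ip N v), U2 0 y) ^ 2 ≤ ν * η2 := by
    refine le_trans ?_ hN.dl2
    rw [← Finset.sum_image (s := bx (2 * D)) (g := fun ζ => x + ip N ζ) (f := fun z => (U 0 z -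
      ∑ y ∈ univ.filter (fun y : V N2 => prj h y = z), U2 0 y) ^ 2) hinj]
    exact Finset.sum_le_sum_of_subset_of_nonneg (Finset.subset_univ _) fun _ _ _ => sq_nonneg _
  have h3 : ∀ v ∈ bx (2 * D), (ν⁻¹ * U 0 (x + ip N v)) ^ 2 ≤
      ν⁻¹ ^ 2 * (2 * (∑ y ∈ univ.filter (fun y : V N2 => prj h y = x + ip N v), U2 0 y) ^ 2 +
        2 * (U 0 (x + ip N v) -
        ∑ y ∈ univ.filter (fun y : V N2 => prj h y = x + ip N v), U2 0 y) ^ 2) := by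
    intro v _
    rw [mul_pow]
    refine mul_le_mul_of_nonneg_left ?_ (by positivity)
    set P := ∑ y ∈ univ.filter (fun y : V N2 => prj h y = x + ip N v), U2 0 y
    have := sq_nonneg (P - (U 0 (x + ip N v) - P))
    nlinarith
  refine (Finset.sum_le_sum h3).trans ?_
  rw [← Finset.mul_sum, Finset.sum_add_distrib, ← Finset.mul_sum, ← Finset.mul_sum]
  calc ν⁻¹ ^ 2 * (2 * ∑ v ∈ bx (2 * D),
        (∑ y ∈ univ.filter (fun y : V N2 => prj h y = x + ip N v), U2 0 y) ^ 2 +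
        2 * ∑ v ∈ bx (2 * D), (U 0 (x + ip N v) -
        ∑ y ∈ univ.filter (fun y : V N2 => prj h y = x + ip N v), U2 0 y) ^ 2)
      ≤ ν⁻¹ ^ 2 * (2 * (Q * (Real.exp (-(2 * κ * (R - 2 * D))) * (ν * B2))) +
        2 * (ν * η2)) := by
        refine mul_le_mul_of_nonneg_left ?_ (by positivity)
        linarith
    _ = _ := by
        field_simp
        ring

/-- **far covariances on the small torus** -/
theorem Nrq.hs_cross (hN : Nrq h A U A2 U2 ν c κ C1 Q B2 η2) (hσ0 : 0 ≤ σ)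
    (hσ : η2 * (2 * Q * B2 + 2 * η2) ≤ σ ^ 2) {m : ℕ} (hm : 1 ≤ m)
    {K : Matrix (V N) (V N) ℝ} (hK : Cv 0 A K) {D : ℕ} (hD : 4 * D < N) {R : ℝ}
    (hR : 2 * (D : ℝ) < R) {x : V N} (hx : R ≤ sn x) :
    HSb D (fun ζ ζ' => K 0 (x + ip N (ζ' - ζ)))
      (2 / ν * (η2 + Q * B2 * Real.exp (-(2 * κ * (R - 2 * D)))))
      (4 * ((2 * m + 1 : ℕ) * ((2 * m + 1 : ℕ) * σ +
        Q * B2 * ft κ (C1 + 1) (2 * m + 1) (R - 2 * D))) + 10 * ν * D ^ 2 / (m * c ^ 2)) := by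
  have hν := hN.dom.hν
  have hQ := hN.Q1
  have hB := hN.B0
  obtain ⟨T, hT⟩ : ∃ T, 2 * m + 1 = T + 2 := ⟨2 * m - 1, by omega⟩
  have hT1 : 1 ≤ 2 * m + 1 := by omega
  have hft := ft_nonneg κ (C1 + 1) (2 * m + 1) (R - 2 * D)
  set ρ : V N → ℝ := fun y => K 0 y - ν⁻¹ * (1 : Matrix (V N) (V N) ℝ) 0 y - ν⁻¹ * U 0 y with hρ
  refine ⟨fun ζ => ρ (x - ip N ζ) - ρ x, fun ζ' => ρ (x + ip N ζ'),
    fun v => ν⁻¹ * U 0 (x + ip N v), hN.l2_cross hD hx, ?_⟩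
  intro ζ hζ ζ' hζ'
  have k1 := mem_bx.1 hζ
  have k2 := mem_bx.1 hζ'
  have ha := sn_ip_le (N := N) k1.1 k1.2
  have hb := sn_ip_le (N := N) k2.1 k2.2
  have hcr := cross_smooth hN.dom le_rfl hm hK (w := x) ha hb
  rw [smU_ck hN.dom.ti hN.uk] at hcr
  have ht : ∀ y : V N, R - 2 * D ≤ sn y → |t2 ν U T y| ≤ (2 * m + 1 : ℕ) *
      ((2 * m + 1 : ℕ) * σ + Q * B2 * ft κ (C1 + 1) (2 * m + 1) (R - 2 * D)) := by
    intro y hy
    have := t2_bd hν (T := T) (f := fun i => (U ^ (i + 2)) 0 y) (B := (2 * m + 1 : ℕ) * σ +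
      Q * B2 * ft κ (C1 + 1) (2 * m + 1) (R - 2 * D)) (by positivity) (fun i hi =>
      hN.pow_far hσ0 hσ hT1 (show i + 2 ≤ 2 * m + 1 by omega) hy)
    rw [← hT] at this
    exact this
  have hdec : ∀ y : V N, smU 0 ν U (2 * m + 1) 0 y =
      ν⁻¹ * (1 : Matrix (V N) (V N) ℝ) 0 y + ν⁻¹ * U 0 y + t2 ν U T y := by
    intro y
    rw [hT, smU_dec hν]
  have s1 : (sn x : ℝ) ≤ sn (x + ip N ζ' - ip N ζ) + 2 * D := by
    have h1 := TM.H459.sn_add_le (x + ip N ζ' - ip N ζ) (ip N ζ - ip N ζ')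
    have h2 := TM.H459.sn_add_le (ip N ζ) (-ip N ζ')
    rw [TM.H459.sn_neg] at h2
    have e : x + ip N ζ' - ip N ζ + (ip N ζ - ip N ζ') = x := by abel
    rw [e] at h1
    rw [← sub_eq_add_neg] at h2
    have : sn x ≤ sn (x + ip N ζ' - ip N ζ) + 2 * D := by omega
    exact_mod_cast this
  have s2 : (sn x : ℝ) ≤ sn (x + ip N ζ') + 2 * D := by
    have h1 := TM.H459.sn_add_le (x + ip N ζ') (-ip N ζ')
    rw [TM.H459.sn_neg] at h1
    have e : x + ip N ζ' + -ip N ζ' = x := by abel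
    rw [e] at h1
    have : sn x ≤ sn (x + ip N ζ') + 2 * D := by omega
    exact_mod_cast this
  have s3 : (sn x : ℝ) ≤ sn (x - ip N ζ) + 2 * D := by
    have h1 := TM.H459.sn_add_le (x - ip N ζ) (ip N ζ)
    have e : x - ip N ζ + ip N ζ = x := by abel
    rw [e] at h1
    have : sn x ≤ sn (x - ip N ζ) + 2 * D := by omega
    exact_mod_cast this
  have hD0 : (0 : ℝ) ≤ D := Nat.cast_nonneg _
  have t1 := abs_le.1 (ht (x + ip N ζ' - ip N ζ) (by linarith))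
  have t2' := abs_le.1 (ht (x + ip N ζ') (by linarith))
  have t3 := abs_le.1 (ht (x - ip N ζ) (by linarith))
  have t4 := abs_le.1 (ht x (by linarith))
  have hone : (1 : Matrix (V N) (V N) ℝ) 0 (x + ip N ζ' - ip N ζ) = 0 := by
    rw [Matrix.one_apply, if_neg]
    intro h0
    rw [← h0] at s1
    have h4 : sn (0 : V N) = 0 := by simp [TM.H459.sn]
    rw [h4] at s1
    push_cast at s1
    linarith
  have e1 : x + ip N (ζ' - ζ) = x + ip N ζ' - ip N ζ := by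
    rw [ip_sub]
    abel
  have e2 : ck K x (ip N ζ) (ip N ζ') - ck (smU 0 ν U (2 * m + 1)) x (ip N ζ) (ip N ζ') =
      ρ (x + ip N ζ' - ip N ζ) - ρ (x + ip N ζ') - ρ (x - ip N ζ) + ρ x -
      (t2 ν U T (x + ip N ζ' - ip N ζ) - t2 ν U T (x + ip N ζ') - t2 ν U T (x - ip N ζ) +
        t2 ν U T x) := by
    unfold ck
    rw [hdec, hdec, hdec, hdec]
    simp only [hρ]
    ring
  rw [e2] at hcr
  have e3 : (fun ζ ζ' => K 0 (x + ip N (ζ' - ζ))) ζ ζ' - (fun ζ => ρ (x - ip N ζ) - ρ x) ζ -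
      (fun ζ' => ρ (x + ip N ζ')) ζ' - (fun v => ν⁻¹ * U 0 (x + ip N v)) (ζ' - ζ) =
      ρ (x + ip N ζ' - ip N ζ) - ρ (x + ip N ζ') - ρ (x - ip N ζ) + ρ x := by
    simp only [e1]
    have e4 : ρ (x + ip N ζ' - ip N ζ) = K 0 (x + ip N ζ' - ip N ζ) -
        ν⁻¹ * U 0 (x + ip N ζ' - ip N ζ) := by
      simp only [hρ]
      rw [hone, mul_zero, sub_zero]
    rw [e4]
    ring
  rw [e3]
  obtain ⟨c1, c2⟩ := abs_le.1 hcr
  rw [abs_le]
  constructor <;> linarith [t1.1, t1.2, t2'.1, t2'.2, t3.1, t3.2, t4.1, t4.2]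

/-- the large torus alone -/
lemma Nrq.big {h' : N2 ∣ N2} (hN : Nrq h A U A2 U2 ν c κ C1 Q B2 η2) :
    Nrq h' A2 U2 A2 U2 ν c κ C1 Q B2 η2 := by
  have hfil : ∀ z : V N2, (univ.filter fun y : V N2 => prj h' y = z) = {z} := by
    intro z
    ext y
    rw [Finset.mem_filter, Finset.mem_singleton, prj_self]
    exact ⟨fun h => h.2, fun h => ⟨mem_univ _, h⟩⟩
  have h2 : (N2 : ℝ) ≠ 0 := by exact_mod_cast NeZero.ne N2
  refine ⟨hN.dom2, hN.dom2, hN.uk2, hN.uk2, hN.kp, ?_, hN.η0, hN.mom, hN.wl2, ?_⟩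
  · rw [div_self h2, one_pow]
    exact hN.Q1
  · simp only [hfil, Finset.sum_singleton, sub_self]
    rw [zero_pow two_ne_zero, Finset.sum_const_zero]
    exact mul_nonneg hN.dom.hν.le hN.η0

end nrq

/-! ### the torus model of scalar mass `t` -/

section inst

variable {b t c κ C1 Q B2 η2 σ η bb : ℝ} {D m : ℕ} {R δ d : ℝ}

/-- the bound of the window comparison (square of the Hilbert-Schmidt norm) -/
def hB (ν c κ C1 Q B2 η2 σ : ℝ) (N m D : ℕ) (R : ℝ) : ℝ :=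
  ν ^ 2 * (4 * nB D * (2 / ν * (η2 + Q * B2 * Real.exp (-(κ * N))) +
    4 * (2 / ν * (η2 + Q * B2 * Real.exp (-(2 * κ * (R - 2 * D)))))) +
    4 * nB D ^ 2 * (((2 * m + 1 : ℕ) * ((2 * m + 1 : ℕ) * σ +
      Q * B2 * ft κ (C1 + 1) (2 * m + 1) (N / 2)) +
        5 * ν * ((2 * D : ℕ) : ℝ) ^ 2 / (m * c ^ 2)) ^ 2 +
      4 * (4 * ((2 * m + 1 : ℕ) * ((2 * m + 1 : ℕ) * σ +
        Q * B2 * ft κ (C1 + 1) (2 * m + 1) (R - 2 * D))) +
        10 * ν * D ^ 2 / (m * c ^ 2)) ^ 2))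

/-- **WL, doubling**, Hilbert-Schmidt form -/
theorem cmp_tor_q {U : Matrix (V N) (V N) ℝ} {U2 : Matrix (V N2) (V N2) ℝ} {h : N ∣ N2}
    (hb : 0 < b) (ht : 0 < t) (hN : Nrq h (Anm N b t) U (Anm N2 b t) U2 t c κ C1 Q B2 η2)
    (hσ0 : 0 ≤ σ) (hσ : η2 * (2 * Q * B2 + 2 * η2) ≤ σ ^ 2)
    {Bd : Set (V N → ℝ)} (hBd : MeasurableSet Bd) {Bd' : Set (V N2 → ℝ)}
    (hBd' : MeasurableSet Bd') (hη0 : 0 ≤ η)
    (hη : ∀ F, F ∉ Bd → Wt (wT b N) (t • (1 : Matrix (V N) (V N) ℝ)) t 0 F ≤ 1 + η)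
    (hbd : (nuM (wT b N) (t • (1 : Matrix (V N) (V N) ℝ)) 0).real Bd ≤ bb)
    (hη' : ∀ F, F ∉ Bd' → Wt (wT b N2) (t • (1 : Matrix (V N2) (V N2) ℝ)) t 0 F ≤ 1 + η)
    (hbd' : (nuM (wT b N2) (t • (1 : Matrix (V N2) (V N2) ℝ)) 0).real Bd' ≤ bb)
    (hηb : η + bb ≤ 1 / 8) (hDN : 4 * D < N) (hm : 1 ≤ m)
    {p q : V N} {p2 q2 : V N2} (hR : 2 * (D : ℝ) < R) (hpq : R ≤ sn (q - p))
    (hpq2 : R ≤ sn (q2 - p2)) (hδ : 0 < δ) (hδ4 : δ ≤ 1 / 4)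
    (hδ2 : hB t c κ C1 Q B2 η2 σ N m D R ≤ δ ^ 2)
    (hd : 0 ≤ d) (hd8 : d ≤ 1 / 8) :
    Cmp (nuM (wT b N) (t • (1 : Matrix (V N) (V N) ℝ)) 0)
      (nuM (wT b N2) (t • (1 : Matrix (V N2) (V N2) ℝ)) 0) (wd D p q) (wd D p2 q2)
      (4 * (η + bb) + 2 * d) (4 * bb + 2 * (2 * (1 + d) ^ (-(1 / (4 * δ))))) := by
  have hA := hN.dom
  have hA' := hN.dom2
  have hNN : N ≤ N2 := Nat.le_of_dvd (Nat.pos_of_ne_zero (NeZero.ne N2)) h
  have hBg : Nrq (dvd_refl N2) (Anm N2 b t) U2 (Anm N2 b t) U2 t c κ C1 Q B2 η2 := hN.big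
  rw [← An_tor b hb.le ht] at hA hA'
  refine cmp_two_hs (H963.gw_wT hb.le) (bw_wT hb) (mf_scalar ht) (H963.gw_wT hb.le) (bw_wT hb)
    (mf_scalar ht) hA hA' hBd hBd' hη0 hη hbd hη' hbd' hηb hDN (K := cov 0 (Anm N b t))
    (K2 := cov 0 (Anm N2 b t)) ?_ ?_
    (hN.hs_near hσ0 hσ hm (cv_cov 0 _) (cv_cov 0 _) hDN)
    (fun x hx => hN.hs_cross hσ0 hσ hm (cv_cov 0 _) hDN hR hx)
    (fun x hx => hBg.hs_cross hσ0 hσ hm (cv_cov 0 _) (lt_of_lt_of_le hDN hNN) hR hx)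
    hR hpq hpq2 hδ hδ4 hδ2 hd hd8
  · rw [An_tor b hb.le ht]
    exact cv_cov 0 _
  · rw [An_tor b hb.le ht]
    exact cv_cov 0 _

end inst

/-! ### numbers -/

section num

variable {D m N : ℕ} {ξ K ρ κ₀ c C1 Q B2 η2 σ δ R : ℝ}

/-- the exponentially small number -/
def eQ (κ₀ C1 ρ : ℝ) (m : ℕ) : ℝ :=
  4 * Real.exp (C1 + 1) * Real.exp (-(κ₀ * ρ / (4 * √((2 * m + 1 : ℕ) : ℝ))))

lemma eQ_nonneg (κ₀ C1 ρ : ℝ) (m : ℕ) : 0 ≤ eQ κ₀ C1 ρ m := by unfold eQ; positivity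

lemma ft_le_eQ (hξ : 1 ≤ ξ) (hκ : 0 ≤ κ₀) {r : ℝ} (hr : ρ * ξ / 2 ≤ r) :
    ft (κ₀ / ξ) (C1 + 1) (2 * m + 1) r ≤ eQ κ₀ C1 ρ m := by
  unfold ft eQ
  refine mul_le_mul_of_nonneg_left (Real.exp_le_exp.2 (neg_le_neg ?_)) (by positivity)
  have hξ0 : 0 < ξ := by linarith
  have e : κ₀ * ρ / (4 * √((2 * m + 1 : ℕ) : ℝ)) =
      κ₀ / ξ * (ρ * ξ / 2) / (2 * √((2 * m + 1 : ℕ) : ℝ)) := by
    field_simp
    ring
  rw [e]
  refine div_le_div_of_nonneg_right ?_ (by positivity)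
  exact mul_le_mul_of_nonneg_left hr (by positivity)

lemma num1 {n e a b QB : ℝ} (hn0 : 0 ≤ n) (hn : n ≤ 9 * K ^ 2) (hη : 0 ≤ η2) (hQB : 0 ≤ QB)
    (he : 0 ≤ e) (ha : a ≤ e) (hb : b ≤ e)
    (h1 : 360 * K ^ 2 * (η2 + QB * e) ≤ δ ^ 2 / 2) :
    8 * n * ((η2 + QB * a) + 4 * (η2 + QB * b)) ≤ δ ^ 2 / 2 := by
  have k1 := mul_le_mul_of_nonneg_left ha hQB
  have k2 := mul_le_mul_of_nonneg_left hb hQB
  calc 8 * n * ((η2 + QB * a) + 4 * (η2 + QB * b))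
      ≤ 8 * n * (5 * (η2 + QB * e)) := by
        refine mul_le_mul_of_nonneg_left ?_ (by positivity)
        linarith
    _ ≤ 8 * (9 * K ^ 2) * (5 * (η2 + QB * e)) := by
        refine mul_le_mul_of_nonneg_right ?_ (by positivity)
        linarith
    _ = 360 * K ^ 2 * (η2 + QB * e) := by ring
    _ ≤ _ := h1

lemma num2 {n x y bs : ℝ} (hn0 : 0 ≤ n) (hn : n ≤ 9 * K ^ 2) (hx0 : 0 ≤ x) (hx : x ≤ bs)
    (hy0 : 0 ≤ y) (hy : y ≤ bs) (h2 : 57 * K ^ 2 * bs ≤ δ) :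
    4 * n ^ 2 * (x ^ 2 + 4 * y ^ 2) ≤ δ ^ 2 / 2 := by
  have hbs0 : 0 ≤ bs := hx0.trans hx
  have k1 : n ^ 2 ≤ (9 * K ^ 2) ^ 2 := pow_le_pow_left₀ hn0 hn 2
  have k2 : (57 * K ^ 2 * bs) ^ 2 ≤ δ ^ 2 := pow_le_pow_left₀ (by positivity) h2 2
  have k3 := pow_le_pow_left₀ hx0 hx 2
  have k4 := pow_le_pow_left₀ hy0 hy 2
  calc 4 * n ^ 2 * (x ^ 2 + 4 * y ^ 2) ≤ 4 * (9 * K ^ 2) ^ 2 * (bs ^ 2 + 4 * bs ^ 2) := by
        refine mul_le_mul ?_ ?_ (by positivity) (by positivity)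
        · linarith
        · linarith
    _ = 1620 * (K ^ 2 * bs) ^ 2 := by ring
    _ ≤ (57 * K ^ 2 * bs) ^ 2 / 2 := by
        have := sq_nonneg (K ^ 2 * bs)
        nlinarith
    _ ≤ δ ^ 2 / 2 := by linarith

lemma hB_eq {ν κ : ℝ} (hν : 0 < ν) : hB ν c κ C1 Q B2 η2 σ N m D R =
    8 * (ν * nB D) * ((η2 + Q * B2 * Real.exp (-(κ * N))) +
      4 * (η2 + Q * B2 * Real.exp (-(2 * κ * (R - 2 * D))))) +
    4 * (ν * nB D) ^ 2 * (((2 * m + 1 : ℕ) * ((2 * m + 1 : ℕ) * σ +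
      Q * B2 * ft κ (C1 + 1) (2 * m + 1) (N / 2)) +
        5 * ν * ((2 * D : ℕ) : ℝ) ^ 2 / (m * c ^ 2)) ^ 2 +
      4 * (4 * ((2 * m + 1 : ℕ) * ((2 * m + 1 : ℕ) * σ +
        Q * B2 * ft κ (C1 + 1) (2 * m + 1) (R - 2 * D))) +
        10 * ν * D ^ 2 / (m * c ^ 2)) ^ 2) := by
  unfold hB
  have k1 : ∀ X Y : ℝ, ν ^ 2 * (4 * nB D * (2 / ν * X + 4 * (2 / ν * Y))) =
      8 * (ν * nB D) * (X + 4 * Y) := by
    intro X Y
    field_simp
    ring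
  rw [mul_add, k1]
  ring

/-- the area of the window -/
lemma nB_num (hξ : 1 ≤ ξ) (hK : 1 ≤ K) (hD : (D : ℝ) ≤ K * ξ) :
    (ξ ^ 2)⁻¹ * nB D ≤ 9 * K ^ 2 := by
  have h1 := area_le hξ hK hD
  unfold nB
  linarith

lemma far_num (hξ : 1 ≤ ξ) (hκ : 0 ≤ κ₀) {r : ℝ} (hr : ρ * ξ ≤ r) :
    Real.exp (-(κ₀ / ξ * r)) ≤ Real.exp (-(κ₀ * ρ)) := by
  have hξ0 : 0 < ξ := by linarith
  refine Real.exp_le_exp.2 (neg_le_neg ?_)
  calc κ₀ * ρ = κ₀ / ξ * (ρ * ξ) := by field_simp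
    _ ≤ _ := mul_le_mul_of_nonneg_left hr (by positivity)

lemma bs_num {T S E F g gs : ℝ} (hT : 0 ≤ T) (hQB : 0 ≤ Q * B2) (hS : 0 ≤ S) (hF : F ≤ E)
    (hE : 0 ≤ E) (hg : g ≤ gs) :
    T * (S + Q * B2 * F) + g ≤ 4 * (T * (S + Q * B2 * E)) + gs ∧
    4 * (T * (S + Q * B2 * F)) + g ≤ 4 * (T * (S + Q * B2 * E)) + gs := by
  have k0 := mul_le_mul_of_nonneg_left hF hQB
  have k1 : T * (S + Q * B2 * F) ≤ T * (S + Q * B2 * E) :=
    mul_le_mul_of_nonneg_left (by linarith) hT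
  have k2 : 0 ≤ T * (S + Q * B2 * E) := by positivity
  constructor <;> linarith

/-- **the numerical hypothesis of `cmp_tor_q`** at `ν = ξ⁻²`, `κ = κ₀/ξ` -/
theorem hB_num (hξ : 1 ≤ ξ) (hc : 0 < c) (hκ : 0 ≤ κ₀) (hQ : 0 ≤ Q) (hB2 : 0 ≤ B2)
    (hη : 0 ≤ η2) (hσ : 0 ≤ σ) (hm : 1 ≤ m) (hK : 1 ≤ K) (hD : (D : ℝ) ≤ K * ξ)
    (hR : ρ * ξ ≤ R) (hρ : 4 * K ≤ ρ) (hN : ρ * ξ ≤ N)
    (h1 : 360 * K ^ 2 * (η2 + Q * B2 * Real.exp (-(κ₀ * ρ))) ≤ δ ^ 2 / 2)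
    (h2 : 57 * K ^ 2 * (4 * ((2 * m + 1 : ℕ) * ((2 * m + 1 : ℕ) * σ + Q * B2 * eQ κ₀ C1 ρ m)) +
      20 * K ^ 2 / (m * c ^ 2)) ≤ δ) :
    hB (ξ ^ 2)⁻¹ c (κ₀ / ξ) C1 Q B2 η2 σ N m D R ≤ δ ^ 2 := by
  have hξ0 : 0 < ξ := by linarith
  have hm' : (0 : ℝ) < m := by exact_mod_cast hm
  have hD0 : (0 : ℝ) ≤ D := Nat.cast_nonneg _
  have hRD : ρ * ξ / 2 ≤ R - 2 * D := by nlinarith
  have hQB : 0 ≤ Q * B2 := mul_nonneg hQ hB2
  have hν0 : 0 < (ξ ^ 2)⁻¹ := by positivity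
  have hn := nB_num hξ hK hD
  have hn0 : 0 ≤ (ξ ^ 2)⁻¹ * nB D := mul_nonneg hν0.le (nB_pos D).le
  have hF0 := eQ_nonneg κ₀ C1 ρ m
  have f1 := ft_le_eQ (C1 := C1) (m := m) hξ hκ (ρ := ρ) (r := (N : ℝ) / 2) (by linarith)
  have f2 := ft_le_eQ (C1 := C1) (m := m) hξ hκ hRD
  have f10 := ft_nonneg (κ₀ / ξ) (C1 + 1) (2 * m + 1) ((N : ℝ) / 2)
  have f20 := ft_nonneg (κ₀ / ξ) (C1 + 1) (2 * m + 1) (R - 2 * D)
  have g1 : 5 * (ξ ^ 2)⁻¹ * ((2 * D : ℕ) : ℝ) ^ 2 / (m * c ^ 2) ≤ 20 * K ^ 2 / (m * c ^ 2) := by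
    have := smooth_num (K := K) (m := m) hξ hc hm hD 20 (by norm_num)
    refine le_trans (le_of_eq ?_) this
    push_cast
    ring
  have g2 : 10 * (ξ ^ 2)⁻¹ * (D : ℝ) ^ 2 / (m * c ^ 2) ≤ 20 * K ^ 2 / (m * c ^ 2) := by
    refine (smooth_num (K := K) (m := m) hξ hc hm hD 10 (by norm_num)).trans ?_
    refine div_le_div_of_nonneg_right ?_ (by positivity)
    nlinarith [sq_nonneg K]
  have hT0 : (0 : ℝ) ≤ ((2 * m + 1 : ℕ) : ℝ) := Nat.cast_nonneg _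
  have hS0 : 0 ≤ ((2 * m + 1 : ℕ) : ℝ) * σ := mul_nonneg hT0 hσ
  have q1 := (bs_num hT0 hQB hS0 f1 hF0 g1).1
  have q2 := (bs_num hT0 hQB hS0 f2 hF0 g2).2
  have p1 := num1 (K := K) (δ := δ) hn0 hn hη hQB (Real.exp_pos _).le
    (far_num (ρ := ρ) hξ hκ hN) (b := Real.exp (-(2 * (κ₀ / ξ) * (R - 2 * D)))) (by
      have := far_num (ρ := ρ) hξ hκ (r := 2 * (R - 2 * D)) (by linarith)
      refine le_trans (le_of_eq ?_) this
      congr 1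
      ring) h1
  have p2 := num2 (K := K) (δ := δ) hn0 hn (by positivity) q1 (by positivity) q2 h2
  rw [hB_eq hν0]
  linarith

end num

end

end Vale.Agent.P159.H708
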