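import Vale.Agent.P159.H708.Wl11
import Vale.Agent.P159.H767.Nr5

/-!
P159 / H708 (module WL), part 12: `ℓ²` closeness of site kernels from sup closeness of their cell
averages and the spectral gradient bound.
-/

set_option linter.unusedSectionVars false

namespace Vale.Agent.P159.H708

open Finset Matrix MeasureTheory
open Vale.Agent.P159.TM.H764 (cN sN dt EE)
open Vale.Agent.P159.TM.Spec (V)
open Vale.Agent.P159.TM.SpecC (wT)
open Vale.Agent.P159.H864 (TI sym mlt fc hsq cl cl1 cl1_val Gc Gc_apply)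
open Vale.Agent.P159.H462 (Dom)
open Vale.Agent.P159.TM.H459 (sn)
open Vale.Agent.P159.H640 (card_cl)
open Vale.Agent.P159.H733.Torg

noncomputable section

variable {N N2 l : ℕ} [NeZero N] [NeZero N2]

/-! ### translates -/

section shift

variable {U : Matrix (V N) (V N) ℝ} {ν c : ℝ}

lemma ti_neg (hU : TI U) (v : V N) : U 0 (-v) = U 0 v := by
  rw [hU.sy 0 v, hU.eq v 0, zero_sub]

lemma shift_sq (hU : TI U) (a : V N) :
    ∑ v, (U 0 (v + a) - U 0 v) ^ 2 = 2 * ((U * U) 0 0 - (U * U) 0 a) := by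
  have e0 : ∑ v, U 0 v ^ 2 = (U * U) 0 0 := by
    rw [Matrix.mul_apply]
    exact Finset.sum_congr rfl fun v _ => by rw [hU.sy v 0]; ring
  have e1 : ∑ v, U 0 (v + a) ^ 2 = (U * U) 0 0 := by
    rw [← e0]
    exact Equiv.sum_comp (Equiv.addRight a) fun v => U 0 v ^ 2
  have e2 : ∑ v, U 0 (v + a) * U 0 v = (U * U) 0 a := by
    rw [Matrix.mul_apply, ← Equiv.sum_comp (Equiv.neg (V N))]
    refine Finset.sum_congr rfl fun v _ => ?_
    rw [Equiv.neg_apply, ti_neg hU, hU.eq v a]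
    rw [show -v + a = a - v by abel]
    ring
  have e3 : ∀ v, (U 0 (v + a) - U 0 v) ^ 2 =
      U 0 (v + a) ^ 2 + U 0 v ^ 2 - 2 * (U 0 (v + a) * U 0 v) := fun v => by ring
  simp only [e3]
  rw [Finset.sum_sub_distrib, Finset.sum_add_distrib, ← Finset.mul_sum, e0, e1, e2]
  ring

/-- spectral bound of the translates -/
lemma shift_le (hU : TI U) (hν : 0 < ν) (hc : 0 < c) (h0 : ∀ k, 0 ≤ sym U k)
    (h1 : ∀ k, sym U k ≤ ν / (ν + c * EE k)) (a : V N) :
    ∑ v, (U 0 (v + a) - U 0 v) ^ 2 ≤ 2 * (sn a : ℝ) ^ 2 * (ν / c * U 0 0) := by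
  have hN := H864.N_pos (N := N)
  rw [shift_sq hU]
  have e1 : (U * U) 0 0 - (U * U) 0 a =
      ((N : ℝ) ^ 2)⁻¹ * ∑ k, sym U k ^ 2 * (1 - cN (dt k a)) := by
    have := ker_sym (hU.mul hU) a
    have e2 : ∑ k, sym (U * U) k * (cN (dt k a) - 1) =
        -∑ k, sym U k ^ 2 * (1 - cN (dt k a)) := by
      rw [← Finset.sum_neg_distrib]
      refine Finset.sum_congr rfl fun k _ => ?_
      rw [H864.sym_mul hU hU]
      ring
    rw [e2] at this
    linarith
  rw [e1, hU.diag_eq 0]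
  have h2 : ∀ k, sym U k ^ 2 * (2 * (1 - cN (dt k a))) ≤
      2 * (sn a : ℝ) ^ 2 * (ν / c) * sym U k := by
    intro k
    have k1 := one_sub_cN k a
    have k2 := h0 k
    have k3 := h1 k
    have hE : 0 ≤ EE k := TM.H764.EE_nonneg k
    have k4 : sym U k * EE k ≤ ν / c := by
      calc sym U k * EE k ≤ ν / (ν + c * EE k) * EE k := mul_le_mul_of_nonneg_right k3 hE
        _ ≤ ν / c := by
          rw [div_mul_eq_mul_div, div_le_div_iff₀ (by positivity) hc]
          nlinarith [mul_nonneg hν.le hν.le]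
    calc sym U k ^ 2 * (2 * (1 - cN (dt k a))) ≤ sym U k ^ 2 * (2 * (sn a : ℝ) ^ 2 * EE k) :=
          mul_le_mul_of_nonneg_left k1 (by positivity)
      _ = 2 * (sn a : ℝ) ^ 2 * sym U k * (sym U k * EE k) := by ring
      _ ≤ 2 * (sn a : ℝ) ^ 2 * sym U k * (ν / c) :=
          mul_le_mul_of_nonneg_left k4 (by positivity)
      _ = _ := by ring
  calc 2 * (((N : ℝ) ^ 2)⁻¹ * ∑ k, sym U k ^ 2 * (1 - cN (dt k a)))
      = ((N : ℝ) ^ 2)⁻¹ * ∑ k, sym U k ^ 2 * (2 * (1 - cN (dt k a))) := by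
        rw [← mul_assoc, mul_comm 2, mul_assoc, Finset.mul_sum]
        congr 1
        exact Finset.sum_congr rfl fun k _ => by ring
    _ ≤ ((N : ℝ) ^ 2)⁻¹ * ∑ k, 2 * (sn a : ℝ) ^ 2 * (ν / c) * sym U k :=
        mul_le_mul_of_nonneg_left (Finset.sum_le_sum fun k _ => h2 k) (by positivity)
    _ = _ := by
        rw [← Finset.mul_sum]
        ring

/-- the symbol of `U` -/
lemma Uk.sym_bd {A : Matrix (V N) (V N) ℝ} (hU : Uk A U ν) (hA : Dom A ν c) (k : V N) :
    0 ≤ sym U k ∧ sym U k ≤ ν / (ν + c * EE k) := by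
  have hν := hA.hν
  have hc := hA.hc
  by_cases hk : k = 0
  · have e : sym U 0 = ∑ z, U 0 z := by
      rw [H864.sym_def]
      refine Finset.sum_congr rfl fun z _ => ?_
      rw [H864.dt_zero_left, TM.H764.cN_zero, mul_one]
    have hE : EE (0 : V N) = 0 := TM.H764.EE_zero
    rw [hk, e, hE, mul_zero, add_zero, div_self hν.ne']
    exact ⟨Finset.sum_nonneg fun z _ => hU.nn _ _, hU.row 0⟩
  · have hE : 0 ≤ EE k := TM.H764.EE_nonneg k
    rw [hU.sy k hk]
    have h1 := hA.le k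
    have h2 := hA.ge k
    constructor
    · rw [sub_nonneg, div_le_one hν]
      exact h1
    · have h3 : c * EE k / (ν + c * EE k) ≤ sym A k / ν := by
        rw [le_div_iff₀ hν]
        refine le_trans (le_of_eq ?_) h2
        ring
      have h4 : ν / (ν + c * EE k) = 1 - c * EE k / (ν + c * EE k) := by
        field_simp
        ring
      rw [h4]
      linarith

/-- the periodization -/
lemma shift_pz (h : N ∣ N2) {U2 : Matrix (V N2) (V N2) ℝ} {Q S : ℝ}
    (hQ : ((N2 : ℝ) / N) ^ 2 ≤ Q) (a : V N2)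
    (hS : ∑ v, (U2 0 (v + a) - U2 0 v) ^ 2 ≤ S) :
    ∑ z : V N, (∑ y ∈ univ.filter (fun y : V N2 => prj h y = z + prj h a), U2 0 y -
      ∑ y ∈ univ.filter (fun y : V N2 => prj h y = z), U2 0 y) ^ 2 ≤ Q * S := by
  have hQ0 : 0 ≤ Q := le_trans (by positivity) hQ
  have e1 : ∀ z : V N, ∑ y ∈ univ.filter (fun y : V N2 => prj h y = z + prj h a), U2 0 y =
      ∑ y ∈ univ.filter (fun y : V N2 => prj h y = z), U2 0 (y + a) := by
    intro z
    refine (Finset.sum_bij' (fun y _ => y + a) (fun y _ => y - a) ?_ ?_ ?_ ?_ ?_).symm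
    · intro y hy
      rw [Finset.mem_filter] at hy ⊢
      exact ⟨mem_univ _, by rw [map_add, hy.2]⟩
    · intro y hy
      rw [Finset.mem_filter] at hy ⊢
      exact ⟨mem_univ _, by rw [map_sub, hy.2]; abel⟩
    · intro y _
      simp
    · intro y _
      simp
    · intro y _
      rfl
  simp only [e1, ← Finset.sum_sub_distrib]
  exact (fib_sq h hQ _).trans (mul_le_mul_of_nonneg_left hS hQ0)

end shift

/-! ### the cell projection -/

section cells

variable [NeZero (N / l)] {G : Matrix (V N) (V N) ℝ}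

lemma sn_cell (hl : l ∣ N) {u v : V N} (h : (cl u : V (N / l)) = cl v) : sn (u - v) ≤ l := by
  have hl0 : 0 < l := H864.l_pos hl
  have key : ∀ x y : ZMod N, (cl1 x : ZMod (N / l)) = cl1 y → av (x - y) ≤ l := by
    intro x y hxy
    have h1 : x.val / l = y.val / l := by
      rw [← cl1_val hl x, ← cl1_val hl y, hxy]
    refine (av_le_of_cast (y := (x.val : ℤ) - (y.val : ℤ)) ?_).trans ?_
    · rw [Int.cast_sub, Int.cast_natCast, Int.cast_natCast, ZMod.natCast_zmod_val,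
        ZMod.natCast_zmod_val]
    · have h2 := Nat.div_add_mod x.val l
      have h3 := Nat.div_add_mod y.val l
      have h4 := Nat.mod_lt x.val hl0
      have h5 := Nat.mod_lt y.val hl0
      rw [h1] at h2
      set q := l * (y.val / l)
      omega
  rw [sn_eq]
  exact max_le (key _ _ (congrArg Prod.fst h)) (key _ _ (congrArg Prod.snd h))

/-- the cell projection -/
def Pc (N l : ℕ) [NeZero N] [NeZero (N / l)] : Matrix (V N) (V N) ℝ :=
  Matrix.of fun u v => if (cl u : V (N / l)) = cl v then ((l : ℝ) ^ 2)⁻¹ else 0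

lemma Pc_t : (Pc N l)ᵀ = Pc N l := by
  ext u v
  unfold Pc
  simp only [transpose_apply, Matrix.of_apply, eq_comm]

lemma Pc_mul {L : Type*} (X : Matrix (V N) L ℝ) (u : V N) (y : L) :
    (Pc N l * X) u y =
      ((l : ℝ) ^ 2)⁻¹ * ∑ v ∈ univ.filter (fun v : V N => (cl v : V (N / l)) = cl u), X v y := by
  rw [Matrix.mul_apply]
  unfold Pc
  simp only [Matrix.of_apply, ite_mul, zero_mul]
  rw [← Finset.sum_filter, ← Finset.mul_sum]
  congr 1
  refine Finset.sum_congr ?_ fun _ _ => rfl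
  ext v
  simp only [Finset.mem_filter, eq_comm]

lemma Pc_Pc (hl : l ∣ N) : Pc N l * Pc N l = Pc N l := by
  have hlp : (0 : ℝ) < l := by exact_mod_cast H864.l_pos hl
  ext u v
  rw [Pc_mul]
  have h1 : ∀ w ∈ univ.filter (fun w : V N => (cl w : V (N / l)) = cl u),
      Pc N l w v = Pc N l u v := by
    intro w hw
    unfold Pc
    simp only [Matrix.of_apply, (Finset.mem_filter.1 hw).2]
  rw [Finset.sum_congr rfl h1, Finset.sum_const, nsmul_eq_mul, card_cl hl]
  field_simp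

lemma Pc_Gc (G : Matrix (V N) (V N) ℝ) (u v : V N) :
    (Pc N l * G * Pc N l) u v = ((l : ℝ) ^ 2)⁻¹ * Gc l G (cl u) (cl v) := by
  have e1 : ∀ w, (G * Pc N l) w v = ((l : ℝ) ^ 2)⁻¹ *
      ∑ y ∈ univ.filter (fun y : V N => (cl y : V (N / l)) = cl v), G w y := by
    intro w
    have h1 : (G * Pc N l) w v = (Pc N l * Gᵀ) v w := by
      have h2 : (G * Pc N l)ᵀ = Pc N l * Gᵀ := by rw [transpose_mul, Pc_t]
      rw [← h2, transpose_apply]
    rw [h1, Pc_mul]
    rfl
  rw [Matrix.mul_assoc, Pc_mul, Gc_apply]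
  simp only [e1]
  rw [← Finset.mul_sum]

lemma dev_le (hl : l ∣ N) (hG : TI G) {S : ℝ}
    (hS : ∀ a : V N, sn a ≤ l → ∑ v, (G 0 (v + a) - G 0 v) ^ 2 ≤ S) :
    ∑ u, ∑ v, ((1 - Pc N l) * G) u v ^ 2 ≤ (N : ℝ) ^ 2 * S := by
  have hlp : (0 : ℝ) < l := by exact_mod_cast H864.l_pos hl
  have hcard : (Fintype.card (V N) : ℝ) = (N : ℝ) ^ 2 := TM.H764.card_V
  have h1 : ∀ u v, ((1 - Pc N l) * G) u v ^ 2 ≤ ((l : ℝ) ^ 2)⁻¹ *
      ∑ w ∈ univ.filter (fun w : V N => (cl w : V (N / l)) = cl u), (G u v - G w v) ^ 2 := by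
    intro u v
    have e1 : ((1 - Pc N l) * G) u v = ((l : ℝ) ^ 2)⁻¹ *
        ∑ w ∈ univ.filter (fun w : V N => (cl w : V (N / l)) = cl u), (G u v - G w v) := by
      rw [Matrix.sub_mul, Matrix.one_mul, Matrix.sub_apply, Pc_mul, Finset.sum_sub_distrib,
        Finset.sum_const, nsmul_eq_mul, card_cl hl, mul_sub]
      field_simp
    rw [e1, mul_pow]
    calc ((l : ℝ) ^ 2)⁻¹ ^ 2 *
        (∑ w ∈ univ.filter (fun w : V N => (cl w : V (N / l)) = cl u), (G u v - G w v)) ^ 2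
        ≤ ((l : ℝ) ^ 2)⁻¹ ^ 2 * ((l : ℝ) ^ 2 *
          ∑ w ∈ univ.filter (fun w : V N => (cl w : V (N / l)) = cl u), (G u v - G w v) ^ 2) := by
          refine mul_le_mul_of_nonneg_left ?_ (by positivity)
          refine (sq_sum_le_card_mul_sum_sq).trans (le_of_eq ?_)
          rw [card_cl hl]
      _ = _ := by
          field_simp
  have h2 : ∀ u, ∑ v, ((1 - Pc N l) * G) u v ^ 2 ≤ S := by
    intro u
    refine (Finset.sum_le_sum fun v _ => h1 u v).trans ?_
    rw [← Finset.mul_sum, Finset.sum_comm]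
    have h3 : ∀ w ∈ univ.filter (fun w : V N => (cl w : V (N / l)) = cl u),
        ∑ v, (G u v - G w v) ^ 2 ≤ S := by
      intro w hw
      have h4 := hS (u - w) (sn_cell hl (Finset.mem_filter.1 hw).2.symm)
      refine le_trans (le_of_eq ?_) h4
      rw [← Equiv.sum_comp (Equiv.addRight u)]
      refine Finset.sum_congr rfl fun v _ => ?_
      rw [hG.eq u, hG.eq w]
      simp only [Equiv.coe_addRight]
      rw [add_sub_cancel_right, show v + u - w = v + (u - w) by abel]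
      ring
    refine (mul_le_mul_of_nonneg_left (Finset.sum_le_sum h3) (by positivity)).trans ?_
    rw [Finset.sum_const, nsmul_eq_mul, card_cl hl]
    refine le_of_eq ?_
    field_simp
  refine (Finset.sum_le_sum fun u _ => h2 u).trans (le_of_eq ?_)
  rw [Finset.sum_const, nsmul_eq_mul, Finset.card_univ, hcard]

/-- **`ℓ²` norm of a site kernel from its cell averages** -/
theorem l2_cells (hl : l ∣ N) (hG : TI G) {S δ : ℝ}
    (hS : ∀ a : V N, sn a ≤ l → ∑ v, (G 0 (v + a) - G 0 v) ^ 2 ≤ S)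
    (hδ : ∀ x y : V (N / l), |Gc l G x y| ≤ δ) :
    ∑ z, G 0 z ^ 2 ≤ 2 * ((N : ℝ) / (l : ℝ) ^ 2) ^ 2 * δ ^ 2 + 8 * S := by
  have hlp : (0 : ℝ) < l := by exact_mod_cast H864.l_pos hl
  have hN := H864.N_pos (N := N)
  have hcard : (Fintype.card (V N) : ℝ) = (N : ℝ) ^ 2 := TM.H764.card_V
  have hδ0 : 0 ≤ δ := (abs_nonneg _).trans (hδ 0 0)
  have e0 : ∑ u, ∑ v, G u v ^ 2 = (N : ℝ) ^ 2 * ∑ z, G 0 z ^ 2 := by
    have : ∀ u, ∑ v, G u v ^ 2 = ∑ z, G 0 z ^ 2 := fun u => row_fun hG (fun t => t ^ 2) u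
    simp only [this]
    rw [Finset.sum_const, nsmul_eq_mul, Finset.card_univ, hcard]
  have d1 := dev_le hl hG hS
  have d2 : ∑ u, ∑ v, (Pc N l * (G * (1 - Pc N l))) u v ^ 2 ≤ (N : ℝ) ^ 2 * S := by
    refine (fro_left Pc_t (Pc_Pc hl) _).trans ?_
    have h1 : ∀ u v, (G * (1 - Pc N l)) u v = ((1 - Pc N l) * G) v u := by
      intro u v
      have h2 : (G * (1 - Pc N l))ᵀ = (1 - Pc N l) * G := by
        rw [transpose_mul, transpose_sub, transpose_one, Pc_t, hG.transpose]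
      rw [← h2, transpose_apply]
    simp only [h1]
    rw [Finset.sum_comm]
    exact d1
  have d3 : ∑ u, ∑ v, (Pc N l * G * Pc N l) u v ^ 2 ≤
      (N : ℝ) ^ 2 * ((N : ℝ) ^ 2 * (((l : ℝ) ^ 2)⁻¹ * δ) ^ 2) := by
    have h1 : ∀ u v, (Pc N l * G * Pc N l) u v ^ 2 ≤ (((l : ℝ) ^ 2)⁻¹ * δ) ^ 2 := by
      intro u v
      rw [Pc_Gc, ← sq_abs, abs_mul, abs_of_pos (show 0 < ((l : ℝ) ^ 2)⁻¹ by positivity)]
      refine pow_le_pow_left₀ (by positivity) ?_ 2
      exact mul_le_mul_of_nonneg_left (hδ _ _) (by positivity)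
    refine (Finset.sum_le_sum fun u _ => Finset.sum_le_sum fun v _ => h1 u v).trans
      (le_of_eq ?_)
    simp only [Finset.sum_const, nsmul_eq_mul, Finset.card_univ, hcard]
  have h3 : ∀ u v, G u v ^ 2 ≤ 2 * (Pc N l * G * Pc N l) u v ^ 2 +
      4 * ((1 - Pc N l) * G) u v ^ 2 + 4 * (Pc N l * (G * (1 - Pc N l))) u v ^ 2 := by
    intro u v
    have e1 : G = Pc N l * G * Pc N l + (1 - Pc N l) * G + Pc N l * (G * (1 - Pc N l)) := by
      rw [Matrix.mul_sub, Matrix.mul_one, Matrix.mul_sub, Matrix.sub_mul, Matrix.one_mul,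
        ← Matrix.mul_assoc]
      abel
    have e2 : G u v = (Pc N l * G * Pc N l) u v + ((1 - Pc N l) * G) u v +
        (Pc N l * (G * (1 - Pc N l))) u v := by
      conv_lhs => rw [e1]
      rw [Matrix.add_apply, Matrix.add_apply]
    rw [e2]
    set x := (Pc N l * G * Pc N l) u v
    set y := ((1 - Pc N l) * G) u v
    set z := (Pc N l * (G * (1 - Pc N l))) u v
    nlinarith [sq_nonneg (x - (y + z)), sq_nonneg (y - z)]
  have h4 : ∑ u, ∑ v, G u v ^ 2 ≤ 2 * ∑ u, ∑ v, (Pc N l * G * Pc N l) u v ^ 2 +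
      4 * ∑ u, ∑ v, ((1 - Pc N l) * G) u v ^ 2 +
      4 * ∑ u, ∑ v, (Pc N l * (G * (1 - Pc N l))) u v ^ 2 := by
    refine (Finset.sum_le_sum fun u _ => Finset.sum_le_sum fun v _ => h3 u v).trans
      (le_of_eq ?_)
    simp only [Finset.sum_add_distrib, Finset.mul_sum]
  rw [e0] at h4
  have h5 : (N : ℝ) ^ 2 * ∑ z, G 0 z ^ 2 ≤
      (N : ℝ) ^ 2 * (2 * ((N : ℝ) / (l : ℝ) ^ 2) ^ 2 * δ ^ 2 + 8 * S) := by
    refine h4.trans ?_
    have e : (N : ℝ) ^ 2 * (((l : ℝ) ^ 2)⁻¹ * δ) ^ 2 = ((N : ℝ) / (l : ℝ) ^ 2) ^ 2 * δ ^ 2 := by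
      field_simp
    rw [e] at d3
    nlinarith
  exact le_of_mul_le_mul_left h5 hN

end cells

/-! ### cell averages of a periodization -/

section gcpz

variable [NeZero (N / l)] [NeZero (N2 / l)]

lemma castHom_val (h : N ∣ N2) (x : ZMod N2) :
    ZMod.castHom h (ZMod N) x = ((x.val : ℕ) : ZMod N) := by
  rw [ZMod.castHom_apply, ZMod.natCast_val]

lemma cl1_cast (h : N ∣ N2) (hl : l ∣ N) (h' : N / l ∣ N2 / l) (x : ZMod N2) :
    (cl1 (ZMod.castHom h (ZMod N) x) : ZMod (N / l)) =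
      ZMod.castHom h' (ZMod (N / l)) (cl1 x : ZMod (N2 / l)) := by
  have e1 : (ZMod.castHom h (ZMod N) x).val = x.val % N := by
    rw [castHom_val, ZMod.val_natCast]
  have e2 : x.val % N / l = x.val / l % (N / l) := by
    conv_lhs => rw [← Nat.mul_div_cancel' hl]
    rw [Nat.mod_mul_right_div_self]
  unfold cl1
  rw [e1, e2, map_natCast, ZMod.natCast_mod]

lemma cl_prj (h : N ∣ N2) (hl : l ∣ N) (h' : N / l ∣ N2 / l) (x : V N2) :
    (cl (prj h x) : V (N / l)) = prj h' (cl x : V (N2 / l)) := by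
  rw [prj_apply, prj_apply]
  exact Prod.ext (cl1_cast h hl h' x.1) (cl1_cast h hl h' x.2)

lemma val_cast_cell (h : N ∣ N2) (hl : l ∣ N) {x : ZMod N2} (hx : x.val < l) :
    (ZMod.castHom h (ZMod N) x).val = x.val := by
  have : l ≤ N := Nat.le_of_dvd (Nat.pos_of_ne_zero (NeZero.ne N)) hl
  rw [castHom_val, ZMod.val_natCast, Nat.mod_eq_of_lt (by omega)]

lemma cl1_eq_zero (hl : l ∣ N) {x : ZMod N} : (cl1 x : ZMod (N / l)) = 0 ↔ x.val < l := by
  have hl0 : 0 < l := H864.l_pos hl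
  constructor
  · intro h
    have h1 := cl1_val hl x
    rw [h, ZMod.val_zero] at h1
    exact (Nat.div_eq_zero_iff_lt hl0).1 h1.symm
  · intro h
    unfold cl1
    rw [Nat.div_eq_of_lt h, Nat.cast_zero]

lemma cl_eq_zero (hl : l ∣ N) {x : V N} : (cl x : V (N / l)) = 0 ↔ x.1.val < l ∧ x.2.val < l := by
  rw [← cl1_eq_zero hl, ← cl1_eq_zero hl]
  constructor
  · intro h
    exact ⟨congrArg Prod.fst h, congrArg Prod.snd h⟩
  · intro h
    exact Prod.ext h.1 h.2

/-- the zero cells of the two tori -/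
lemma sum_cell0 (h : N ∣ N2) (hl : l ∣ N) (f : V N → ℝ) :
    ∑ x ∈ univ.filter (fun x : V N2 => (cl x : V (N2 / l)) = 0), f (prj h x) =
      ∑ u ∈ univ.filter (fun u : V N => (cl u : V (N / l)) = 0), f u := by
  have hl2 : l ∣ N2 := hl.trans h
  refine Finset.sum_bij (fun x _ => prj h x) ?_ ?_ ?_ fun _ _ => rfl
  · intro x hx
    have h1 := (cl_eq_zero hl2).1 (Finset.mem_filter.1 hx).2
    rw [Finset.mem_filter, cl_eq_zero hl]
    refine ⟨mem_univ _, ?_⟩
    rw [prj_apply]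
    exact ⟨by rw [val_cast_cell h hl h1.1]; exact h1.1,
      by rw [val_cast_cell h hl h1.2]; exact h1.2⟩
  · intro x hx y hy hxy
    have h1 := (cl_eq_zero hl2).1 (Finset.mem_filter.1 hx).2
    have h2 := (cl_eq_zero hl2).1 (Finset.mem_filter.1 hy).2
    simp only [prj_apply, Prod.mk.injEq] at hxy
    refine Prod.ext ?_ ?_
    · apply ZMod.val_injective N2
      rw [← val_cast_cell h hl h1.1, ← val_cast_cell h hl h2.1, hxy.1]
    · apply ZMod.val_injective N2
      rw [← val_cast_cell h hl h1.2, ← val_cast_cell h hl h2.2, hxy.2]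
  · intro u hu
    have h1 := (cl_eq_zero hl).1 (Finset.mem_filter.1 hu).2
    have hlN2 : l ≤ N2 := Nat.le_of_dvd (Nat.pos_of_ne_zero (NeZero.ne N2)) hl2
    have e : ∀ a : ZMod N, a.val < l → (((a.val : ℕ) : ZMod N2)).val = a.val := by
      intro a ha
      rw [ZMod.val_natCast, Nat.mod_eq_of_lt (by omega)]
    refine ⟨(((u.1.val : ℕ) : ZMod N2), ((u.2.val : ℕ) : ZMod N2)), ?_, ?_⟩
    · rw [Finset.mem_filter, cl_eq_zero hl2]
      refine ⟨mem_univ _, ?_⟩
      simp only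
      rw [e _ h1.1, e _ h1.2]
      exact h1
    · rw [prj_apply]
      simp only [map_natCast, ZMod.natCast_zmod_val]

/-- **cell averages of a periodization** -/
theorem Gc_pz (h : N ∣ N2) (hl : l ∣ N) (h' : N / l ∣ N2 / l) {U2 : Matrix (V N2) (V N2) ℝ}
    (hU : TI U2) (z : V (N / l)) :
    Gc l (pz h U2) 0 z =
      ∑ z2 ∈ univ.filter (fun z2 : V (N2 / l) => prj h' z2 = z), Gc l U2 0 z2 := by
  have hl2 : l ∣ N2 := hl.trans h
  -- one site of the zero cell
  have key : ∀ x : V N2, ∑ v ∈ univ.filter (fun v : V N => (cl v : V (N / l)) = z),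
      pz h U2 (prj h x) v = ∑ z2 ∈ univ.filter (fun z2 : V (N2 / l) => prj h' z2 = z),
        ∑ y ∈ univ.filter (fun y : V N2 => (cl y : V (N2 / l)) = z2), U2 x y := by
    intro x
    have e1 : ∀ v : V N, pz h U2 (prj h x) v =
        ∑ y ∈ univ.filter (fun y : V N2 => prj h y = v), U2 x y := by
      intro v
      unfold pz
      simp only [Matrix.of_apply]
      refine Finset.sum_bij' (fun w _ => w + x) (fun y _ => y - x) ?_ ?_ ?_ ?_ ?_
      · intro w hw
        rw [Finset.mem_filter] at hw ⊢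
        exact ⟨mem_univ _, by rw [map_add, hw.2]; abel⟩
      · intro y hy
        rw [Finset.mem_filter] at hy ⊢
        exact ⟨mem_univ _, by rw [map_sub, hy.2]⟩
      · intro w _
        simp
      · intro y _
        simp
      · intro w _
        rw [hU.eq x (w + x), add_sub_cancel_right]
    simp only [e1]
    have e2 : ∑ v ∈ univ.filter (fun v : V N => (cl v : V (N / l)) = z),
        ∑ y ∈ univ.filter (fun y : V N2 => prj h y = v), U2 x y =
        ∑ y ∈ univ.filter (fun y : V N2 => (cl (prj h y) : V (N / l)) = z), U2 x y := by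
      rw [Finset.sum_filter, Finset.sum_filter, ← Finset.sum_fiberwise (s := univ)
        (g := fun y : V N2 => prj h y)]
      refine Finset.sum_congr rfl fun v _ => ?_
      split_ifs with hv
      · refine Finset.sum_congr rfl fun y hy => ?_
        rw [(Finset.mem_filter.1 hy).2, if_pos hv]
      · refine (Finset.sum_eq_zero fun y hy => ?_).symm
        rw [(Finset.mem_filter.1 hy).2, if_neg hv]
    have e3 : ∑ z2 ∈ univ.filter (fun z2 : V (N2 / l) => prj h' z2 = z),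
        ∑ y ∈ univ.filter (fun y : V N2 => (cl y : V (N2 / l)) = z2), U2 x y =
        ∑ y ∈ univ.filter (fun y : V N2 => prj h' (cl y : V (N2 / l)) = z), U2 x y := by
      rw [Finset.sum_filter, Finset.sum_filter, ← Finset.sum_fiberwise (s := univ)
        (g := fun y : V N2 => (cl y : V (N2 / l)))]
      refine Finset.sum_congr rfl fun v _ => ?_
      split_ifs with hv
      · refine Finset.sum_congr rfl fun y hy => ?_
        rw [(Finset.mem_filter.1 hy).2, if_pos hv]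
      · refine (Finset.sum_eq_zero fun y hy => ?_).symm
        rw [(Finset.mem_filter.1 hy).2, if_neg hv]
    rw [e2, e3]
    simp only [cl_prj h hl h']
  rw [Gc_apply, ← sum_cell0 h hl (fun u => ∑ v ∈ univ.filter (fun v : V N =>
    (cl v : V (N / l)) = z), pz h U2 u v)]
  simp only [key, Gc_apply]
  rw [← Finset.mul_sum]
  congr 1
  rw [Finset.sum_comm]

lemma Gc_sub (U V' : Matrix (V N) (V N) ℝ) : Gc l (U - V') = Gc l U - Gc l V' := by
  unfold Gc
  rw [Matrix.mul_sub, Matrix.sub_mul]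

/-- **`ℓ²` closeness at the sites from sup closeness at the cells** -/
theorem dl2_cells (h : N ∣ N2) (hl : l ∣ N) (h' : N / l ∣ N2 / l)
    {A U : Matrix (V N) (V N) ℝ} {A2 U2 : Matrix (V N2) (V N2) ℝ} {ν c Q S δ : ℝ}
    (hA : Dom A ν c) (hA2 : Dom A2 ν c) (hU : Uk A U ν) (hU2 : Uk A2 U2 ν)
    (hQ : ((N2 : ℝ) / N) ^ 2 ≤ Q) (s1 : U 0 0 ≤ ν * S) (s2 : U2 0 0 ≤ ν * S)
    (hδ : ∀ z : V (N / l), |Gc l U 0 z -
      ∑ z2 ∈ univ.filter (fun z2 : V (N2 / l) => prj h' z2 = z), Gc l U2 0 z2| ≤ δ) :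
    ∑ z, (U 0 z - ∑ y ∈ univ.filter (fun y : V N2 => prj h y = z), U2 0 y) ^ 2 ≤
      2 * ((N : ℝ) / (l : ℝ) ^ 2) ^ 2 * δ ^ 2 +
        32 * ((l : ℝ) ^ 2 * ν ^ 2 * S * (1 + Q) / c) := by
  have hν := hA.hν
  have hc := hA.hc
  have hQ0 : 0 ≤ Q := le_trans (by positivity) hQ
  have tV : TI (pz h U2) := ti_pz h hU2.ti
  have tG : TI (U - pz h U2) := hU.ti.sub tV
  have hV : ∀ z, pz h U2 0 z = ∑ y ∈ univ.filter (fun y : V N2 => prj h y = z), U2 0 y := by
    intro z
    unfold pz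
    simp only [Matrix.of_apply, sub_zero]
  have hS : ∀ a : V N, sn a ≤ l → ∑ v, ((U - pz h U2) 0 (v + a) - (U - pz h U2) 0 v) ^ 2 ≤
      4 * ((l : ℝ) ^ 2 * ν ^ 2 * S * (1 + Q) / c) := by
    intro a ha
    have ha' : (sn a : ℝ) ^ 2 ≤ (l : ℝ) ^ 2 :=
      pow_le_pow_left₀ (Nat.cast_nonneg _) (by exact_mod_cast ha) 2
    set a2 : V N2 := ip N2 (a.1.valMinAbs, a.2.valMinAbs) with ha2
    have hpa : prj h a2 = a := by
      rw [ha2, prj_ip]
      unfold ip
      simp only [ZMod.coe_valMinAbs]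
    have hsa : sn a2 ≤ l := by
      refine (sn_ip_le (D := sn a) ?_ ?_).trans ha
      · rw [sn_eq]
        exact le_max_left _ _
      · rw [sn_eq]
        exact le_max_right _ _
    have hsa' : (sn a2 : ℝ) ^ 2 ≤ (l : ℝ) ^ 2 :=
      pow_le_pow_left₀ (Nat.cast_nonneg _) (by exact_mod_cast hsa) 2
    have u00 : 0 ≤ U 0 0 := hU.nn 0 0
    have u20 : 0 ≤ U2 0 0 := hU2.nn 0 0
    have k1 : ∑ v, (U 0 (v + a) - U 0 v) ^ 2 ≤ 2 * (l : ℝ) ^ 2 * (ν / c * (ν * S)) := by
      refine (shift_le hU.ti hν hc (fun k => (hU.sym_bd hA k).1)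
        (fun k => (hU.sym_bd hA k).2) a).trans ?_
      refine mul_le_mul (by linarith) ?_ (by positivity) (by positivity)
      exact mul_le_mul_of_nonneg_left s1 (by positivity)
    have k2 : ∑ v, (U2 0 (v + a2) - U2 0 v) ^ 2 ≤ 2 * (l : ℝ) ^ 2 * (ν / c * (ν * S)) := by
      refine (shift_le hU2.ti hν hc (fun k => (hU2.sym_bd hA2 k).1)
        (fun k => (hU2.sym_bd hA2 k).2) a2).trans ?_
      refine mul_le_mul (by linarith) ?_ (by positivity) (by positivity)
      exact mul_le_mul_of_nonneg_left s2 (by positivity)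
    have k3 := shift_pz h hQ a2 k2
    rw [hpa] at k3
    have k4 : ∀ v, ((U - pz h U2) 0 (v + a) - (U - pz h U2) 0 v) ^ 2 ≤
        2 * (U 0 (v + a) - U 0 v) ^ 2 + 2 * (∑ y ∈ univ.filter (fun y : V N2 =>
          prj h y = v + a), U2 0 y - ∑ y ∈ univ.filter (fun y : V N2 => prj h y = v),
          U2 0 y) ^ 2 := by
      intro v
      rw [Matrix.sub_apply, Matrix.sub_apply, hV, hV]
      set x := U 0 (v + a)
      set x' := U 0 v
      set y := ∑ y ∈ univ.filter (fun y : V N2 => prj h y = v + a), U2 0 y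
      set y' := ∑ y ∈ univ.filter (fun y : V N2 => prj h y = v), U2 0 y
      nlinarith [sq_nonneg ((x - x') + (y - y'))]
    refine (Finset.sum_le_sum fun v _ => k4 v).trans ?_
    rw [Finset.sum_add_distrib, ← Finset.mul_sum, ← Finset.mul_sum]
    have e : 4 * ((l : ℝ) ^ 2 * ν ^ 2 * S * (1 + Q) / c) =
        2 * (2 * (l : ℝ) ^ 2 * (ν / c * (ν * S))) +
          2 * (Q * (2 * (l : ℝ) ^ 2 * (ν / c * (ν * S)))) := by
      field_simp
      ring
    rw [e]
    linarith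
  have hG : ∀ x y : V (N / l), |Gc l (U - pz h U2) x y| ≤ δ := by
    intro x y
    have t1 : TI (Gc l (U - pz h U2)) := H864.ti_Gc hl tG.ct
    rw [t1.eq x y, Gc_sub, Matrix.sub_apply, Gc_pz h hl h' hU2.ti]
    exact hδ _
  have := l2_cells hl tG hS hG
  have e1 : ∀ z, U 0 z - ∑ y ∈ univ.filter (fun y : V N2 => prj h y = z), U2 0 y =
      (U - pz h U2) 0 z := by
    intro z
    rw [Matrix.sub_apply, hV]
  simp only [e1]
  linarith

end gcpz

end

end Vale.Agent.P159.H708
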