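import Vale.Agent.P159.H708.Wl5

/-!
P159 / H708 (module WL), part 6: the same as part 5 with the sup norm of the difference of the step
kernels only (`Nrs`; at the site level the `l1` form of `Near` loses a factor `log ξ`).
-/

set_option linter.unusedSectionVars false

namespace Vale.Agent.P159.H708

open Finset Matrix MeasureTheory
open Vale.Agent.P159.TM.H764 (cN sN dt EE)
open Vale.Agent.P159.TM.Spec (V)
open Vale.Agent.P159.TM.SpecC (wT)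
open Vale.Agent.P159.H864 (TI sym mlt fc hsq)
open Vale.Agent.P159.H462 (Dom)
open Vale.Agent.P159.TM.H459 (sn)
open Vale.Agent.P159.H37 (gau qf wM)
open Vale.Agent.P159.H686 (Cmp fl)
open Vale.Agent.P159.H963 (MF GW nM An ntr Anm)
open Vale.Agent.P159.H733.Torg
open Vale.Agent.P159.H883

noncomputable section

variable {N N2 : ℕ} [NeZero N] [NeZero N2]

/-- two step kernels close in sup norm -/
structure Sts (S S' : Matrix (V N) (V N) ℝ) (σ : ℝ) : Prop where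
  ti : TI S
  ti' : TI S'
  nn : ∀ x y, 0 ≤ S x y
  nn' : ∀ x y, 0 ≤ S' x y
  row : ∀ x, ∑ y, S x y = 1
  row' : ∀ x, ∑ y, S' x y = 1
  sup : ∀ z, |S 0 z - S' 0 z| ≤ σ

lemma Sts.nonneg {S S' : Matrix (V N) (V N) ℝ} {σ : ℝ} (h : Sts S S' σ) : 0 ≤ σ :=
  (abs_nonneg _).trans (h.sup 0)

lemma Sts.pow {S S' : Matrix (V N) (V N) ℝ} {σ : ℝ} (h : Sts S S' σ) (n : ℕ) (x y : V N) :
    |(S ^ n) x y - (S' ^ n) x y| ≤ n * σ := by
  induction n generalizing x y with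
  | zero => simp
  | succ n ih =>
    have hσ := h.nonneg
    have e1 : (S ^ (n + 1)) x y - (S' ^ (n + 1)) x y =
        ∑ w, ((S ^ n) x w - (S' ^ n) x w) * S' w y + ∑ w, (S ^ n) x w * (S w y - S' w y) := by
      rw [pow_succ, pow_succ, Matrix.mul_apply, Matrix.mul_apply, ← Finset.sum_sub_distrib,
        ← Finset.sum_add_distrib]
      exact Finset.sum_congr rfl fun w _ => by ring
    have col' : ∑ w, S' w y = 1 := by
      rw [← h.row' y]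
      exact Finset.sum_congr rfl fun w _ => h.ti'.sy _ _
    have e2 : |∑ w, ((S ^ n) x w - (S' ^ n) x w) * S' w y| ≤ n * σ := by
      refine (Finset.abs_sum_le_sum_abs _ _).trans ?_
      have : ∀ w, |((S ^ n) x w - (S' ^ n) x w) * S' w y| ≤ n * σ * S' w y := fun w => by
        rw [abs_mul, abs_of_nonneg (h.nn' w y)]
        exact mul_le_mul_of_nonneg_right (ih x w) (h.nn' w y)
      refine (Finset.sum_le_sum fun w _ => this w).trans ?_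
      rw [← Finset.mul_sum, col', mul_one]
    have e3 : |∑ w, (S ^ n) x w * (S w y - S' w y)| ≤ σ := by
      refine (Finset.abs_sum_le_sum_abs _ _).trans ?_
      have : ∀ w, |(S ^ n) x w * (S w y - S' w y)| ≤ (S ^ n) x w * σ := fun w => by
        rw [abs_mul, abs_of_nonneg (pow_nonneg' h.nn n x w)]
        refine mul_le_mul_of_nonneg_left ?_ (pow_nonneg' h.nn n x w)
        rw [h.ti.eq w y, h.ti'.eq w y]
        exact h.sup _
      refine (Finset.sum_le_sum fun w _ => this w).trans ?_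
      rw [← Finset.sum_mul, pow_row h.row, one_mul]
    rw [e1]
    refine (abs_add_le _ _).trans ?_
    push_cast
    linarith

lemma sm_sup {A A' : Matrix (V N) (V N) ℝ} {ν β σ : ℝ} (hν : 0 < ν) (hβ : 0 ≤ β)
    (h : Sts (1 - ν⁻¹ • A) (1 - ν⁻¹ • A') σ) (T : ℕ) (x y : V N) :
    |sm β ν A T x y - sm β ν A' T x y| ≤ T ^ 2 * σ / (ν + β) := by
  have hσ := h.nonneg
  have hl0 : 0 ≤ ν / (ν + β) := by positivity
  have hl1 : ν / (ν + β) ≤ 1 := by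
    rw [div_le_one (by positivity)]
    linarith
  have e1 : sm β ν A T x y - sm β ν A' T x y =
      (ν + β)⁻¹ * ∑ m ∈ range T, (ν / (ν + β)) ^ m *
        (((1 - ν⁻¹ • A) ^ m) x y - ((1 - ν⁻¹ • A') ^ m) x y) := by
    unfold sm
    rw [Matrix.smul_apply, Matrix.smul_apply, Matrix.sum_apply, Matrix.sum_apply, smul_eq_mul,
      smul_eq_mul, ← mul_sub, ← Finset.sum_sub_distrib]
    congr 1
    refine Finset.sum_congr rfl fun m _ => ?_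
    rw [Matrix.smul_apply, Matrix.smul_apply, smul_eq_mul, smul_eq_mul]
    ring
  rw [e1, abs_mul, abs_of_pos (show 0 < (ν + β)⁻¹ by positivity)]
  have e2 : |∑ m ∈ range T, (ν / (ν + β)) ^ m *
      (((1 - ν⁻¹ • A) ^ m) x y - ((1 - ν⁻¹ • A') ^ m) x y)| ≤ ∑ _m ∈ range T, T * σ := by
    refine (Finset.abs_sum_le_sum_abs _ _).trans (Finset.sum_le_sum fun m hm => ?_)
    rw [abs_mul, abs_of_nonneg (pow_nonneg hl0 m)]
    have h1 := h.pow m x y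
    have h2 : (m : ℝ) ≤ T := by exact_mod_cast (Finset.mem_range.1 hm).le
    calc (ν / (ν + β)) ^ m * |((1 - ν⁻¹ • A) ^ m) x y - ((1 - ν⁻¹ • A') ^ m) x y|
        ≤ 1 * (m * σ) := mul_le_mul (pow_le_one₀ hl0 hl1) h1 (abs_nonneg _) zero_le_one
      _ ≤ T * σ := by
          rw [one_mul]
          exact mul_le_mul_of_nonneg_right h2 hσ
  rw [Finset.sum_const, Finset.card_range, nsmul_eq_mul] at e2
  refine (mul_le_mul_of_nonneg_left e2 (show 0 ≤ (ν + β)⁻¹ by positivity)).trans (le_of_eq ?_)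
  ring

/-- `A` on the torus `N` is close in sup norm to the periodization of `A3` -/
structure Nrs (h : N ∣ N2) (A : Matrix (V N) (V N) ℝ) (A3 : Matrix (V N2) (V N2) ℝ)
    (ν c κ C1 σ : ℝ) : Prop where
  dom : Dom A ν c
  dom2 : Dom A3 ν c
  off2 : ∀ z, z ≠ 0 → A3 0 z ≤ 0
  kp : 0 < κ
  mom : ∑ z, (1 - ν⁻¹ • A3 : Matrix (V N2) (V N2) ℝ) 0 z * Real.exp (κ * sn z) ≤ C1
  nn : ∀ x y, 0 ≤ (1 - ν⁻¹ • A : Matrix (V N) (V N) ℝ) x y
  sup : ∀ z, |(1 - ν⁻¹ • A : Matrix (V N) (V N) ℝ) 0 z -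
    (1 - ν⁻¹ • pz h A3 : Matrix (V N) (V N) ℝ) 0 z| ≤ σ

section nrs

variable {A : Matrix (V N) (V N) ℝ} {A2 A3 : Matrix (V N2) (V N2) ℝ} {ν c κ C1 β σ : ℝ}

lemma Nrs.two {h : N ∣ N2} (hN : Nrs h A A3 ν c κ C1 σ) : Two h (pz h A3) A3 ν c κ C1 :=
  ⟨dom_pz h hN.dom2, hN.dom2, per_pz h hN.dom2.ti, hN.off2, hN.kp, hN.mom⟩

lemma Nrs.sts {h : N ∣ N2} (hN : Nrs h A A3 ν c κ C1 σ) :
    Sts (1 - ν⁻¹ • A) (1 - ν⁻¹ • pz h A3) σ :=
  ⟨ti_step hN.dom.ti ν, ti_step hN.two.dom.ti ν, hN.nn, hN.two.h0, step_row hN.dom,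
    step_row hN.two.dom, hN.sup⟩

/-- 733's `Near` implies `Nrs` -/
lemma nrs_near {h : N ∣ N2} {η s : ℝ} (hN : Near h A A3 ν c κ C1 η s) :
    Nrs h A A3 ν c κ C1 (η * s) :=
  ⟨hN.dom, hN.dom2, hN.off2, hN.kp, hN.mom, hN.stb.nn, hN.stb.sup⟩

/-- **(E)** from the sup norm -/
theorem Nrs.ent {h : N ∣ N2} (hN : Nrs h A A3 ν c κ C1 σ) (hβ : 0 ≤ β) {m : ℕ} (hm : 1 ≤ m)
    {K : Matrix (V N) (V N) ℝ} {K3 : Matrix (V N2) (V N2) ℝ} (hK : Cv β A K) (hK3 : Cv β A3 K3)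
    {D : ℕ} (hD : 2 * D ≤ N) {ζ : ℤ × ℤ} (h1 : ζ.1.natAbs ≤ D) (h2 : ζ.2.natAbs ≤ D) :
    |(K3 0 (ip N2 ζ) - K3 0 0) - (K 0 (ip N ζ) - K 0 0)| ≤ eE ν c κ C1 σ 1 β N m D := by
  have hν := hN.dom.hν
  set T : ℕ := 2 * m + 1 with hT
  have hT1 : 1 ≤ T := by omega
  rw [hK.ent hN.dom hβ T, hK3.ent hN.dom2 hβ T]
  have a1 := smooth_ent hN.dom hβ hm (sn_ip_le (N := N) h1 h2)
  have a2 := smooth_ent hN.dom2 hβ hm (sn_ip_le (N := N2) h1 h2)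
  have b1 := hN.two.sm_diff hβ hT1 (ζ := ζ) (by omega) (by omega)
  have b2 := hN.two.sm_diff hβ hT1 (ζ := (0 : ℤ × ℤ)) (by simp) (by simp)
  have c1 := abs_le.1 (sm_sup hν hβ hN.sts T 0 (ip N ζ))
  have c2 := abs_le.1 (sm_sup hν hβ hN.sts T 0 0)
  rw [ip_zero, ip_zero] at b2
  have e : eE ν c κ C1 σ 1 β N m D = 5 * ν * D ^ 2 / (m * c ^ 2) +
      T * H733.Torg.tau κ C1 N T / (ν + β) + 2 * (T ^ 2 * σ / (ν + β)) := by
    unfold eE
    rw [← hT]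
    push_cast
    ring
  rw [e]
  rw [← hT] at a1 a2
  obtain ⟨a11, a12⟩ := a1
  obtain ⟨a21, a22⟩ := a2
  obtain ⟨b11, b12⟩ := b1
  obtain ⟨b21, b22⟩ := b2
  obtain ⟨c11, c12⟩ := c1
  obtain ⟨c21, c22⟩ := c2
  rw [abs_le]
  constructor <;> linarith

theorem Nrs.ent2 {h : N ∣ N2} {h' : N2 ∣ N2} (hN : Nrs h A A3 ν c κ C1 σ)
    (hN2 : Nrs h' A2 A3 ν c κ C1 σ) (hβ : 0 ≤ β) {m : ℕ} (hm : 1 ≤ m)
    {K : Matrix (V N) (V N) ℝ} {K2 : Matrix (V N2) (V N2) ℝ} (hK : Cv β A K) (hK2 : Cv β A2 K2)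
    {D : ℕ} (hD : 2 * D ≤ N) {ζ : ℤ × ℤ} (h1 : ζ.1.natAbs ≤ D) (h2 : ζ.2.natAbs ≤ D) :
    |(K2 0 (ip N2 ζ) - K2 0 0) - (K 0 (ip N ζ) - K 0 0)| ≤
      eE ν c κ C1 σ 1 β N m D + eE ν c κ C1 σ 1 β N2 m D := by
  have hNN : N ≤ N2 := Nat.le_of_dvd (Nat.pos_of_ne_zero (NeZero.ne N2)) h
  obtain ⟨a1, a2⟩ := abs_le.1 (hN.ent hβ hm hK (cv_cov β A3) hD h1 h2)
  obtain ⟨b1, b2⟩ := abs_le.1 (hN2.ent hβ hm hK2 (cv_cov β A3) (hD.trans hNN) h1 h2)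
  rw [abs_le]
  constructor <;> linarith

theorem Nrs.cross {h : N ∣ N2} (hN : Nrs h A A3 ν c κ C1 σ) (hβ : 0 ≤ β) {m : ℕ} (hm : 1 ≤ m)
    {K : Matrix (V N) (V N) ℝ} (hK : Cv β A K) {D : ℕ} {R : ℝ} {w a b : V N}
    (hw : R ≤ sn w) (ha : sn a ≤ D) (hb : sn b ≤ D) :
    |ck K w a b| ≤ nX ν c κ C1 σ 1 β m D R := by
  have hν := hN.dom.hν
  have hc := hN.dom.hc
  have hm' : (0 : ℝ) < m := by exact_mod_cast hm
  have hT : Tl (pz h A3) ν c κ C1 := tl_two hN.two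
  have h1 := cross_smooth hN.dom hβ hm hK (w := w) ha hb
  have h2 := ck_sub (sm β ν A (2 * m + 1)) (sm β ν (pz h A3) (2 * m + 1))
    (fun y => sm_sup hν hβ hN.sts (2 * m + 1) 0 y) w a b
  have h3 := hT.cross hβ hm (cv_cov β (pz h A3)) ha hb hw
  have h4 := cross_smooth hT.dom hβ hm (cv_cov β (pz h A3)) (w := w) ha hb
  have h6 : |ck (sm β ν (pz h A3) (2 * m + 1)) w a b| ≤
      cX ν c κ C1 β m D R + 10 * ν * D ^ 2 / (m * c ^ 2) := by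
    obtain ⟨a1, a2⟩ := abs_le.1 h3
    obtain ⟨b1, b2⟩ := abs_le.1 h4
    rw [abs_le]
    constructor <;> linarith
  have h5 : ck (sm β ν (pz h A3) (2 * m + 1)) w a b = ck (sm β ν (pz h A3) (2 * m + 1)) w a b :=
    rfl
  -- direct bound of the finite range part
  have h7 : |ck (sm β ν (pz h A3) (2 * m + 1)) w a b| ≤
      cX ν c κ C1 β m D R - 10 * ν * D ^ 2 / (m * c ^ 2) := by
    have hT1 : 1 ≤ 2 * m + 1 := by omega
    have s1 : (sn w : ℝ) ≤ sn (w + b - a) + 2 * D := by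
      have h1 := TM.H459.sn_add_le (w + b - a) (a - b)
      have h2 := TM.H459.sn_add_le a (-b)
      rw [TM.H459.sn_neg] at h2
      have e : w + b - a + (a - b) = w := by abel
      rw [e] at h1
      rw [← sub_eq_add_neg] at h2
      have : sn w ≤ sn (w + b - a) + 2 * D := by omega
      exact_mod_cast this
    have s2 : (sn w : ℝ) ≤ sn (w + b) + 2 * D := by
      have h1 := TM.H459.sn_add_le (w + b) (-b)
      rw [TM.H459.sn_neg] at h1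
      have e : w + b + -b = w := by abel
      rw [e] at h1
      have : sn w ≤ sn (w + b) + 2 * D := by omega
      exact_mod_cast this
    have s3 : (sn w : ℝ) ≤ sn (w - a) + 2 * D := by
      have h1 := TM.H459.sn_add_le (w - a) a
      have e : w - a + a = w := by abel
      rw [e] at h1
      have : sn w ≤ sn (w - a) + 2 * D := by omega
      exact_mod_cast this
    have hD0 : (0 : ℝ) ≤ D := Nat.cast_nonneg _
    obtain ⟨f11, f12⟩ := hT.sm_far hβ hT1 (y := w + b - a) (r := R - 2 * D) (by linarith)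
    obtain ⟨f21, f22⟩ := hT.sm_far hβ hT1 (y := w + b) (r := R - 2 * D) (by linarith)
    obtain ⟨f31, f32⟩ := hT.sm_far hβ hT1 (y := w - a) (r := R - 2 * D) (by linarith)
    obtain ⟨f41, f42⟩ := hT.sm_far hβ hT1 (y := w) (r := R - 2 * D) (by linarith)
    have e : cX ν c κ C1 β m D R - 10 * ν * D ^ 2 / (m * c ^ 2) =
        (2 * m + 1 : ℕ) * ft κ C1 (2 * m + 1) (R - 2 * D) / (ν + β) +
          (2 * m + 1 : ℕ) * ft κ C1 (2 * m + 1) (R - 2 * D) / (ν + β) := by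
      unfold cX
      ring
    rw [e, abs_le]
    unfold ck
    constructor <;> linarith
  have h8 := cX_nonneg (c := c) (κ := κ) (C1 := C1) hν hβ m D R
  obtain ⟨a1, a2⟩ := abs_le.1 h1
  obtain ⟨b1, b2⟩ := abs_le.1 h2
  obtain ⟨c1, c2⟩ := abs_le.1 h7
  unfold nX
  rw [mul_one, abs_le]
  constructor <;> linarith

end nrs

/-! ### the torus model of scalar mass `t` -/

section inst

variable {b t c κ C1 σ η bb : ℝ} {D m : ℕ} {R δ d : ℝ}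

/-- **WL, doubling**, sup norm form: the laws of the two core windows on the tori `N ∣ N2` -/
theorem cmp_tor_sup {A3 : Matrix (V N2) (V N2) ℝ} {h : N ∣ N2} {h' : N2 ∣ N2} (hb : 0 < b)
    (ht : 0 < t) (hN : Nrs h (Anm N b t) A3 t c κ C1 σ) (hN2 : Nrs h' (Anm N2 b t) A3 t c κ C1 σ)
    {Bd : Set (V N → ℝ)} (hBd : MeasurableSet Bd) {Bd' : Set (V N2 → ℝ)}
    (hBd' : MeasurableSet Bd') (hη0 : 0 ≤ η)
    (hη : ∀ F, F ∉ Bd → Wt (wT b N) (t • (1 : Matrix (V N) (V N) ℝ)) t 0 F ≤ 1 + η)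
    (hbd : (nuM (wT b N) (t • (1 : Matrix (V N) (V N) ℝ)) 0).real Bd ≤ bb)
    (hη' : ∀ F, F ∉ Bd' → Wt (wT b N2) (t • (1 : Matrix (V N2) (V N2) ℝ)) t 0 F ≤ 1 + η)
    (hbd' : (nuM (wT b N2) (t • (1 : Matrix (V N2) (V N2) ℝ)) 0).real Bd' ≤ bb)
    (hηb : η + bb ≤ 1 / 8) (hDN : 4 * D < N) (hm : 1 ≤ m)
    {p q : V N} {p2 q2 : V N2} (hR : 2 * (D : ℝ) < R) (hpq : R ≤ sn (q - p))
    (hpq2 : R ≤ sn (q2 - p2)) (hδ : 0 < δ) (hδ4 : δ ≤ 1 / 4)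
    (hδ2 : t * (2 * (2 * (D : ℝ) + 1) ^ 2) *
      (3 * (eE t c κ C1 σ 1 0 N m (2 * D) + eE t c κ C1 σ 1 0 N2 m (2 * D)) +
        2 * nX t c κ C1 σ 1 0 m D R) ≤ δ)
    (hd : 0 ≤ d) (hd8 : d ≤ 1 / 8) :
    Cmp (nuM (wT b N) (t • (1 : Matrix (V N) (V N) ℝ)) 0)
      (nuM (wT b N2) (t • (1 : Matrix (V N2) (V N2) ℝ)) 0) (wd D p q) (wd D p2 q2)
      (4 * (η + bb) + 2 * d) (4 * bb + 2 * (2 * (1 + d) ^ (-(1 / (4 * δ))))) := by
  have hA := hN.dom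
  have hA' := hN2.dom
  have hσ := hN.sts.nonneg
  have h0 : ∀ M : ℕ, 0 ≤ eE t c κ C1 σ 1 0 M m (2 * D) := fun M => by
    have h1 := H733.Torg.tau_nonneg κ C1 M (2 * m + 1)
    have hc := hN.dom.hc
    unfold eE
    positivity
  rw [← An_tor b hb.le ht] at hA hA'
  refine cmp_two (H963.gw_wT hb.le) (bw_wT hb) (mf_scalar ht) (H963.gw_wT hb.le) (bw_wT hb)
    (mf_scalar ht) hA hA' hBd hBd' hη0 hη hbd hη' hbd' hηb hDN (K := cov 0 (Anm N b t))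
    (K2 := cov 0 (Anm N2 b t)) ?_ ?_ (add_nonneg (h0 N) (h0 N2))
    (nX_nonneg (c := c) (κ := κ) (C1 := C1) ht le_rfl (by linarith : 0 ≤ σ * 1) m D R) ?_ hR hpq
    hpq2 ?_ ?_ hδ hδ4 hδ2 hd hd8
  · rw [An_tor b hb.le ht]
    exact cv_cov 0 _
  · rw [An_tor b hb.le ht]
    exact cv_cov 0 _
  · intro ζ h3 h4
    exact hN.ent2 hN2 le_rfl hm (cv_cov 0 _) (cv_cov 0 _) (by omega) h3 h4
  · intro x a b hx ha hb
    exact hN.cross le_rfl hm (cv_cov 0 _) hx ha hb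
  · intro x a b hx ha hb
    exact hN2.cross le_rfl hm (cv_cov 0 _) hx ha hb

/-- **WL, move**, sup norm form: one torus, two pairs of positions -/
theorem cmp_move_sup {A3 : Matrix (V N) (V N) ℝ} {h : N ∣ N} (hb : 0 < b) (ht : 0 < t)
    (hN : Nrs h (Anm N b t) A3 t c κ C1 σ)
    {Bd : Set (V N → ℝ)} (hBd : MeasurableSet Bd) (hη0 : 0 ≤ η)
    (hη : ∀ F, F ∉ Bd → Wt (wT b N) (t • (1 : Matrix (V N) (V N) ℝ)) t 0 F ≤ 1 + η)
    (hbd : (nuM (wT b N) (t • (1 : Matrix (V N) (V N) ℝ)) 0).real Bd ≤ bb)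
    (hηb : η + bb ≤ 1 / 8) (hDN : 4 * D < N) (hm : 1 ≤ m)
    {p q p2 q2 : V N} (hR : 2 * (D : ℝ) < R) (hpq : R ≤ sn (q - p))
    (hpq2 : R ≤ sn (q2 - p2)) (hδ : 0 < δ) (hδ4 : δ ≤ 1 / 4)
    (hδ2 : t * (2 * (2 * (D : ℝ) + 1) ^ 2) * (2 * nX t c κ C1 σ 1 0 m D R) ≤ δ)
    (hd : 0 ≤ d) (hd8 : d ≤ 1 / 8) :
    Cmp (nuM (wT b N) (t • (1 : Matrix (V N) (V N) ℝ)) 0)
      (nuM (wT b N) (t • (1 : Matrix (V N) (V N) ℝ)) 0) (wd D p q) (wd D p2 q2)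
      (4 * (η + bb) + 2 * d) (4 * bb + 2 * (2 * (1 + d) ^ (-(1 / (4 * δ))))) := by
  have hA := hN.dom
  have hσ := hN.sts.nonneg
  rw [← An_tor b hb.le ht] at hA
  refine cmp_two (H963.gw_wT hb.le) (bw_wT hb) (mf_scalar ht) (H963.gw_wT hb.le) (bw_wT hb)
    (mf_scalar ht) hA hA hBd hBd hη0 hη hbd hη hbd hηb hDN (K := cov 0 (Anm N b t))
    (K2 := cov 0 (Anm N b t)) ?_ ?_ le_rfl
    (nX_nonneg (c := c) (κ := κ) (C1 := C1) ht le_rfl (by linarith : 0 ≤ σ * 1) m D R) ?_ hR hpq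
    hpq2 ?_ ?_ hδ hδ4 ?_ hd hd8
  · rw [An_tor b hb.le ht]
    exact cv_cov 0 _
  · rw [An_tor b hb.le ht]
    exact cv_cov 0 _
  · intro ζ _ _
    rw [sub_self, abs_zero]
  · intro x a b hx ha hb
    exact hN.cross le_rfl hm (cv_cov 0 _) hx ha hb
  · intro x a b hx ha hb
    exact hN.cross le_rfl hm (cv_cov 0 _) hx ha hb
  · rw [mul_zero, zero_add]
    exact hδ2

end inst

end

end Vale.Agent.P159.H708
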