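import Vale.Agent.P159.H708.Wl12
import Vale.Agent.P159.H767.Nr7

/-!
P159 / H708 (module WL), part 13: the data `Nrq` of two tori of the model, `U = t GA`, from
767's `KN` (cells) and `Dom`.
-/

set_option linter.unusedSectionVars false

namespace Vale.Agent.P159.H708

open Finset Matrix MeasureTheory
open Vale.Agent.P159.TM.H764 (cN sN dt EE)
open Vale.Agent.P159.TM.Spec (V)
open Vale.Agent.P159.TM.SpecC (wT)
open Vale.Agent.P159.H864 (TI sym mlt fc hsq cl cl1 cl1_val Gc Gc_apply)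
open Vale.Agent.P159.H462 (Dom)
open Vale.Agent.P159.TM.H459 (sn)
open Vale.Agent.P159.H640 (card_cl)
open Vale.Agent.P159.H612 (Sn Jm GA ti_GA GA_nonneg ti_Jm)
open Vale.Agent.P159.H963 (Anm)
open Vale.Agent.P159.H767 (Sk Sg s0 Jc KN s0_le_one Sk_split ti_Sg Sg_nonneg)
open Vale.Agent.P159.H733.Torg

noncomputable section

variable {N N2 l : ℕ} [NeZero N] [NeZero N2]

/-! ### sup norm of a kernel from its symbol -/

section sup

variable {U A : Matrix (V N) (V N) ℝ} {ν c : ℝ}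

lemma ee8 (k : V N) : EE k ≤ 8 := by
  have h : ∀ j : ZMod N, -1 ≤ cN j := by
    intro j
    have h1 := TM.H764.cN_sq_add j
    have h2 : cN j ^ 2 ≤ 1 := by
      have := sq_nonneg (sN j)
      linarith
    have h3 := abs_le_of_sq_le_sq (a := cN j) (b := 1) (by linarith) (by norm_num)
    exact (abs_le.1 h3).1
  have h1 := h k.1
  have h2 := h k.2
  unfold EE
  linarith

lemma le_diag (hU : TI U) (h0 : ∀ k, 0 ≤ sym U k) (z : V N) : U 0 z ≤ U 0 0 := by
  have hN := H864.N_pos (N := N)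
  have h := ker_sym hU z
  have h1 : ∑ k, sym U k * (cN (dt k z) - 1) ≤ 0 := by
    refine Finset.sum_nonpos fun k _ => ?_
    have := TM.H764.cN_le_one (dt k z)
    exact mul_nonpos_of_nonneg_of_nonpos (h0 k) (by linarith)
  have h2 : ((N : ℝ) ^ 2)⁻¹ * ∑ k, sym U k * (cN (dt k z) - 1) ≤ 0 :=
    mul_nonpos_of_nonneg_of_nonpos (by positivity) h1
  linarith

/-- the number `S` -/
def sS (N : ℕ) (ν c : ℝ) : ℝ := 1 / (ν * (N : ℝ) ^ 2) + 25 / c * (1 + Real.log (1 + 9 * c / ν))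

lemma sS_nonneg (hν : 0 < ν) (hc : 0 < c) : 0 ≤ sS N ν c := by
  have : 0 ≤ Real.log (1 + 9 * c / ν) := Real.log_nonneg (by
    have : 0 < 9 * c / ν := by positivity
    linarith)
  unfold sS
  positivity

lemma diag_le (hU : TI U) (hν : 0 < ν) (hc : 0 < c)
    (h1 : ∀ k, sym U k ≤ ν / (ν + c * EE k)) : U 0 0 ≤ ν * sS N ν c := by
  have hN := H864.N_pos (N := N)
  rw [hU.diag_eq 0]
  have hlow : (univ : Finset (V N)).erase 0 ⊆ H462.low N 9 := by
    intro k hk
    rw [Finset.mem_erase] at hk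
    unfold H462.low
    rw [Finset.mem_filter]
    exact ⟨mem_univ _, hk.1, by linarith [ee8 k]⟩
  have h2 : ∑ k, sym U k ≤ 1 + ν / c * ∑ k ∈ H462.low N 9, (EE k + ν / c)⁻¹ := by
    rw [← Finset.add_sum_erase univ _ (mem_univ (0 : V N))]
    have h3 : sym U 0 ≤ 1 := by
      have := h1 0
      have hE : EE (0 : V N) = 0 := TM.H764.EE_zero
      rwa [hE, mul_zero, add_zero, div_self hν.ne'] at this
    refine add_le_add h3 ?_
    rw [Finset.mul_sum]
    refine le_trans (Finset.sum_le_sum fun k _ => ?_)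
      (Finset.sum_le_sum_of_subset_of_nonneg hlow fun k _ _ => ?_)
    · refine (h1 k).trans (le_of_eq ?_)
      have hE : 0 ≤ EE k := TM.H764.EE_nonneg k
      have : 0 < ν + c * EE k := by positivity
      field_simp
      ring
    · have hE : 0 ≤ EE k := TM.H764.EE_nonneg k
      positivity
  have h4 := H462.sum_log (N := N) (show (0 : ℝ) < 9 by norm_num) (show 0 < ν / c by positivity)
  have e1 : 9 / (ν / c) = 9 * c / ν := by field_simp
  rw [e1] at h4
  calc ((N : ℝ) ^ 2)⁻¹ * ∑ k, sym U k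
      ≤ ((N : ℝ) ^ 2)⁻¹ * (1 + ν / c * (25 * (N : ℝ) ^ 2 * (1 + Real.log (1 + 9 * c / ν)))) := by
        refine mul_le_mul_of_nonneg_left (h2.trans ?_) (by positivity)
        have := mul_le_mul_of_nonneg_left h4 (show 0 ≤ ν / c by positivity)
        linarith
    _ = ν * sS N ν c := by
        unfold sS
        generalize Real.log (1 + 9 * c / ν) = L
        have hN' : (N : ℝ) ≠ 0 := by exact_mod_cast NeZero.ne N
        field_simp

end sup

/-! ### the kernel `t GA` -/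

section ga

variable {b t c κ C1 : ℝ}

/-- `t GA` is a kernel of `Anm` -/
theorem uk_GA (hb : 0 < b) (ht : 0 < t) : Uk (Anm N b t) (t • GA N b t) t where
  ti := (ti_GA hb.le ht).smul t
  nn x y := by
    rw [Matrix.smul_apply, smul_eq_mul]
    exact mul_nonneg ht.le (GA_nonneg hb.le ht x y)
  row x := by
    have h1 := row_eq ((ti_GA (N := N) hb.le ht).smul t) x
    rw [h1]
    have h2 := s0_le_one (N := N) hb.le ht
    unfold s0 at h2
    simp only [Matrix.smul_apply, smul_eq_mul]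
    rwa [← Finset.mul_sum]
  sy k hk := by
    rw [H963.sym_Anm, H864.sym_smul, H612.sym_GA hb.le ht hk]
    unfold H963.Ank
    rw [if_neg hk]
    field_simp
    ring

lemma sn_cl' [NeZero (N / l)] (hl : l ∣ N) {u v : V N} (hu : (cl u : V (N / l)) = 0) :
    sn (v - u) ≤ l * sn (cl v : V (N / l)) + l := by
  have hl0 : 0 < l := H864.l_pos hl
  have key : ∀ x y : ZMod N, (cl1 x : ZMod (N / l)) = 0 →
      av (y - x) ≤ l * av (cl1 y : ZMod (N / l)) + l := by
    intro x y hx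
    have hx' : x.val < l := (cl1_eq_zero hl).1 hx
    set m : ℤ := (cl1 y : ZMod (N / l)).valMinAbs with hm
    have h1 : ((m : ℤ) : ZMod (N / l)) = (((y.val / l : ℕ) : ℤ) : ZMod (N / l)) := by
      rw [hm, ZMod.coe_valMinAbs]
      unfold cl1
      rw [Int.cast_natCast]
    have h2 : ((N / l : ℕ) : ℤ) ∣ ((y.val / l : ℕ) : ℤ) - m :=
      (ZMod.intCast_eq_intCast_iff_dvd_sub _ _ _).1 h1
    obtain ⟨k, hk⟩ := h2
    have hNl : (N : ℤ) = l * ((N / l : ℕ) : ℤ) := by
      exact_mod_cast (Nat.mul_div_cancel' hl).symm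
    have h5 := Nat.div_add_mod y.val l
    have h6 := Nat.mod_lt y.val hl0
    have h7 : (y.val : ℤ) - x.val = l * m + (((y.val % l : ℕ) : ℤ) - x.val) + N * k := by
      have e1 : (l : ℤ) * ((y.val / l : ℕ) : ℤ) = (y.val : ℤ) - ((y.val % l : ℕ) : ℤ) := by
        have : ((l * (y.val / l) + y.val % l : ℕ) : ℤ) = (y.val : ℤ) := by exact_mod_cast h5
        push_cast at this
        push_cast
        linarith
      have e2 : (l : ℤ) * ((y.val / l : ℕ) : ℤ) = l * m + N * k := by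
        rw [hNl]
        have : ((y.val / l : ℕ) : ℤ) = m + ((N / l : ℕ) : ℤ) * k := by linarith
        rw [this]
        ring
      linarith
    refine (av_le_of_cast (y := l * m + (((y.val % l : ℕ) : ℤ) - x.val)) ?_).trans ?_
    · have h8 : (((y.val : ℤ) - (x.val : ℤ) : ℤ) : ZMod N) = y - x := by
        rw [Int.cast_sub, Int.cast_natCast, Int.cast_natCast, ZMod.natCast_zmod_val,
          ZMod.natCast_zmod_val]
      rw [← h8, h7]
      push_cast
      rw [ZMod.natCast_self, zero_mul, add_zero]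
    · have h9 : ((l : ℤ) * m + (((y.val % l : ℕ) : ℤ) - (x.val : ℤ))).natAbs ≤
          ((l : ℤ) * m).natAbs + (((y.val % l : ℕ) : ℤ) - (x.val : ℤ)).natAbs :=
        Int.natAbs_add_le _ _
      have h10 : ((l : ℤ) * m).natAbs = l * m.natAbs := by
        rw [Int.natAbs_mul, Int.natAbs_natCast]
      have h11 : (((y.val % l : ℕ) : ℤ) - (x.val : ℤ)).natAbs ≤ l := by
        set a := y.val % l
        set b := x.val
        omega
      have h12 : av (cl1 y : ZMod (N / l)) = m.natAbs := rfl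
      rw [h12]
      omega
  have hu1 : (cl1 u.1 : ZMod (N / l)) = 0 := congrArg Prod.fst hu
  have hu2 : (cl1 u.2 : ZMod (N / l)) = 0 := congrArg Prod.snd hu
  have k1 := key u.1 v.1 hu1
  have k2 := key u.2 v.2 hu2
  rw [sn_eq, sn_eq]
  have e1 : (cl v : V (N / l)).1 = cl1 v.1 := rfl
  have e2 : (cl v : V (N / l)).2 = cl1 v.2 := rfl
  rw [e1, e2, Prod.fst_sub, Prod.snd_sub]
  refine max_le (k1.trans ?_) (k2.trans ?_)
  · exact Nat.add_le_add_right (Nat.mul_le_mul_left _ (le_max_left _ _)) _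
  · exact Nat.add_le_add_right (Nat.mul_le_mul_left _ (le_max_right _ _)) _

/-- exponential moment at the sites from the cells -/
theorem mom_site [NeZero (N / l)] (hl : l ∣ N) (hb : 0 < b) (ht : 0 < t) (hs : 0 < s0 N b t)
    (hκ : 0 ≤ κ) (hm : ∑ z, Sg N l b t 0 z * Real.exp (κ * sn z) ≤ C1) :
    ∑ z, (t • GA N b t) 0 z * Real.exp (κ / l * sn z) ≤ Real.exp κ * C1 := by
  have hlp : (0 : ℝ) < l := by exact_mod_cast H864.l_pos hl
  have hs1 := s0_le_one (N := N) hb.le ht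
  have tU : TI (t • GA N b t) := (ti_GA (N := N) hb.le ht).smul t
  have hU0 : ∀ x y, 0 ≤ (t • GA N b t) x y := (uk_GA (N := N) hb ht).nn
  set U : Matrix (V N) (V N) ℝ := t • GA N b t with hU
  -- cell averages
  have h1 : ∑ y, Gc l U 0 y * Real.exp (κ * sn y) ≤ C1 := by
    have e1 : ∀ y, Gc l U 0 y = s0 N b t * Sg N l b t 0 y := by
      intro y
      unfold Sg
      rw [hU, Matrix.smul_apply, smul_eq_mul]
      have e2 : Gc l (t • GA N b t) = t • Gc l (GA N b t) := by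
        unfold Gc
        rw [Matrix.mul_smul, Matrix.smul_mul]
      rw [e2, Matrix.smul_apply, smul_eq_mul]
      field_simp
    refine le_trans (Finset.sum_le_sum fun y _ => ?_) hm
    rw [e1, mul_assoc]
    refine mul_le_of_le_one_left (mul_nonneg ?_ (Real.exp_pos _).le) hs1
    exact Sg_nonneg hb.le ht hs.le 0 y
  -- each site of the zero cell
  have h2 : ∀ u ∈ univ.filter (fun u : V N => (cl u : V (N / l)) = 0),
      ∑ z, U 0 z * Real.exp (κ / l * sn z) ≤
        Real.exp κ * ∑ v, U u v * Real.exp (κ * sn (cl v : V (N / l))) := by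
    intro u hu
    rw [Finset.mul_sum, ← Equiv.sum_comp (Equiv.subRight u) fun z =>
      U 0 z * Real.exp (κ / l * sn z)]
    refine Finset.sum_le_sum fun v _ => ?_
    simp only [Equiv.subRight_apply]
    rw [← tU.eq u v]
    have k1 := sn_cl' hl (v := v) (Finset.mem_filter.1 hu).2
    have k2 : (sn (v - u) : ℝ) ≤ l * sn (cl v : V (N / l)) + l := by exact_mod_cast k1
    have k3 : Real.exp (κ / l * sn (v - u)) ≤
        Real.exp κ * Real.exp (κ * sn (cl v : V (N / l))) := by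
      rw [← Real.exp_add]
      refine Real.exp_le_exp.2 ?_
      have k4 := mul_le_mul_of_nonneg_left k2 (show 0 ≤ κ / l by positivity)
      refine k4.trans (le_of_eq ?_)
      field_simp
      ring
    calc U u v * Real.exp (κ / l * sn (v - u)) ≤
        U u v * (Real.exp κ * Real.exp (κ * sn (cl v : V (N / l)))) :=
          mul_le_mul_of_nonneg_left k3 (hU0 _ _)
      _ = _ := by ring
  have h3 := Finset.sum_le_sum h2
  rw [Finset.sum_const, nsmul_eq_mul, card_cl hl, ← Finset.mul_sum] at h3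
  have h4 : ∑ u ∈ univ.filter (fun u : V N => (cl u : V (N / l)) = 0),
      ∑ v, U u v * Real.exp (κ * sn (cl v : V (N / l))) =
      (l : ℝ) ^ 2 * ∑ y, Gc l U 0 y * Real.exp (κ * sn y) := by
    rw [H767.sum_Gc U (fun y => Real.exp (κ * sn y)) 0]
    field_simp
  rw [h4] at h3
  have h5 : (l : ℝ) ^ 2 * ∑ z, U 0 z * Real.exp (κ / l * sn z) ≤
      (l : ℝ) ^ 2 * (Real.exp κ * C1) := by
    refine h3.trans ?_
    have := mul_le_mul_of_nonneg_left h1
      (show 0 ≤ Real.exp κ * (l : ℝ) ^ 2 by positivity)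
    linarith
  exact le_of_mul_le_mul_left h5 (by positivity)

end ga

/-! ### the pair of tori -/

section pair

variable {b t c κ C1 δ s d Q S : ℝ}

lemma Gc_U [NeZero (N / l)] (hl : l ∣ N) (hb : 0 < b) (ht : 0 < t) (hs : 0 < s0 N b t)
    (z : V (N / l)) : Gc l (t • GA N b t) 0 z =
      Sk N l b t 0 z - (1 - s0 N b t) * ((l : ℝ) ^ 2 / (N : ℝ) ^ 2) := by
  rw [Sk_split hb.le hl ht hs, Matrix.add_apply, Matrix.smul_apply, Matrix.smul_apply,
    smul_eq_mul, smul_eq_mul]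
  have e1 : Jc N l 0 z = (l : ℝ) ^ 2 / (N : ℝ) ^ 2 := rfl
  have e2 : Gc l (t • GA N b t) = t • Gc l (GA N b t) := by
    unfold Gc
    rw [Matrix.mul_smul, Matrix.smul_mul]
  have e3 : Sg N l b t 0 z = t / s0 N b t * Gc l (GA N b t) 0 z := by
    unfold Sg
    rw [Matrix.smul_apply, smul_eq_mul]
  rw [e1, e2, e3, Matrix.smul_apply, smul_eq_mul]
  field_simp
  ring

/-- the cell closeness of `t GA` -/
theorem cell_close [NeZero (N / l)] [NeZero (N2 / l)] (h : N ∣ N2) (hl : l ∣ N)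
    (h' : N / l ∣ N2 / l) (hb : 0 < b) (ht : 0 < t) (hK : KN N N2 l b t δ s κ C1 d)
    (hd : d < 1) (hQ : ((N2 : ℝ) / N) ^ 2 ≤ Q) (z : V (N / l)) :
    |Gc l (t • GA N b t) 0 z -
      ∑ z2 ∈ univ.filter (fun z2 : V (N2 / l) => prj h' z2 = z), Gc l (t • GA N2 b t) 0 z2| ≤
      δ * (1 + Q) + d * ((l : ℝ) ^ 2 / (N : ℝ) ^ 2) := by
  have hl2 : l ∣ N2 := hl.trans h
  have hlp : (0 : ℝ) < l := by exact_mod_cast H864.l_pos hl
  have hNp : (0 : ℝ) < N := by exact_mod_cast NeZero.pos N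
  have hN2p : (0 : ℝ) < N2 := by exact_mod_cast NeZero.pos N2
  have a1 := hK.lowN
  have a2 := hK.lowM
  have b1 := s0_le_one (N := N) hb.le ht
  have b2 := s0_le_one (N := N2) hb.le ht
  have hs1 : 0 < s0 N b t := by linarith
  have hs2 : 0 < s0 N2 b t := by linarith
  have hδ : 0 ≤ δ := hK.δ0 hb.le hl ht
  have hf := hK.fib h' hb.le hl hl2 ht z
  have hQ' : δ * (1 + (N2 : ℝ) ^ 2 / (N : ℝ) ^ 2) ≤ δ * (1 + Q) := by
    refine mul_le_mul_of_nonneg_left ?_ hδ
    rw [← div_pow]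
    linarith
  rw [Gc_U hl hb ht hs1]
  have e1 : ∑ z2 ∈ univ.filter (fun z2 : V (N2 / l) => prj h' z2 = z),
      Gc l (t • GA N2 b t) 0 z2 =
      ∑ z2 ∈ univ.filter (fun z2 : V (N2 / l) => prj h' z2 = z), Sk N2 l b t 0 z2 -
        (1 - s0 N2 b t) * ((l : ℝ) ^ 2 / (N : ℝ) ^ 2) := by
    rw [Finset.sum_congr rfl fun z2 _ => Gc_U hl2 hb ht hs2 z2, Finset.sum_sub_distrib,
      Finset.sum_const, nsmul_eq_mul, card_fib h' z]
    congr 1
    have k1 : (((N2 / l : ℕ) : ℝ) / ((N / l : ℕ) : ℝ)) = (N2 : ℝ) / N := by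
      rw [Nat.cast_div hl2 hlp.ne', Nat.cast_div hl hlp.ne']
      field_simp
    rw [k1]
    field_simp
  rw [e1]
  obtain ⟨f1, f2⟩ := abs_le.1 hf
  have hlN : 0 < (l : ℝ) ^ 2 / (N : ℝ) ^ 2 := by positivity
  have g1 : (s0 N2 b t - s0 N b t) * ((l : ℝ) ^ 2 / (N : ℝ) ^ 2) ≤
      d * ((l : ℝ) ^ 2 / (N : ℝ) ^ 2) := mul_le_mul_of_nonneg_right (by linarith) hlN.le
  have g2 : -(d * ((l : ℝ) ^ 2 / (N : ℝ) ^ 2)) ≤
      (s0 N2 b t - s0 N b t) * ((l : ℝ) ^ 2 / (N : ℝ) ^ 2) := by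
    rw [← neg_mul]
    exact mul_le_mul_of_nonneg_right (by linarith) hlN.le
  rw [abs_le]
  constructor <;> nlinarith

/-- the `ℓ²` number -/
def e2q (N l : ℕ) (t c Q S δ d : ℝ) : ℝ :=
  (2 * ((N : ℝ) / (l : ℝ) ^ 2) ^ 2 * (δ * (1 + Q) + d * ((l : ℝ) ^ 2 / (N : ℝ) ^ 2)) ^ 2 +
    32 * ((l : ℝ) ^ 2 * t ^ 2 * S * (1 + Q) / c)) / t

/-- **the data of two tori of the model** -/
theorem nrq_kn [NeZero (N / l)] [NeZero (N2 / l)] (h : N ∣ N2) (hl : l ∣ N)
    (h' : N / l ∣ N2 / l) (hb : 0 < b) (ht : 0 < t) (hA : Dom (Anm N b t) t c)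
    (hA2 : Dom (Anm N2 b t) t c) (hK : KN N N2 l b t δ s κ C1 d) (hκ : 0 < κ)
    (hd : d < 1) (hQ : ((N2 : ℝ) / N) ^ 2 ≤ Q) (hS1 : sS N t c ≤ S) (hS2 : sS N2 t c ≤ S) :
    Nrq h (Anm N b t) (t • GA N b t) (Anm N2 b t) (t • GA N2 b t) t c (κ / l / 2)
      (Real.exp κ * C1) Q (S * (Real.exp κ * C1)) (e2q N l t c Q S δ d) := by
  have hl2 : l ∣ N2 := hl.trans h
  have hlp : (0 : ℝ) < l := by exact_mod_cast H864.l_pos hl
  have hc := hA.hc
  have hQ0 : 0 ≤ Q := le_trans (by positivity) hQ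
  have hS0 : 0 ≤ S := (sS_nonneg ht hc).trans hS1
  have a2 := hK.lowM
  have hs2 : 0 < s0 N2 b t := by linarith
  have u1 := uk_GA (N := N) hb ht
  have u2 := uk_GA (N := N2) hb ht
  have d1 : (t • GA N b t) 0 0 ≤ t * S :=
    (diag_le u1.ti ht hc fun k => (u1.sym_bd hA k).2).trans (mul_le_mul_of_nonneg_left hS1 ht.le)
  have d2 : (t • GA N2 b t) 0 0 ≤ t * S :=
    (diag_le u2.ti ht hc fun k => (u2.sym_bd hA2 k).2).trans
      (mul_le_mul_of_nonneg_left hS2 ht.le)
  have hm := mom_site (N := N2) hl2 hb ht hs2 hκ.le hK.momM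
  have hle : ∀ z : V N2, Real.exp (κ / l / 2 * sn z) ≤ Real.exp (κ / l * sn z) := by
    intro z
    refine Real.exp_le_exp.2 (mul_le_mul_of_nonneg_right ?_ (Nat.cast_nonneg _))
    have : 0 < κ / l := by positivity
    linarith
  refine ⟨hA, hA2, u1, u2, by positivity, hQ, ?_, ?_, ?_, ?_⟩
  · unfold e2q
    positivity
  · refine le_trans (Finset.sum_le_sum fun z _ => ?_) hm
    exact mul_le_mul_of_nonneg_left (hle z) (u2.nn 0 z)
  · have k1 : ∀ z, ((t • GA N2 b t) 0 z * Real.exp (κ / l / 2 * sn z)) ^ 2 ≤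
        t * S * ((t • GA N2 b t) 0 z * Real.exp (κ / l * sn z)) := by
      intro z
      have k2 := u2.nn 0 z
      have k3 : (t • GA N2 b t) 0 z ≤ t * S :=
        (le_diag u2.ti (fun k => (u2.sym_bd hA2 k).1) z).trans d2
      have k4 : Real.exp (κ / l / 2 * sn z) ^ 2 = Real.exp (κ / l * sn z) := by
        rw [pow_two, ← Real.exp_add]
        congr 1
        ring
      rw [mul_pow, k4, pow_two, mul_assoc]
      exact mul_le_mul_of_nonneg_right k3 (mul_nonneg k2 (Real.exp_pos _).le)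
    refine (Finset.sum_le_sum fun z _ => k1 z).trans ?_
    rw [← Finset.mul_sum, ← mul_assoc t S]
    exact mul_le_mul_of_nonneg_left hm (mul_nonneg ht.le hS0)
  · refine (dl2_cells h hl h' hA hA2 u1 u2 hQ d1 d2
      (fun z => cell_close h hl h' hb ht hK hd hQ z)).trans (le_of_eq ?_)
    unfold e2q
    rw [mul_div_cancel₀ _ ht.ne']

end pair

end

end Vale.Agent.P159.H708
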