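import Vale.Agent.P159.H708.Wl13
import Vale.Agent.P159.H640.Dt16

/-!
P159 / H708 (module WL), part 14: the numbers of the window comparison as powers of a small
parameter `e`.
-/

set_option linter.unusedSectionVars false

namespace Vale.Agent.P159.H708

open Vale.Agent.P159.H640 (sm_rpow sm_exp)

noncomputable section

/-- the root of the number of sites in the series -/
def mE (θ e : ℝ) : ℕ := ⌈e ^ (-(6 * θ))⌉₊

lemma mE_bd {θ e : ℝ} (hθ : 0 < θ) (he : 0 < e) (he1 : e ≤ 1) :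
    1 ≤ mE θ e ∧ e ^ (-(6 * θ)) ≤ (mE θ e : ℝ) ∧
      ((2 * mE θ e + 1 : ℕ) : ℝ) ≤ 5 * e ^ (-(6 * θ)) := by
  have h1 : 1 ≤ e ^ (-(6 * θ)) :=
    Real.one_le_rpow_of_pos_of_le_one_of_nonpos he he1 (by linarith)
  have h2 : e ^ (-(6 * θ)) ≤ (mE θ e : ℝ) := Nat.le_ceil _
  have h3 : (mE θ e : ℝ) < e ^ (-(6 * θ)) + 1 := Nat.ceil_lt_add_one (by linarith)
  refine ⟨?_, h2, ?_⟩
  · have : (1 : ℝ) ≤ (mE θ e : ℝ) := h1.trans h2
    exact_mod_cast this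
  · push_cast
    linarith

/-- products of powers -/
lemma rp_mul {e : ℝ} (he : 0 < e) (x y : ℝ) : e ^ x * e ^ y = e ^ (x + y) :=
  (Real.rpow_add he x y).symm

/-- the exponentially small number -/
lemma eQ_small {c0 C1 θ : ℝ} (hc0 : 0 < c0) (hθ : 0 < θ) (q : ℝ) :
    ∃ E0 : ℝ, 0 < E0 ∧ ∀ e : ℝ, 0 < e → e ≤ E0 → ∀ κ₀ : ℝ, c0 ≤ κ₀ →
      eQ κ₀ C1 (e ^ (-(4 * θ))) (mE θ e) ≤ 4 * Real.exp (C1 + 1) * e ^ q := by
  obtain ⟨e1, he1, n1⟩ := sm_exp (c := c0 / (4 * √5)) (th := θ) (q := q) (by positivity) hθ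
  refine ⟨min 1 e1, by positivity, ?_⟩
  intro e he hle κ₀ hκ
  simp only [le_min_iff] at hle
  obtain ⟨g0, g1⟩ := hle
  have f1 := n1 e he g1
  obtain ⟨m1, -, m3⟩ := mE_bd hθ he g0
  unfold eQ
  refine mul_le_mul_of_nonneg_left (le_trans (Real.exp_le_exp.2 (neg_le_neg ?_)) f1)
    (by positivity)
  have h1 : √((2 * mE θ e + 1 : ℕ) : ℝ) ≤ √5 * e ^ (-(3 * θ)) := by
    have h2 : √5 * e ^ (-(3 * θ)) = √(5 * e ^ (-(6 * θ))) := by
      rw [Real.sqrt_mul (by norm_num), Real.sqrt_eq_rpow (e ^ (-(6 * θ))),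
        ← Real.rpow_mul he.le]
      congr 2
      ring
    rw [h2]
    exact Real.sqrt_le_sqrt m3
  have h3 : 0 < √((2 * mE θ e + 1 : ℕ) : ℝ) := Real.sqrt_pos.2 (by positivity)
  have h4 : 0 < e ^ (-(3 * θ)) := Real.rpow_pos_of_pos he _
  have h5 : (0 : ℝ) < √5 := Real.sqrt_pos.2 (by norm_num)
  have h6 : e ^ (-(4 * θ)) = e ^ (-θ) * e ^ (-(3 * θ)) := by
    rw [rp_mul he]
    congr 1
    ring
  have h7 : 0 ≤ e ^ (-θ) := Real.rpow_nonneg he.le _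
  rw [le_div_iff₀ (by positivity)]
  calc c0 / (4 * √5) * e ^ (-θ) * (4 * √((2 * mE θ e + 1 : ℕ) : ℝ))
      ≤ c0 / (4 * √5) * e ^ (-θ) * (4 * (√5 * e ^ (-(3 * θ)))) := by
        refine mul_le_mul_of_nonneg_left ?_ (by positivity)
        linarith
    _ = c0 * e ^ (-(4 * θ)) := by
        rw [h6]
        field_simp
    _ ≤ κ₀ * e ^ (-(4 * θ)) := mul_le_mul_of_nonneg_right hκ (Real.rpow_nonneg he.le _)

/-- **the numbers of `hB_num` as powers of `e`** -/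
theorem par_num {c c0 C1 Cη CQ CB ρ1 v An θ : ℝ} (hc : 0 < c) (hc0 : 0 < c0)
    (hCη : 0 ≤ Cη) (hCQ : 0 ≤ CQ) (hCB : 0 ≤ CB) (hρ : 0 ≤ ρ1) (hAn : 0 ≤ An) (hθ : 0 < θ)
    (hv : 3 * ρ1 + An / 2 + 15 * θ < v) :
    ∃ E0 : ℝ, 0 < E0 ∧ ∀ e : ℝ, 0 < e → e ≤ E0 → ∀ η2 Q B2 κ₀ : ℝ, 0 ≤ η2 →
      η2 ≤ Cη * e ^ (2 * v - 4 * ρ1) → 0 ≤ Q → Q ≤ CQ * e ^ (-(2 * ρ1)) → 0 ≤ B2 →
      B2 ≤ CB * e ^ (-An) → c0 ≤ κ₀ →
      ∃ σ : ℝ, 0 ≤ σ ∧ η2 * (2 * Q * B2 + 2 * η2) ≤ σ ^ 2 ∧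
        360 * (2 * e ^ (-θ)) ^ 2 * (η2 + Q * B2 * Real.exp (-(κ₀ * e ^ (-(4 * θ))))) ≤
          (e ^ θ) ^ 2 / 2 ∧
        57 * (2 * e ^ (-θ)) ^ 2 * (4 * ((2 * mE θ e + 1 : ℕ) * ((2 * mE θ e + 1 : ℕ) * σ +
          Q * B2 * eQ κ₀ C1 (e ^ (-(4 * θ))) (mE θ e))) +
          20 * (2 * e ^ (-θ)) ^ 2 / (mE θ e * c ^ 2)) ≤ e ^ θ := by
  obtain ⟨Cσ, hCσ⟩ : ∃ Cσ, Cσ = Cη + (2 * CQ * CB + 2 * Cη) := ⟨_, rfl⟩
  have hCσ0 : 0 ≤ Cσ := by rw [hCσ]; positivity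
  have hvθ : 0 < v - 3 * ρ1 - An / 2 - 15 * θ := by linarith
  obtain ⟨e1, he1, n1⟩ := sm_rpow (s := 2 * v - 4 * ρ1 - 4 * θ) (A := 5760 * Cη) (B := 1)
    (by linarith) one_pos
  obtain ⟨e2, he2, n2⟩ := sm_exp (c := c0) (th := 4 * θ) (q := 2 * ρ1 + An + 5 * θ) hc0
    (by positivity)
  obtain ⟨e3, he3, n3⟩ := sm_rpow (s := θ) (A := 5760 * (CQ * CB)) (B := 1) hθ one_pos
  obtain ⟨e4, he4, n4⟩ := sm_rpow (s := v - 3 * ρ1 - An / 2 - 15 * θ) (A := 68400 * Cσ) (B := 1)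
    hvθ one_pos
  obtain ⟨e5, he5, n5⟩ := eQ_small (c0 := c0) (C1 := C1) (θ := θ) hc0 hθ
    (2 * ρ1 + An + 10 * θ)
  obtain ⟨e6, he6, n6⟩ := sm_rpow (s := θ) (A := 13680 * (CQ * CB) * (4 * Real.exp (C1 + 1)))
    (B := 1) hθ one_pos
  obtain ⟨e7, he7, n7⟩ := sm_rpow (s := θ) (A := 54720 / c ^ 2) (B := 1) hθ one_pos
  refine ⟨min 1 (min e1 (min e2 (min e3 (min e4 (min e5 (min e6 e7)))))), by positivity, ?_⟩
  intro e he hle η2 Q B2 κ₀ hη0 hη hQ0 hQ hB0 hB hκ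
  simp only [le_min_iff] at hle
  obtain ⟨g0, g1, g2, g3, g4, g5, g6, g7⟩ := hle
  have f1 := n1 e he g1
  have f2 := n2 e he g2
  have f3 := n3 e he g3
  have f4 := n4 e he g4
  have f5 := n5 e he g5 κ₀ hκ
  have f6 := n6 e he g6
  have f7 := n7 e he g7
  clear n1 n2 n3 n4 n5 n6 n7
  obtain ⟨m1, m2, m3⟩ := mE_bd hθ he g0
  have P : ∀ x : ℝ, 0 < e ^ x := fun x => Real.rpow_pos_of_pos he x
  have hQB0 : 0 ≤ Q * B2 := mul_nonneg hQ0 hB0
  have hQB : Q * B2 ≤ CQ * CB * e ^ (-(2 * ρ1) - An) := by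
    calc Q * B2 ≤ (CQ * e ^ (-(2 * ρ1))) * (CB * e ^ (-An)) :=
          mul_le_mul hQ hB hB0 (mul_nonneg hCQ (P _).le)
      _ = CQ * CB * (e ^ (-(2 * ρ1)) * e ^ (-An)) := by ring
      _ = _ := by
          rw [rp_mul he]
          congr 2
  have hK2 : (2 * e ^ (-θ)) ^ 2 = 4 * e ^ (-(2 * θ)) := by
    have h1 : e ^ (-(2 * θ)) = e ^ (-θ) * e ^ (-θ) := by
      rw [rp_mul he]
      congr 1
      ring
    rw [h1]
    ring
  have hδ2 : (e ^ θ) ^ 2 = e ^ (2 * θ) := by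
    have h1 : e ^ (2 * θ) = e ^ θ * e ^ θ := by
      rw [rp_mul he]
      congr 1
      ring
    rw [h1]
    ring
  refine ⟨Cσ * e ^ (v - 3 * ρ1 - An / 2), mul_nonneg hCσ0 (P _).le, ?_, ?_, ?_⟩
  · -- `σ`
    have h1 : 2 * Q * B2 + 2 * η2 ≤ (2 * CQ * CB + 2 * Cη) * e ^ (-(2 * ρ1) - An) := by
      have h2 : η2 ≤ Cη * e ^ (-(2 * ρ1) - An) :=
        hη.trans (mul_le_mul_of_nonneg_left
          (Real.rpow_le_rpow_of_exponent_ge he g0 (by linarith)) hCη)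
      calc 2 * Q * B2 + 2 * η2 = 2 * (Q * B2) + 2 * η2 := by ring
        _ ≤ 2 * (CQ * CB * e ^ (-(2 * ρ1) - An)) + 2 * (Cη * e ^ (-(2 * ρ1) - An)) := by
            linarith
        _ = _ := by ring
    have h3 : Cη * (2 * CQ * CB + 2 * Cη) ≤ Cσ ^ 2 := by
      rw [hCσ]
      have h4 : 0 ≤ 2 * CQ * CB + 2 * Cη := by positivity
      nlinarith [sq_nonneg Cη, sq_nonneg (2 * CQ * CB + 2 * Cη), mul_nonneg hCη h4]
    calc η2 * (2 * Q * B2 + 2 * η2)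
        ≤ (Cη * e ^ (2 * v - 4 * ρ1)) * ((2 * CQ * CB + 2 * Cη) * e ^ (-(2 * ρ1) - An)) :=
          mul_le_mul hη h1 (by positivity) (mul_nonneg hCη (P _).le)
      _ = Cη * (2 * CQ * CB + 2 * Cη) * (e ^ (2 * v - 4 * ρ1) * e ^ (-(2 * ρ1) - An)) := by ring
      _ = Cη * (2 * CQ * CB + 2 * Cη) * (e ^ (v - 3 * ρ1 - An / 2)) ^ 2 := by
          congr 1
          rw [pow_two, rp_mul he, rp_mul he]
          congr 1
          ring
      _ ≤ Cσ ^ 2 * (e ^ (v - 3 * ρ1 - An / 2)) ^ 2 :=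
          mul_le_mul_of_nonneg_right h3 (by positivity)
      _ = _ := by ring
  · -- h1
    have a1 : 360 * (2 * e ^ (-θ)) ^ 2 * η2 ≤ e ^ (2 * θ) / 4 := by
      rw [hK2]
      calc 360 * (4 * e ^ (-(2 * θ))) * η2
          ≤ 360 * (4 * e ^ (-(2 * θ))) * (Cη * e ^ (2 * v - 4 * ρ1)) :=
            mul_le_mul_of_nonneg_left hη (by positivity)
        _ = 5760 * Cη * (e ^ (-(2 * θ)) * e ^ (2 * v - 4 * ρ1)) / 4 := by ring
        _ = 5760 * Cη * (e ^ (2 * v - 4 * ρ1 - 4 * θ) * e ^ (2 * θ)) / 4 := by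
            congr 2
            rw [rp_mul he, rp_mul he]
            congr 1
            ring
        _ = (5760 * Cη * e ^ (2 * v - 4 * ρ1 - 4 * θ)) * e ^ (2 * θ) / 4 := by ring
        _ ≤ 1 * e ^ (2 * θ) / 4 := by
            refine div_le_div_of_nonneg_right ?_ (by norm_num)
            exact mul_le_mul_of_nonneg_right f1 (P _).le
        _ = _ := by ring
    have a2 : 360 * (2 * e ^ (-θ)) ^ 2 * (Q * B2 * Real.exp (-(κ₀ * e ^ (-(4 * θ))))) ≤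
        e ^ (2 * θ) / 4 := by
      have h1 : Real.exp (-(κ₀ * e ^ (-(4 * θ)))) ≤ e ^ (2 * ρ1 + An + 5 * θ) := by
        refine le_trans (Real.exp_le_exp.2 (neg_le_neg ?_)) f2
        exact mul_le_mul_of_nonneg_right hκ (P _).le
      rw [hK2]
      calc 360 * (4 * e ^ (-(2 * θ))) * (Q * B2 * Real.exp (-(κ₀ * e ^ (-(4 * θ)))))
          ≤ 360 * (4 * e ^ (-(2 * θ))) *
            ((CQ * CB * e ^ (-(2 * ρ1) - An)) * e ^ (2 * ρ1 + An + 5 * θ)) := by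
            refine mul_le_mul_of_nonneg_left ?_ (by positivity)
            exact mul_le_mul hQB h1 (Real.exp_pos _).le (by positivity)
        _ = 5760 * (CQ * CB) * (e ^ (-(2 * θ)) * (e ^ (-(2 * ρ1) - An) *
            e ^ (2 * ρ1 + An + 5 * θ))) / 4 := by ring
        _ = 5760 * (CQ * CB) * (e ^ θ * e ^ (2 * θ)) / 4 := by
            congr 2
            rw [rp_mul he, rp_mul he, rp_mul he]
            congr 1
            ring
        _ = (5760 * (CQ * CB) * e ^ θ) * e ^ (2 * θ) / 4 := by ring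
        _ ≤ 1 * e ^ (2 * θ) / 4 := by
            refine div_le_div_of_nonneg_right ?_ (by norm_num)
            exact mul_le_mul_of_nonneg_right f3 (P _).le
        _ = _ := by ring
    rw [hδ2, mul_add]
    linarith
  · -- h2
    set T : ℝ := ((2 * mE θ e + 1 : ℕ) : ℝ) with hT
    have hT0 : 0 ≤ T := Nat.cast_nonneg _
    have hT2 : T * T ≤ 25 * e ^ (-(12 * θ)) := by
      calc T * T ≤ (5 * e ^ (-(6 * θ))) * (5 * e ^ (-(6 * θ))) :=
            mul_le_mul m3 m3 hT0 (by positivity)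
        _ = 25 * (e ^ (-(6 * θ)) * e ^ (-(6 * θ))) := by ring
        _ = _ := by
            rw [rp_mul he]
            congr 2
            ring
    have b1 : 57 * (2 * e ^ (-θ)) ^ 2 * (4 * (T * (T * (Cσ * e ^ (v - 3 * ρ1 - An / 2))))) ≤
        e ^ θ / 3 := by
      rw [hK2]
      calc 57 * (4 * e ^ (-(2 * θ))) * (4 * (T * (T * (Cσ * e ^ (v - 3 * ρ1 - An / 2)))))
          = 912 * e ^ (-(2 * θ)) * (Cσ * e ^ (v - 3 * ρ1 - An / 2)) * (T * T) := by ring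
        _ ≤ 912 * e ^ (-(2 * θ)) * (Cσ * e ^ (v - 3 * ρ1 - An / 2)) *
            (25 * e ^ (-(12 * θ))) := mul_le_mul_of_nonneg_left hT2 (by positivity)
        _ = 68400 * Cσ * (e ^ (-(2 * θ)) * e ^ (v - 3 * ρ1 - An / 2) * e ^ (-(12 * θ))) / 3 := by
            ring
        _ = 68400 * Cσ * (e ^ (v - 3 * ρ1 - An / 2 - 15 * θ) * e ^ θ) / 3 := by
            congr 2
            rw [rp_mul he, rp_mul he, rp_mul he]
            congr 1
            ring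
        _ = (68400 * Cσ * e ^ (v - 3 * ρ1 - An / 2 - 15 * θ)) * e ^ θ / 3 := by ring
        _ ≤ 1 * e ^ θ / 3 := by
            refine div_le_div_of_nonneg_right ?_ (by norm_num)
            exact mul_le_mul_of_nonneg_right f4 (P _).le
        _ = _ := by ring
    have b2 : 57 * (2 * e ^ (-θ)) ^ 2 *
        (4 * (T * (Q * B2 * eQ κ₀ C1 (e ^ (-(4 * θ))) (mE θ e)))) ≤ e ^ θ / 3 := by
      rw [hK2]
      have h1 : Q * B2 * eQ κ₀ C1 (e ^ (-(4 * θ))) (mE θ e) ≤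
          (CQ * CB * e ^ (-(2 * ρ1) - An)) *
            (4 * Real.exp (C1 + 1) * e ^ (2 * ρ1 + An + 10 * θ)) :=
        mul_le_mul hQB f5 (eQ_nonneg _ _ _ _) (by positivity)
      calc 57 * (4 * e ^ (-(2 * θ))) * (4 * (T * (Q * B2 * eQ κ₀ C1 (e ^ (-(4 * θ))) (mE θ e))))
          ≤ 57 * (4 * e ^ (-(2 * θ))) * (4 * (5 * e ^ (-(6 * θ)) *
            ((CQ * CB * e ^ (-(2 * ρ1) - An)) *
              (4 * Real.exp (C1 + 1) * e ^ (2 * ρ1 + An + 10 * θ))))) := by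
            refine mul_le_mul_of_nonneg_left ?_ (by positivity)
            refine mul_le_mul_of_nonneg_left ?_ (by norm_num)
            exact mul_le_mul m3 h1 (mul_nonneg hQB0 (eQ_nonneg _ _ _ _)) (by positivity)
        _ = 13680 * (CQ * CB) * (4 * Real.exp (C1 + 1)) * (e ^ (-(2 * θ)) * (e ^ (-(6 * θ)) *
            (e ^ (-(2 * ρ1) - An) * e ^ (2 * ρ1 + An + 10 * θ)))) / 3 := by ring
        _ = 13680 * (CQ * CB) * (4 * Real.exp (C1 + 1)) * (e ^ θ * e ^ θ) / 3 := by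
            congr 2
            rw [rp_mul he, rp_mul he, rp_mul he, rp_mul he]
            congr 1
            ring
        _ = (13680 * (CQ * CB) * (4 * Real.exp (C1 + 1)) * e ^ θ) * e ^ θ / 3 := by ring
        _ ≤ 1 * e ^ θ / 3 := by
            refine div_le_div_of_nonneg_right ?_ (by norm_num)
            exact mul_le_mul_of_nonneg_right f6 (P _).le
        _ = _ := by ring
    have b3 : 57 * (2 * e ^ (-θ)) ^ 2 * (20 * (2 * e ^ (-θ)) ^ 2 / (mE θ e * c ^ 2)) ≤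
        e ^ θ / 3 := by
      rw [hK2]
      have h0 := P (-(6 * θ))
      have h1 : 20 * (4 * e ^ (-(2 * θ))) / (mE θ e * c ^ 2) ≤
          20 * (4 * e ^ (-(2 * θ))) / (e ^ (-(6 * θ)) * c ^ 2) := by
        refine div_le_div_of_nonneg_left (by positivity) (by positivity) ?_
        exact mul_le_mul_of_nonneg_right m2 (by positivity)
      have h2 : (e ^ (-(6 * θ)))⁻¹ = e ^ (6 * θ) := by
        rw [← Real.rpow_neg he.le, neg_neg]
      calc 57 * (4 * e ^ (-(2 * θ))) * (20 * (4 * e ^ (-(2 * θ))) / (mE θ e * c ^ 2))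
          ≤ 57 * (4 * e ^ (-(2 * θ))) *
            (20 * (4 * e ^ (-(2 * θ))) / (e ^ (-(6 * θ)) * c ^ 2)) :=
            mul_le_mul_of_nonneg_left h1 (by positivity)
        _ = 54720 / c ^ 2 * (e ^ (-(2 * θ)) * (e ^ (-(2 * θ)) * (e ^ (-(6 * θ)))⁻¹)) / 3 := by
            field_simp
            ring
        _ = 54720 / c ^ 2 * (e ^ θ * e ^ θ) / 3 := by
            congr 2
            rw [h2, rp_mul he, rp_mul he, rp_mul he]
            congr 1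
            ring
        _ = (54720 / c ^ 2 * e ^ θ) * e ^ θ / 3 := by ring
        _ ≤ 1 * e ^ θ / 3 := by
            refine div_le_div_of_nonneg_right ?_ (by norm_num)
            exact mul_le_mul_of_nonneg_right f7 (P _).le
        _ = _ := by ring
    calc 57 * (2 * e ^ (-θ)) ^ 2 * (4 * (T * (T * (Cσ * e ^ (v - 3 * ρ1 - An / 2)) +
          Q * B2 * eQ κ₀ C1 (e ^ (-(4 * θ))) (mE θ e))) +
          20 * (2 * e ^ (-θ)) ^ 2 / (mE θ e * c ^ 2))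
        = 57 * (2 * e ^ (-θ)) ^ 2 * (4 * (T * (T * (Cσ * e ^ (v - 3 * ρ1 - An / 2))))) +
          57 * (2 * e ^ (-θ)) ^ 2 *
            (4 * (T * (Q * B2 * eQ κ₀ C1 (e ^ (-(4 * θ))) (mE θ e)))) +
          57 * (2 * e ^ (-θ)) ^ 2 * (20 * (2 * e ^ (-θ)) ^ 2 / (mE θ e * c ^ 2)) := by ring
      _ ≤ e ^ θ := by linarith

end

end Vale.Agent.P159.H708
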