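import Vale.Agent.P159.H708.Wl14

/-!
P159 / H708 (module WL), part 15: the numbers of the window comparison, general exponents
`a` (window radius `e ^ (-a) ξ`), `r` (distance `e ^ (-r) ξ`), `d` (Hilbert-Schmidt number
`e ^ d`), root of the number of sites `e ^ (-μ)`, `μ = 4 a + 2 d`.
-/

set_option linter.unusedSectionVars false

namespace Vale.Agent.P159.H708

open Vale.Agent.P159.H640 (sm_rpow sm_exp)

noncomputable section

/-- the root of the number of sites in the series -/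
def mP (μ e : ℝ) : ℕ := ⌈e ^ (-μ)⌉₊

lemma mP_bd {μ e : ℝ} (hμ : 0 ≤ μ) (he : 0 < e) (he1 : e ≤ 1) :
    1 ≤ mP μ e ∧ e ^ (-μ) ≤ (mP μ e : ℝ) ∧ ((2 * mP μ e + 1 : ℕ) : ℝ) ≤ 5 * e ^ (-μ) := by
  have h1 : 1 ≤ e ^ (-μ) :=
    Real.one_le_rpow_of_pos_of_le_one_of_nonpos he he1 (by linarith)
  have h2 : e ^ (-μ) ≤ (mP μ e : ℝ) := Nat.le_ceil _
  have h3 : (mP μ e : ℝ) < e ^ (-μ) + 1 := Nat.ceil_lt_add_one (by linarith)
  refine ⟨?_, h2, ?_⟩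
  · have : (1 : ℝ) ≤ (mP μ e : ℝ) := h1.trans h2
    exact_mod_cast this
  · push_cast
    linarith

/-- the exponentially small number -/
lemma eQ_small2 {c0 C1 μ r : ℝ} (hc0 : 0 < c0) (hμ : 0 ≤ μ) (hr : μ / 2 < r) (q : ℝ) :
    ∃ E0 : ℝ, 0 < E0 ∧ ∀ e : ℝ, 0 < e → e ≤ E0 → ∀ κ₀ : ℝ, c0 ≤ κ₀ →
      eQ κ₀ C1 (e ^ (-r)) (mP μ e) ≤ 4 * Real.exp (C1 + 1) * e ^ q := by
  obtain ⟨e1, he1, n1⟩ := sm_exp (c := c0 / (4 * √5)) (th := r - μ / 2) (q := q) (by positivity)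
    (by linarith)
  refine ⟨min 1 e1, by positivity, ?_⟩
  intro e he hle κ₀ hκ
  simp only [le_min_iff] at hle
  obtain ⟨g0, g1⟩ := hle
  have f1 := n1 e he g1
  obtain ⟨m1, -, m3⟩ := mP_bd hμ he g0
  unfold eQ
  refine mul_le_mul_of_nonneg_left (le_trans (Real.exp_le_exp.2 (neg_le_neg ?_)) f1)
    (by positivity)
  have h1 : √((2 * mP μ e + 1 : ℕ) : ℝ) ≤ √5 * e ^ (-(μ / 2)) := by
    have h2 : √5 * e ^ (-(μ / 2)) = √(5 * e ^ (-μ)) := by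
      rw [Real.sqrt_mul (by norm_num), Real.sqrt_eq_rpow (e ^ (-μ)),
        ← Real.rpow_mul he.le]
      congr 2
      ring
    rw [h2]
    exact Real.sqrt_le_sqrt m3
  have h3 : 0 < √((2 * mP μ e + 1 : ℕ) : ℝ) := Real.sqrt_pos.2 (by positivity)
  have h4 : 0 < e ^ (-(μ / 2)) := Real.rpow_pos_of_pos he _
  have h5 : (0 : ℝ) < √5 := Real.sqrt_pos.2 (by norm_num)
  have h6 : e ^ (-r) = e ^ (-(r - μ / 2)) * e ^ (-(μ / 2)) := by
    rw [rp_mul he]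
    congr 1
    ring
  have h7 : 0 ≤ e ^ (-(r - μ / 2)) := Real.rpow_nonneg he.le _
  rw [le_div_iff₀ (by positivity)]
  calc c0 / (4 * √5) * e ^ (-(r - μ / 2)) * (4 * √((2 * mP μ e + 1 : ℕ) : ℝ))
      ≤ c0 / (4 * √5) * e ^ (-(r - μ / 2)) * (4 * (√5 * e ^ (-(μ / 2)))) := by
        refine mul_le_mul_of_nonneg_left ?_ (by positivity)
        linarith
    _ = c0 * e ^ (-r) := by
        rw [h6]
        field_simp
    _ ≤ κ₀ * e ^ (-r) := mul_le_mul_of_nonneg_right hκ (Real.rpow_nonneg he.le _)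

section three

variable {e a d μ r ρ1 An v c Cη CQ CB Cσ C1 η2 Q B2 κ₀ T M E3 : ℝ}

/-- first number -/
lemma pn1 (he : 0 < e) (hη0 : η2 ≤ Cη * e ^ (2 * v)) (hQB0 : 0 ≤ Q * B2)
    (hQB : Q * B2 ≤ CQ * CB * e ^ (-(2 * ρ1) - An)) (hC : 0 ≤ CQ * CB)
    (hE0 : 0 ≤ E3) (hE : E3 ≤ e ^ (2 * ρ1 + An + 2 * a + 3 * d))
    (f1 : 5760 * Cη * e ^ (2 * v - 2 * a - 2 * d) ≤ 1)
    (f3 : 5760 * (CQ * CB) * e ^ d ≤ 1) :
    360 * (2 * e ^ (-a)) ^ 2 * (η2 + Q * B2 * E3) ≤ (e ^ d) ^ 2 / 2 := by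
  have P : ∀ x : ℝ, 0 < e ^ x := fun x => Real.rpow_pos_of_pos he x
  have hK2 : (2 * e ^ (-a)) ^ 2 = 4 * e ^ (-(2 * a)) := by
    have h1 : e ^ (-(2 * a)) = e ^ (-a) * e ^ (-a) := by
      rw [rp_mul he]
      congr 1
      ring
    rw [h1]
    ring
  have hδ2 : (e ^ d) ^ 2 = e ^ (2 * d) := by
    have h1 : e ^ (2 * d) = e ^ d * e ^ d := by
      rw [rp_mul he]
      congr 1
      ring
    rw [h1]
    ring
  have p1 := P (-(2 * a))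
  have a1 : 360 * (2 * e ^ (-a)) ^ 2 * η2 ≤ e ^ (2 * d) / 4 := by
    rw [hK2]
    calc 360 * (4 * e ^ (-(2 * a))) * η2
        ≤ 360 * (4 * e ^ (-(2 * a))) * (Cη * e ^ (2 * v)) :=
          mul_le_mul_of_nonneg_left hη0 (by positivity)
      _ = 5760 * Cη * (e ^ (-(2 * a)) * e ^ (2 * v)) / 4 := by ring
      _ = 5760 * Cη * (e ^ (2 * v - 2 * a - 2 * d) * e ^ (2 * d)) / 4 := by
          congr 2
          rw [rp_mul he, rp_mul he]
          congr 1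
          ring
      _ = (5760 * Cη * e ^ (2 * v - 2 * a - 2 * d)) * e ^ (2 * d) / 4 := by ring
      _ ≤ 1 * e ^ (2 * d) / 4 := by
          refine div_le_div_of_nonneg_right ?_ (by norm_num)
          exact mul_le_mul_of_nonneg_right f1 (P _).le
      _ = _ := by ring
  have a2 : 360 * (2 * e ^ (-a)) ^ 2 * (Q * B2 * E3) ≤ e ^ (2 * d) / 4 := by
    rw [hK2]
    calc 360 * (4 * e ^ (-(2 * a))) * (Q * B2 * E3)
        ≤ 360 * (4 * e ^ (-(2 * a))) *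
          ((CQ * CB * e ^ (-(2 * ρ1) - An)) * e ^ (2 * ρ1 + An + 2 * a + 3 * d)) := by
          refine mul_le_mul_of_nonneg_left ?_ (by positivity)
          exact mul_le_mul hQB hE hE0 (mul_nonneg hC (P _).le)
      _ = 5760 * (CQ * CB) * (e ^ (-(2 * a)) * (e ^ (-(2 * ρ1) - An) *
          e ^ (2 * ρ1 + An + 2 * a + 3 * d))) / 4 := by ring
      _ = 5760 * (CQ * CB) * (e ^ d * e ^ (2 * d)) / 4 := by
          congr 2
          rw [rp_mul he, rp_mul he, rp_mul he]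
          congr 1
          ring
      _ = (5760 * (CQ * CB) * e ^ d) * e ^ (2 * d) / 4 := by ring
      _ ≤ 1 * e ^ (2 * d) / 4 := by
          refine div_le_div_of_nonneg_right ?_ (by norm_num)
          exact mul_le_mul_of_nonneg_right f3 (P _).le
      _ = _ := by ring
  rw [hδ2, mul_add]
  linarith

/-- second number -/
lemma pn2 (he : 0 < e) (hμ : μ = 4 * a + 2 * d) (hc : 0 < c)
    (hT0 : 0 ≤ T) (hT : T ≤ 5 * e ^ (-μ)) (hM : e ^ (-μ) ≤ M) (hQB0 : 0 ≤ Q * B2)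
    (hQB : Q * B2 ≤ CQ * CB * e ^ (-(2 * ρ1) - An)) (hC : 0 ≤ CQ * CB) (hCσ : 0 ≤ Cσ)
    (hC1 : 0 ≤ C1)
    (hE0 : 0 ≤ E3) (hE : E3 ≤ C1 * e ^ (2 * ρ1 + An + 2 * a + μ + 2 * d))
    (f4 : 68400 * Cσ * e ^ (v - ρ1 - An / 2 - 10 * a - 5 * d) ≤ 1)
    (f6 : 13680 * (CQ * CB) * C1 * e ^ d ≤ 1)
    (f7 : 54720 / c ^ 2 * e ^ d ≤ 1) :
    57 * (2 * e ^ (-a)) ^ 2 * (4 * (T * (T * (Cσ * e ^ (v - ρ1 - An / 2)) + Q * B2 * E3)) +
      20 * (2 * e ^ (-a)) ^ 2 / (M * c ^ 2)) ≤ e ^ d := by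
  have P : ∀ x : ℝ, 0 < e ^ x := fun x => Real.rpow_pos_of_pos he x
  have hK2 : (2 * e ^ (-a)) ^ 2 = 4 * e ^ (-(2 * a)) := by
    have h1 : e ^ (-(2 * a)) = e ^ (-a) * e ^ (-a) := by
      rw [rp_mul he]
      congr 1
      ring
    rw [h1]
    ring
  have p1 := P (-(2 * a))
  have p2 := P (-μ)
  have p3 := P (v - ρ1 - An / 2)
  have hT2 : T * T ≤ 25 * e ^ (-(2 * μ)) := by
    calc T * T ≤ (5 * e ^ (-μ)) * (5 * e ^ (-μ)) := mul_le_mul hT hT hT0 (by positivity)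
      _ = 25 * (e ^ (-μ) * e ^ (-μ)) := by ring
      _ = _ := by
          rw [rp_mul he]
          congr 2
          ring
  have b1 : 57 * (2 * e ^ (-a)) ^ 2 * (4 * (T * (T * (Cσ * e ^ (v - ρ1 - An / 2))))) ≤
      e ^ d / 3 := by
    rw [hK2]
    calc 57 * (4 * e ^ (-(2 * a))) * (4 * (T * (T * (Cσ * e ^ (v - ρ1 - An / 2)))))
        = 912 * e ^ (-(2 * a)) * (Cσ * e ^ (v - ρ1 - An / 2)) * (T * T) := by ring
      _ ≤ 912 * e ^ (-(2 * a)) * (Cσ * e ^ (v - ρ1 - An / 2)) *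
          (25 * e ^ (-(2 * μ))) := mul_le_mul_of_nonneg_left hT2 (by positivity)
      _ = 68400 * Cσ * (e ^ (-(2 * a)) * e ^ (v - ρ1 - An / 2) * e ^ (-(2 * μ))) / 3 := by
          ring
      _ = 68400 * Cσ * (e ^ (v - ρ1 - An / 2 - 10 * a - 5 * d) * e ^ d) / 3 := by
          congr 2
          rw [rp_mul he, rp_mul he, rp_mul he]
          congr 1
          rw [hμ]
          ring
      _ = (68400 * Cσ * e ^ (v - ρ1 - An / 2 - 10 * a - 5 * d)) * e ^ d / 3 := by ring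
      _ ≤ 1 * e ^ d / 3 := by
          refine div_le_div_of_nonneg_right ?_ (by norm_num)
          exact mul_le_mul_of_nonneg_right f4 (P _).le
      _ = _ := by ring
  have b2 : 57 * (2 * e ^ (-a)) ^ 2 * (4 * (T * (Q * B2 * E3))) ≤ e ^ d / 3 := by
    rw [hK2]
    have h1 : Q * B2 * E3 ≤ (CQ * CB * e ^ (-(2 * ρ1) - An)) *
        (C1 * e ^ (2 * ρ1 + An + 2 * a + μ + 2 * d)) :=
      mul_le_mul hQB hE hE0 (mul_nonneg hC (P _).le)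
    calc 57 * (4 * e ^ (-(2 * a))) * (4 * (T * (Q * B2 * E3)))
        ≤ 57 * (4 * e ^ (-(2 * a))) * (4 * (5 * e ^ (-μ) *
          ((CQ * CB * e ^ (-(2 * ρ1) - An)) *
            (C1 * e ^ (2 * ρ1 + An + 2 * a + μ + 2 * d))))) := by
          refine mul_le_mul_of_nonneg_left ?_ (by positivity)
          refine mul_le_mul_of_nonneg_left ?_ (by norm_num)
          exact mul_le_mul hT h1 (mul_nonneg hQB0 hE0) (by positivity)
      _ = 13680 * (CQ * CB) * C1 * (e ^ (-(2 * a)) * (e ^ (-μ) *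
          (e ^ (-(2 * ρ1) - An) * e ^ (2 * ρ1 + An + 2 * a + μ + 2 * d)))) / 3 := by ring
      _ = 13680 * (CQ * CB) * C1 * (e ^ d * e ^ d) / 3 := by
          congr 2
          rw [rp_mul he, rp_mul he, rp_mul he, rp_mul he]
          congr 1
          ring
      _ = (13680 * (CQ * CB) * C1 * e ^ d) * e ^ d / 3 := by ring
      _ ≤ 1 * e ^ d / 3 := by
          refine div_le_div_of_nonneg_right ?_ (by norm_num)
          exact mul_le_mul_of_nonneg_right f6 (P _).le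
      _ = _ := by ring
  have b3 : 57 * (2 * e ^ (-a)) ^ 2 * (20 * (2 * e ^ (-a)) ^ 2 / (M * c ^ 2)) ≤ e ^ d / 3 := by
    rw [hK2]
    have h1 : 20 * (4 * e ^ (-(2 * a))) / (M * c ^ 2) ≤
        20 * (4 * e ^ (-(2 * a))) / (e ^ (-μ) * c ^ 2) := by
      refine div_le_div_of_nonneg_left (by positivity) (by positivity) ?_
      exact mul_le_mul_of_nonneg_right hM (by positivity)
    have h2 : (e ^ (-μ))⁻¹ = e ^ μ := by
      rw [← Real.rpow_neg he.le, neg_neg]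
    calc 57 * (4 * e ^ (-(2 * a))) * (20 * (4 * e ^ (-(2 * a))) / (M * c ^ 2))
        ≤ 57 * (4 * e ^ (-(2 * a))) *
          (20 * (4 * e ^ (-(2 * a))) / (e ^ (-μ) * c ^ 2)) :=
          mul_le_mul_of_nonneg_left h1 (by positivity)
      _ = 54720 / c ^ 2 * (e ^ (-(2 * a)) * (e ^ (-(2 * a)) * (e ^ (-μ))⁻¹)) / 3 := by
          field_simp
          ring
      _ = 54720 / c ^ 2 * (e ^ d * e ^ d) / 3 := by
          congr 2
          rw [h2, rp_mul he, rp_mul he, rp_mul he]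
          congr 1
          rw [hμ]
          ring
      _ = (54720 / c ^ 2 * e ^ d) * e ^ d / 3 := by ring
      _ ≤ 1 * e ^ d / 3 := by
          refine div_le_div_of_nonneg_right ?_ (by norm_num)
          exact mul_le_mul_of_nonneg_right f7 (P _).le
      _ = _ := by ring
  calc 57 * (2 * e ^ (-a)) ^ 2 * (4 * (T * (T * (Cσ * e ^ (v - ρ1 - An / 2)) + Q * B2 * E3)) +
        20 * (2 * e ^ (-a)) ^ 2 / (M * c ^ 2))
      = 57 * (2 * e ^ (-a)) ^ 2 * (4 * (T * (T * (Cσ * e ^ (v - ρ1 - An / 2))))) +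
        57 * (2 * e ^ (-a)) ^ 2 * (4 * (T * (Q * B2 * E3))) +
        57 * (2 * e ^ (-a)) ^ 2 * (20 * (2 * e ^ (-a)) ^ 2 / (M * c ^ 2)) := by ring
    _ ≤ e ^ d := by linarith

end three

/-- **the numbers of `hB_num` as powers of `e`**, general exponents -/
theorem par_num2 {c c0 C1 Cη CQ CB ρ1 v An a d r μ : ℝ} (hc : 0 < c) (hc0 : 0 < c0)
    (hCη : 0 ≤ Cη) (hCQ : 0 ≤ CQ) (hCB : 0 ≤ CB) (hρ : 0 ≤ ρ1) (hAn : 0 ≤ An) (ha : 0 < a)
    (hd : 0 < d) (hμ : μ = 4 * a + 2 * d) (hr : 2 * a + d < r)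
    (hv : ρ1 + An / 2 + 10 * a + 5 * d < v) :
    ∃ E0 : ℝ, 0 < E0 ∧ ∀ e : ℝ, 0 < e → e ≤ E0 → ∀ η2 Q B2 κ₀ : ℝ, 0 ≤ η2 →
      η2 ≤ Cη * e ^ (2 * v) → 0 ≤ Q → Q ≤ CQ * e ^ (-(2 * ρ1)) → 0 ≤ B2 →
      B2 ≤ CB * e ^ (-An) → c0 ≤ κ₀ →
      ∃ σ : ℝ, 0 ≤ σ ∧ η2 * (2 * Q * B2 + 2 * η2) ≤ σ ^ 2 ∧
        360 * (2 * e ^ (-a)) ^ 2 * (η2 + Q * B2 * Real.exp (-(κ₀ * e ^ (-r)))) ≤
          (e ^ d) ^ 2 / 2 ∧
        57 * (2 * e ^ (-a)) ^ 2 * (4 * ((2 * mP μ e + 1 : ℕ) * ((2 * mP μ e + 1 : ℕ) * σ +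
          Q * B2 * eQ κ₀ C1 (e ^ (-r)) (mP μ e))) +
          20 * (2 * e ^ (-a)) ^ 2 / (mP μ e * c ^ 2)) ≤ e ^ d := by
  obtain ⟨Cσ, hCσ⟩ : ∃ Cσ, Cσ = Cη + (2 * CQ * CB + 2 * Cη) := ⟨_, rfl⟩
  have hCσ0 : 0 ≤ Cσ := by rw [hCσ]; positivity
  have hμ0 : 0 ≤ μ := by rw [hμ]; positivity
  have hC : 0 ≤ CQ * CB := mul_nonneg hCQ hCB
  obtain ⟨e1, he1, n1⟩ := sm_rpow (s := 2 * v - 2 * a - 2 * d) (A := 5760 * Cη) (B := 1)
    (by linarith) one_pos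
  obtain ⟨e2, he2, n2⟩ := sm_exp (c := c0) (th := r) (q := 2 * ρ1 + An + 2 * a + 3 * d) hc0
    (by linarith)
  obtain ⟨e3, he3, n3⟩ := sm_rpow (s := d) (A := 5760 * (CQ * CB)) (B := 1) hd one_pos
  obtain ⟨e4, he4, n4⟩ := sm_rpow (s := v - ρ1 - An / 2 - 10 * a - 5 * d) (A := 68400 * Cσ)
    (B := 1) (by linarith) one_pos
  obtain ⟨e5, he5, n5⟩ := eQ_small2 (c0 := c0) (C1 := C1) (μ := μ) (r := r) hc0 hμ0
    (by rw [hμ]; linarith) (2 * ρ1 + An + 2 * a + μ + 2 * d)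
  obtain ⟨e6, he6, n6⟩ := sm_rpow (s := d) (A := 13680 * (CQ * CB) * (4 * Real.exp (C1 + 1)))
    (B := 1) hd one_pos
  obtain ⟨e7, he7, n7⟩ := sm_rpow (s := d) (A := 54720 / c ^ 2) (B := 1) hd one_pos
  refine ⟨min 1 (min e1 (min e2 (min e3 (min e4 (min e5 (min e6 e7)))))), by positivity, ?_⟩
  intro e he hle η2 Q B2 κ₀ hη0 hη hQ0 hQ hB0 hB hκ
  simp only [le_min_iff] at hle
  obtain ⟨g0, g1, g2, g3, g4, g5, g6, g7⟩ := hle
  have f1 := n1 e he g1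
  have f2 := n2 e he g2
  have f3 := n3 e he g3
  have f4 := n4 e he g4
  have f5 := n5 e he g5 κ₀ hκ
  have f6 := n6 e he g6
  have f7 := n7 e he g7
  clear n1 n2 n3 n4 n5 n6 n7
  obtain ⟨m1, m2, m3⟩ := mP_bd hμ0 he g0
  have P : ∀ x : ℝ, 0 < e ^ x := fun x => Real.rpow_pos_of_pos he x
  have hQB0 : 0 ≤ Q * B2 := mul_nonneg hQ0 hB0
  have hQB : Q * B2 ≤ CQ * CB * e ^ (-(2 * ρ1) - An) := by
    calc Q * B2 ≤ (CQ * e ^ (-(2 * ρ1))) * (CB * e ^ (-An)) :=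
          mul_le_mul hQ hB hB0 (mul_nonneg hCQ (P _).le)
      _ = CQ * CB * (e ^ (-(2 * ρ1)) * e ^ (-An)) := by ring
      _ = _ := by
          rw [rp_mul he]
          congr 2
  refine ⟨Cσ * e ^ (v - ρ1 - An / 2), mul_nonneg hCσ0 (P _).le, ?_, ?_, ?_⟩
  · have h1 : 2 * Q * B2 + 2 * η2 ≤ (2 * CQ * CB + 2 * Cη) * e ^ (-(2 * ρ1) - An) := by
      have h2 : η2 ≤ Cη * e ^ (-(2 * ρ1) - An) :=
        hη.trans (mul_le_mul_of_nonneg_left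
          (Real.rpow_le_rpow_of_exponent_ge he g0 (by linarith)) hCη)
      calc 2 * Q * B2 + 2 * η2 = 2 * (Q * B2) + 2 * η2 := by ring
        _ ≤ 2 * (CQ * CB * e ^ (-(2 * ρ1) - An)) + 2 * (Cη * e ^ (-(2 * ρ1) - An)) := by
            linarith
        _ = _ := by ring
    have h3 : Cη * (2 * CQ * CB + 2 * Cη) ≤ Cσ ^ 2 := by
      rw [hCσ]
      have h4 : 0 ≤ 2 * CQ * CB + 2 * Cη := by positivity
      nlinarith [sq_nonneg Cη, sq_nonneg (2 * CQ * CB + 2 * Cη), mul_nonneg hCη h4]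
    calc η2 * (2 * Q * B2 + 2 * η2)
        ≤ (Cη * e ^ (2 * v)) * ((2 * CQ * CB + 2 * Cη) * e ^ (-(2 * ρ1) - An)) :=
          mul_le_mul hη h1 (by positivity) (mul_nonneg hCη (P _).le)
      _ = Cη * (2 * CQ * CB + 2 * Cη) * (e ^ (2 * v) * e ^ (-(2 * ρ1) - An)) := by ring
      _ = Cη * (2 * CQ * CB + 2 * Cη) * (e ^ (v - ρ1 - An / 2)) ^ 2 := by
          congr 1
          rw [pow_two, rp_mul he, rp_mul he]
          congr 1
          ring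
      _ ≤ Cσ ^ 2 * (e ^ (v - ρ1 - An / 2)) ^ 2 :=
          mul_le_mul_of_nonneg_right h3 (by positivity)
      _ = _ := by ring
  · exact pn1 he hη hQB0 hQB hC (Real.exp_pos _).le
      (le_trans (Real.exp_le_exp.2 (neg_le_neg (mul_le_mul_of_nonneg_right hκ (P _).le))) f2)
      f1 f3
  · exact pn2 (C1 := 4 * Real.exp (C1 + 1)) he hμ hc (Nat.cast_nonneg _) m3 m2 hQB0 hQB hC hCσ0
      (by positivity) (eQ_nonneg _ _ _ _) f5 f4 f6 f7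

end

end Vale.Agent.P159.H708
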