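import Vale.Agent.P159.H708.Wl15
import Vale.Agent.P159.H767.Nr9

/-!
P159 / H708 (module WL), part 16: the window comparison of two tori in the letters of LIST P_up.
-/

set_option linter.unusedSectionVars false

namespace Vale.Agent.P159.H708

open Finset Matrix MeasureTheory
open Vale.Agent.P159.TM.Spec (V)
open Vale.Agent.P159.TM.SpecC (wT)
open Vale.Agent.P159.TM.H459 (sn)
open Vale.Agent.P159.H462 (Dom)
open Vale.Agent.P159.H612 (GA)
open Vale.Agent.P159.H963 (Anm)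
open Vale.Agent.P159.H767 (KN)
open Vale.Agent.P159.H864 (yt)
open Vale.Agent.P159.H640 (sm_rpow sm_exp lg_lo lg_hi lg_le1 TT_pow)
open Vale.Agent.P159.H972 (Par lg tn RNG)

noncomputable section

section mono

variable {N N2 : ℕ} [NeZero N] [NeZero N2] {h : N ∣ N2}
  {A U : Matrix (V N) (V N) ℝ} {A2 U2 : Matrix (V N2) (V N2) ℝ}
  {ν c κ C1 Q B2 η2 C1' B2' η2' : ℝ}

lemma Nrq.mono (hN : Nrq h A U A2 U2 ν c κ C1 Q B2 η2) (h1 : C1 ≤ C1') (h2 : B2 ≤ B2')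
    (h3 : η2 ≤ η2') : Nrq h A U A2 U2 ν c κ C1' Q B2' η2' := by
  have hν := hN.dom.hν
  exact ⟨hN.dom, hN.dom2, hN.uk, hN.uk2, hN.kp, hN.hQ, hN.η0.trans h3, hN.mom.trans h1,
    hN.wl2.trans (mul_le_mul_of_nonneg_left h2 hν.le),
    hN.dl2.trans (mul_le_mul_of_nonneg_left h3 hν.le)⟩

end mono

/-! ### the numbers of the model -/

/-- the constant of `sS` -/
def cS (c : ℝ) : ℝ := 1 + 25 / c * (3 + Real.log (1 + 9 * c))

lemma cS_nonneg {c : ℝ} (hc : 0 < c) : 0 ≤ cS c := by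
  have : 0 ≤ Real.log (1 + 9 * c) := Real.log_nonneg (by linarith)
  unfold cS
  positivity

lemma sS_le {n N : ℕ} {c : ℝ} (hc : 0 < c) (hn : 1 ≤ n) (hN : 2 ^ n ≤ N) :
    sS N (tn n) c ≤ cS c * n := by
  have hn' : (1 : ℝ) ≤ n := by exact_mod_cast hn
  have hNr : (2 : ℝ) ^ n ≤ N := by exact_mod_cast hN
  have h4 : (0 : ℝ) < 4 ^ n := by positivity
  have hlog : 0 ≤ Real.log (1 + 9 * c) := Real.log_nonneg (by linarith)
  have h1 : 1 / (tn n * (N : ℝ) ^ 2) ≤ 1 := by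
    have e1 : (4 : ℝ) ^ n ≤ (N : ℝ) ^ 2 := by
      have : (4 : ℝ) ^ n = ((2 : ℝ) ^ n) ^ 2 := by
        rw [← pow_mul, mul_comm n 2, pow_mul]
        norm_num
      rw [this]
      exact pow_le_pow_left₀ (by positivity) hNr 2
    have hN0 : (0 : ℝ) < N := lt_of_lt_of_le (by positivity) hNr
    unfold tn
    rw [div_le_one (by positivity), inv_mul_eq_div, le_div_iff₀ h4, one_mul]
    exact e1
  have h2 : Real.log (1 + 9 * c / tn n) ≤ Real.log (1 + 9 * c) + 2 * n := by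
    have e1 : 1 + 9 * c / tn n ≤ (1 + 9 * c) * 4 ^ n := by
      unfold tn
      rw [div_inv_eq_mul]
      have : (1 : ℝ) ≤ 4 ^ n := one_le_pow₀ (by norm_num)
      linarith
    have e2 : Real.log ((1 + 9 * c) * 4 ^ n) = Real.log (1 + 9 * c) + n * Real.log 4 := by
      rw [Real.log_mul (by positivity) (by positivity), Real.log_pow]
    have e3 : Real.log 4 ≤ 2 := by
      have : Real.log 4 = 2 * Real.log 2 := by
        rw [show (4 : ℝ) = 2 ^ 2 by norm_num, Real.log_pow]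
        push_cast
        ring
      have := Real.log_two_lt_d9
      linarith
    have e4 : Real.log (1 + 9 * c / tn n) ≤ Real.log ((1 + 9 * c) * 4 ^ n) := by
      refine Real.log_le_log ?_ e1
      have : 0 < tn n := H972.tn_pos n
      positivity
    have e5 : (n : ℝ) * Real.log 4 ≤ n * 2 := mul_le_mul_of_nonneg_left e3 (by linarith)
    linarith
  have h3 : 25 / c * (1 + Real.log (1 + 9 * c / tn n)) ≤
      25 / c * (3 + Real.log (1 + 9 * c)) * n := by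
    rw [mul_assoc]
    refine mul_le_mul_of_nonneg_left ?_ (by positivity)
    nlinarith
  unfold sS cS
  rw [add_mul, one_mul]
  linarith

/-- the `ℓ²` number in the letters of `kn_par` -/
lemma e2q_le {n r r' s : ℕ} {c S e v c1 lam CQ CS An ρ1 B G : ℝ} (he : 0 < e) (he1 : e ≤ 1)
    (hc : 0 < c) (hc1 : 0 < c1) (hnr : n ≤ r)
    (hG : G = ((4 : ℝ) ^ r + 4 ^ r') / 4 ^ n) (hlam : lam = (2 : ℝ) ^ s / 2 ^ n)
    (hlB : lam ≤ e ^ B) (hB : v + An / 2 + ρ1 ≤ B) (hS0 : 0 ≤ S) (hS : S ≤ CS * e ^ (-An))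
    (hCS : 0 ≤ CS) (hQ : ((2 : ℝ) ^ r' / 2 ^ r) ^ 2 ≤ CQ * e ^ (-(2 * ρ1)))
    (hCQ : 1 ≤ CQ) (hρ1 : 0 ≤ ρ1) :
    e2q (2 ^ r) (2 ^ s) (tn n) c (((2 : ℝ) ^ r' / 2 ^ r) ^ 2) S (lam ^ 2 * (e ^ v / G))
      (e ^ (v + 2 * c1) / G) ≤ (8 + 64 * CS * CQ / c) * e ^ (2 * v) := by
  have q4 : ∀ j : ℕ, (4 : ℝ) ^ j = ((2 : ℝ) ^ j) ^ 2 := by
    intro j
    rw [← pow_mul, mul_comm j 2, pow_mul]
    norm_num
  have P : ∀ x : ℝ, 0 < e ^ x := fun x => Real.rpow_pos_of_pos he x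
  set X : ℝ := (2 : ℝ) ^ n with hX
  set Nr : ℝ := (2 : ℝ) ^ r with hNr
  set N2 : ℝ := (2 : ℝ) ^ r' with hN2
  set l : ℝ := (2 : ℝ) ^ s with hl
  have hX0 : 0 < X := by positivity
  have hN0 : 0 < Nr := by positivity
  have hN20 : 0 < N2 := by positivity
  have hl0 : 0 < l := by positivity
  have hXN : X ≤ Nr := pow_le_pow_right₀ one_le_two hnr
  have hGe : G = (Nr ^ 2 + N2 ^ 2) / X ^ 2 := by rw [hG, q4, q4, q4]
  have hG0 : 0 < G := by rw [hGe]; positivity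
  have hG1 : 1 ≤ G := by
    rw [hGe, le_div_iff₀ (by positivity), one_mul]
    have := pow_le_pow_left₀ hX0.le hXN 2
    have := sq_nonneg N2
    linarith
  have ht : tn n = (X ^ 2)⁻¹ := by
    unfold tn
    rw [q4]
  -- first part
  have d1 : lam ^ 2 * (e ^ v / G) * (1 + (N2 / Nr) ^ 2) = l ^ 2 / Nr ^ 2 * e ^ v := by
    rw [hGe, hlam]
    field_simp
  have d2 : e ^ (v + 2 * c1) / G ≤ e ^ v := by
    refine (div_le_self (P _).le hG1).trans ?_
    exact Real.rpow_le_rpow_of_exponent_ge he he1 (by linarith)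
  have d3 : 0 ≤ e ^ (v + 2 * c1) / G := div_nonneg (P _).le hG0.le
  have hev := P v
  have d4 : lam ^ 2 * (e ^ v / G) * (1 + (N2 / Nr) ^ 2) +
      e ^ (v + 2 * c1) / G * (l ^ 2 / Nr ^ 2) ≤ 2 * (l ^ 2 / Nr ^ 2 * e ^ v) := by
    rw [d1]
    have := mul_le_mul_of_nonneg_right d2 (show 0 ≤ l ^ 2 / Nr ^ 2 by positivity)
    linarith
  have d5 : 0 ≤ lam ^ 2 * (e ^ v / G) * (1 + (N2 / Nr) ^ 2) +
      e ^ (v + 2 * c1) / G * (l ^ 2 / Nr ^ 2) := by positivity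
  have p1 : 2 * (Nr / l ^ 2) ^ 2 * (lam ^ 2 * (e ^ v / G) * (1 + (N2 / Nr) ^ 2) +
      e ^ (v + 2 * c1) / G * (l ^ 2 / Nr ^ 2)) ^ 2 / tn n ≤ 8 * e ^ (2 * v) := by
    have e1 : e ^ (2 * v) = e ^ v * e ^ v := by
      rw [rp_mul he]
      congr 1
      ring
    calc _ ≤ 2 * (Nr / l ^ 2) ^ 2 * (2 * (l ^ 2 / Nr ^ 2 * e ^ v)) ^ 2 / tn n := by
          refine div_le_div_of_nonneg_right ?_ (H972.tn_pos n).le
          exact mul_le_mul_of_nonneg_left (pow_le_pow_left₀ d5 d4 2) (by positivity)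
      _ = 8 * (e ^ v * e ^ v) * (X ^ 2 / Nr ^ 2) := by
          rw [ht]
          field_simp
          ring
      _ ≤ 8 * (e ^ v * e ^ v) * 1 := by
          refine mul_le_mul_of_nonneg_left ?_ (by positivity)
          rw [div_le_one (by positivity)]
          exact pow_le_pow_left₀ hX0.le hXN 2
      _ = _ := by rw [e1, mul_one]
  -- second part
  have hlam0 : 0 ≤ lam := by rw [hlam]; positivity
  have c1' : 1 + (N2 / Nr) ^ 2 ≤ 2 * CQ * e ^ (-(2 * ρ1)) := by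
    have h1 : 1 ≤ e ^ (-(2 * ρ1)) :=
      Real.one_le_rpow_of_pos_of_le_one_of_nonpos he he1 (by linarith)
    have h2 : 1 ≤ CQ * e ^ (-(2 * ρ1)) := by nlinarith
    linarith
  have p2 : 32 * (l ^ 2 * tn n ^ 2 * S * (1 + (N2 / Nr) ^ 2) / c) / tn n ≤
      64 * CS * CQ / c * e ^ (2 * v) := by
    have e1 : 32 * (l ^ 2 * tn n ^ 2 * S * (1 + (N2 / Nr) ^ 2) / c) / tn n =
        32 / c * (lam ^ 2 * S * (1 + (N2 / Nr) ^ 2)) := by
      rw [ht, hlam]
      field_simp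
    have e2 : lam ^ 2 ≤ e ^ (2 * B) := by
      have h1 : e ^ (2 * B) = (e ^ B) ^ 2 := by
        rw [pow_two, rp_mul he]
        congr 1
        ring
      rw [h1]
      exact pow_le_pow_left₀ hlam0 hlB 2
    have e3 : e ^ (2 * B) * e ^ (-An) * e ^ (-(2 * ρ1)) ≤ e ^ (2 * v) := by
      rw [rp_mul he, rp_mul he]
      exact Real.rpow_le_rpow_of_exponent_ge he he1 (by linarith)
    have hB' := P (2 * B)
    have hA' := P (-An)
    have hR' := P (-(2 * ρ1))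
    rw [e1]
    calc 32 / c * (lam ^ 2 * S * (1 + (N2 / Nr) ^ 2))
        ≤ 32 / c * (e ^ (2 * B) * (CS * e ^ (-An)) * (2 * CQ * e ^ (-(2 * ρ1)))) := by
          refine mul_le_mul_of_nonneg_left ?_ (by positivity)
          refine mul_le_mul (mul_le_mul e2 hS hS0 hB'.le) c1' (by positivity) (by positivity)
      _ = 64 * CS * CQ / c * (e ^ (2 * B) * e ^ (-An) * e ^ (-(2 * ρ1))) := by ring
      _ ≤ _ := mul_le_mul_of_nonneg_left e3 (by positivity)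
  have hfin : e2q (2 ^ r) (2 ^ s) (tn n) c ((N2 / Nr) ^ 2) S (lam ^ 2 * (e ^ v / G))
      (e ^ (v + 2 * c1) / G) =
      2 * (Nr / l ^ 2) ^ 2 * (lam ^ 2 * (e ^ v / G) * (1 + (N2 / Nr) ^ 2) +
        e ^ (v + 2 * c1) / G * (l ^ 2 / Nr ^ 2)) ^ 2 / tn n +
      32 * (l ^ 2 * tn n ^ 2 * S * (1 + (N2 / Nr) ^ 2) / c) / tn n := by
    unfold e2q
    push_cast
    rw [add_div]
  rw [hfin, add_mul]
  linarith

/-- the cells: `lg B e ≤ e ^ (-c1)` -/
lemma lg_sub {B c1 : ℝ} (hB : 0 ≤ B) (hc1 : 0 < c1) :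
    ∃ E0 : ℝ, 0 < E0 ∧ ∀ e : ℝ, 0 < e → e ≤ E0 → (lg B e : ℝ) ≤ 1 * e ^ (-c1) := by
  have hl2 : 0 < Real.log 2 := Real.log_pos one_lt_two
  obtain ⟨e1, he1, n1⟩ := sm_rpow (s := c1 / 2) (A := B * (2 / c1) / Real.log 2 + 1) (B := 1)
    (by positivity) one_pos
  refine ⟨min 1 e1, by positivity, ?_⟩
  intro e he hle
  simp only [le_min_iff] at hle
  obtain ⟨g0, g1⟩ := hle
  have f1 := n1 e he g1
  have h1 := lg_le1 hB he g0
  have h2 : Real.logb 2 (1 / e) ≤ 2 / c1 / Real.log 2 * e ^ (-(c1 / 2)) := by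
    have k1 := Real.log_le_rpow_div (x := 1 / e) (by positivity) (show 0 < c1 / 2 by positivity)
    have k2 : (1 / e) ^ (c1 / 2) = e ^ (-(c1 / 2)) := by
      rw [one_div, Real.inv_rpow he.le, Real.rpow_neg he.le]
    rw [k2] at k1
    unfold Real.logb
    rw [div_le_iff₀ hl2]
    refine k1.trans (le_of_eq ?_)
    field_simp
  have h3 : 1 ≤ e ^ (-(c1 / 2)) :=
    Real.one_le_rpow_of_pos_of_le_one_of_nonpos he g0 (by linarith)
  have h4 : 0 < e ^ (-(c1 / 2)) := by linarith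
  have h5 : e ^ (-c1) = e ^ (-(c1 / 2)) * e ^ (-(c1 / 2)) := by
    rw [rp_mul he]
    congr 1
    ring
  have h6 : e ^ (c1 / 2) * e ^ (-(c1 / 2)) = 1 := by
    rw [rp_mul he, add_neg_cancel, Real.rpow_zero]
  calc (lg B e : ℝ) ≤ B * Real.logb 2 (1 / e) + 1 := h1
    _ ≤ B * (2 / c1 / Real.log 2 * e ^ (-(c1 / 2))) + e ^ (-(c1 / 2)) :=
        add_le_add (mul_le_mul_of_nonneg_left h2 hB) h3
    _ = (B * (2 / c1) / Real.log 2 + 1) * (e ^ (c1 / 2) * e ^ (-(c1 / 2))) *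
          e ^ (-(c1 / 2)) := by
        rw [h6]
        ring
    _ = ((B * (2 / c1) / Real.log 2 + 1) * e ^ (c1 / 2)) *
          (e ^ (-(c1 / 2)) * e ^ (-(c1 / 2))) := by ring
    _ ≤ 1 * (e ^ (-(c1 / 2)) * e ^ (-(c1 / 2))) :=
        mul_le_mul_of_nonneg_right f1 (by positivity)
    _ = _ := by rw [h5]

/-- the tail of the comparison -/
lemma tau_num {d dd : ℝ} (hd : 0 < d) (hdd : 0 < dd) :
    ∃ E0 : ℝ, 0 < E0 ∧ ∀ e : ℝ, 0 < e → e ≤ E0 →
      2 * (2 * (1 + dd) ^ (-(1 / (4 * e ^ d)))) ≤ Real.exp (-(e ^ (-(d / 2)))) := by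
  have hL : 0 < Real.log (1 + dd) := Real.log_pos (by linarith)
  obtain ⟨e1, he1, n1⟩ := sm_rpow (s := d / 2) (A := 12 / Real.log (1 + dd)) (B := 1)
    (by positivity) one_pos
  refine ⟨min 1 e1, by positivity, ?_⟩
  intro e he hle
  simp only [le_min_iff] at hle
  obtain ⟨g0, g1⟩ := hle
  have f1 := n1 e he g1
  have h3 : 1 ≤ e ^ (-(d / 2)) :=
    Real.one_le_rpow_of_pos_of_le_one_of_nonpos he g0 (by linarith)
  have h4 : Real.exp (Real.log 4) = 4 := Real.exp_log (by norm_num)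
  have h5 : (1 + dd) ^ (-(1 / (4 * e ^ d))) =
      Real.exp (-(Real.log (1 + dd) * e ^ (-d) / 4)) := by
    rw [Real.rpow_def_of_pos (by linarith), Real.rpow_neg he.le]
    congr 1
    field_simp
  have h6 : Real.log 4 ≤ 2 := by
    have : Real.log 4 = 2 * Real.log 2 := by
      rw [show (4 : ℝ) = 2 ^ 2 by norm_num, Real.log_pow]
      push_cast
      ring
    have := Real.log_two_lt_d9
    linarith
  have h7 : 2 * (2 * (1 + dd) ^ (-(1 / (4 * e ^ d)))) =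
      Real.exp (Real.log 4 + -(Real.log (1 + dd) * e ^ (-d) / 4)) := by
    rw [Real.exp_add, h4, h5]
    ring
  rw [h7]
  refine Real.exp_le_exp.2 ?_
  have h8 : e ^ (-d) = e ^ (-(d / 2)) * e ^ (-(d / 2)) := by
    rw [rp_mul he]
    congr 1
    ring
  have h9 : e ^ (d / 2) * e ^ (-(d / 2)) = 1 := by
    rw [rp_mul he, add_neg_cancel, Real.rpow_zero]
  have h10 : 12 * e ^ (-(d / 2)) ≤ Real.log (1 + dd) * e ^ (-d) := by
    have k1 : 12 * e ^ (d / 2) ≤ Real.log (1 + dd) := by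
      rw [div_mul_eq_mul_div, div_le_iff₀ hL] at f1
      linarith
    have k2 := mul_le_mul_of_nonneg_right k1
      (show 0 ≤ e ^ (-(d / 2)) * e ^ (-(d / 2)) by positivity)
    rw [h8]
    refine le_trans (le_of_eq ?_) k2
    calc 12 * e ^ (-(d / 2)) = 12 * (e ^ (d / 2) * e ^ (-(d / 2))) * e ^ (-(d / 2)) := by
          rw [h9]
          ring
      _ = _ := by ring
  linarith

end

end Vale.Agent.P159.H708
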