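import Vale.Agent.P159.H708.Wl16

/-!
P159 / H708 (module WL), part 17: `nrq_par`, `cmp_par`: the window comparison `Cmp` of two tori
`2 ^ r`, `2 ^ r'` of LIST P_up at the mass `tn n`.
-/

set_option linter.unusedSectionVars false

namespace Vale.Agent.P159.H708

open Finset Matrix MeasureTheory
open Vale.Agent.P159.TM.Spec (V)
open Vale.Agent.P159.TM.SpecC (wT)
open Vale.Agent.P159.TM.H459 (sn)
open Vale.Agent.P159.H462 (Dom)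
open Vale.Agent.P159.H612 (GA)
open Vale.Agent.P159.H963 (MF GW nM An ntr Anm)
open Vale.Agent.P159.H767 (KN)
open Vale.Agent.P159.H864 (yt)
open Vale.Agent.P159.H686 (Cmp fl)
open Vale.Agent.P159.H883
open Vale.Agent.P159.H640 (sm_rpow sm_exp lg_lo TT_pow)
open Vale.Agent.P159.H972 (Par tn RNG)

noncomputable section

lemma sn_half {N : ℕ} [NeZero N] (w : V N) : 2 * sn w ≤ N := by
  have h1 := ZMod.natAbs_valMinAbs_le w.1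
  have h2 := ZMod.natAbs_valMinAbs_le w.2
  have h3 : sn w = max w.1.valMinAbs.natAbs w.2.valMinAbs.natAbs := rfl
  rw [h3]
  omega

/-- **the data `Nrq` in the letters of LIST P_up** -/
theorem nrq_par {b1 : ℝ} (hb1 : 0 < b1) (b2 : ℝ) :
    ∃ W₀ cm Cm : ℝ, 0 < cm ∧ 0 < Cm ∧ ∀ W : ℝ, W₀ ≤ W → ∃ ys : ℝ, ∃ X : ℕ, 0 < ys ∧ 1 ≤ X ∧
    ∀ (c v th thp c1 B An : ℝ) (q0 : ℕ), 0 < c → 0 < v → 0 < th → 0 < thp → 0 < c1 →
      c1 < th / 2 → 0 ≤ An → 7 * (th + 4 * q0 * thp) + 2 * c1 ≤ 1 - v →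
      v + An / 2 + (th + 4 * q0 * thp) ≤ B →
    ∃ E0 : ℝ, 0 < E0 ∧ ∀ P : Par, P.th = th → P.thp = thp → P.q0 = q0 → P.b1 = b1 → P.b2 = b2 →
      P.W = W → P.ys ≤ ys → X ≤ P.X0 →
    ∀ (b : ℝ) (n r r' : ℕ) (e Y : ℝ), 0 < e → e ≤ E0 → P.TT n e r → P.TT n e r' →
      ∀ hrr : r ≤ r', RNG P b n r e → RNG P b (n - 1) r e → RNG P b n r' e →
      RNG P b (n - 1) r' e → 1 ≤ n → H972.lg B e ≤ n → (n : ℝ) ≤ e ^ (-An) →
      yt (2 ^ r) b (tn n) ≤ Y → yt (2 ^ r') b (tn n) ≤ Y → Y ^ 2 ≤ e →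
      Dom (Anm (2 ^ r) b (tn n)) (tn n) c → Dom (Anm (2 ^ r') b (tn n)) (tn n) c →
      0 < b ∧ ∃ Q B2 η2 : ℝ, 0 ≤ η2 ∧
        η2 ≤ (8 + 64 * cS c * (2 ^ (1 + 4 * q0)) ^ 2 / c) * e ^ (2 * v) ∧ 0 ≤ Q ∧
        Q ≤ (2 ^ (1 + 4 * q0)) ^ 2 * e ^ (-(2 * (th + 4 * q0 * thp))) ∧
        0 ≤ B2 ∧ B2 ≤ cS c * (Real.exp cm * Cm) * e ^ (-An) ∧
        Nrq (pow_dvd_pow 2 hrr) (Anm (2 ^ r) b (tn n)) (tn n • GA (2 ^ r) b (tn n))
          (Anm (2 ^ r') b (tn n)) (tn n • GA (2 ^ r') b (tn n)) (tn n) c (cm / 2 / 2 ^ n)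
          (Real.exp cm * Cm) Q B2 η2 := by
  obtain ⟨W₀, cm, Cm, hcm, hCm, h0⟩ := H767.kn_par hb1 b2
  refine ⟨W₀, cm, Cm, hcm, hCm, fun W hW => ?_⟩
  obtain ⟨ys, X, hys, hX, h1⟩ := h0 W hW
  refine ⟨ys, X, hys, hX, ?_⟩
  intro c v th thp c1 B An q0 hc hv hth hthp hc1 hc1t hAn hsum hB
  have hρ0 : 0 ≤ th + 4 * q0 * thp := by positivity
  obtain ⟨e1, he1, n1⟩ := h1 v th thp c1 1 1 q0 hv hth hthp hc1 hc1t zero_le_one one_pos hsum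
  obtain ⟨e2, he2, n2⟩ := lg_sub (B := B) (by linarith) hc1
  refine ⟨min 1 (min e1 e2), by positivity, ?_⟩
  intro P pth pthp pq0 pb1 pb2 pW pys pX b n r r' e Y he hle hT hT' hrr hR hR1 hR' hR1' hn hlg
    hnA hY hY' hYe hD hD'
  simp only [le_min_iff] at hle
  obtain ⟨g0, g1, g2⟩ := hle
  have f2 := n2 e he g2
  have htn := H972.tn_pos n
  obtain ⟨s, hs⟩ : ∃ s, s = n - H972.lg B e := ⟨_, rfl⟩
  have hsn : s ≤ n := by omega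
  have hns : n - s = H972.lg B e := by omega
  have hnr : n ≤ r := (Nat.le_add_right _ _).trans hT.1
  have hsr : s ≤ r := hsn.trans hnr
  have hsr' : s ≤ r' := hsr.trans hrr
  have ed : ∀ j, s ≤ j → 2 ^ j / 2 ^ s = 2 ^ (j - s) := fun j hj =>
    Nat.pow_div hj (by norm_num)
  have i1 : NeZero (2 ^ r / 2 ^ s) := ⟨by rw [ed r hsr]; positivity⟩
  have i2 : NeZero (2 ^ r' / 2 ^ s) := ⟨by rw [ed r' hsr']; positivity⟩
  have hb : 0 < b := by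
    have h := hR
    unfold RNG at h
    rw [pb1] at h
    exact lt_of_lt_of_le hb1 h.hb1
  obtain ⟨hK, -, hv4⟩ := n1 P pth pthp pq0 pb1 pb2 pW pys pX b n s r r' e (tn n) Y he g1 hT hT'
    hR hR1 hR' hR1' le_rfl (by linarith) hsn hn (by rw [hns]; exact f2) hY hY' hYe
  have hpos : ∀ x : ℝ, 0 < e ^ x := fun x => Real.rpow_pos_of_pos he x
  obtain ⟨G, hG⟩ : ∃ G, G = ((4 : ℝ) ^ r + 4 ^ r') / 4 ^ n := ⟨_, rfl⟩
  obtain ⟨lam, hlam⟩ : ∃ lam, lam = (2 : ℝ) ^ s / 2 ^ n := ⟨_, rfl⟩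
  rw [← hG, ← hlam] at hK
  have hG1 : 1 ≤ G := by
    rw [hG, le_div_iff₀ (by positivity), one_mul]
    have h1 : (4 : ℝ) ^ n ≤ 4 ^ r := pow_le_pow_right₀ (by norm_num) hnr
    have h2 : (0 : ℝ) < 4 ^ r' := by positivity
    linarith
  have hlam0 : 0 < lam := by rw [hlam]; positivity
  have hlam1 : lam ≤ 1 := by
    rw [hlam, div_le_one (by positivity)]
    exact pow_le_pow_right₀ one_le_two hsn
  have hlB : lam ≤ e ^ B := by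
    have h1 := lg_lo (c := B) he
    have h2 : (2 : ℝ) ^ n = 2 ^ H972.lg B e * 2 ^ s := by
      rw [← pow_add, ← hns, Nat.sub_add_cancel hsn]
    have h3 : lam * 2 ^ H972.lg B e = 1 := by
      rw [hlam, h2]
      field_simp
    have h4 : lam * e ^ (-B) ≤ 1 := by
      rw [← h3]
      exact mul_le_mul_of_nonneg_left h1 hlam0.le
    have h5 : e ^ (-B) * e ^ B = 1 := by
      rw [rp_mul he, neg_add_cancel, Real.rpow_zero]
    calc lam = lam * (e ^ (-B) * e ^ B) := by rw [h5, mul_one]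
      _ = lam * e ^ (-B) * e ^ B := by ring
      _ ≤ 1 * e ^ B := mul_le_mul_of_nonneg_right h4 (hpos _).le
      _ = _ := one_mul _
  have hS1 := sS_le (c := c) hc hn (Nat.pow_le_pow_right (by norm_num : 0 < 2) hnr)
  have hS2 := sS_le (c := c) hc hn (Nat.pow_le_pow_right (by norm_num : 0 < 2) (hnr.trans hrr))
  have hCS := cS_nonneg hc
  have hSn : cS c * n ≤ cS c * e ^ (-An) := mul_le_mul_of_nonneg_left hnA hCS
  have hS0 : 0 ≤ cS c * n := mul_nonneg hCS (Nat.cast_nonneg _)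
  have hκ : 0 < cm * lam := mul_pos hcm hlam0
  have hd1 : e ^ (v + 2 * c1) / G < 1 := by
    have h1 : e ^ (v + 2 * c1) ≤ e ^ v :=
      Real.rpow_le_rpow_of_exponent_ge he g0 (by linarith)
    have h2 : e ^ (v + 2 * c1) / G ≤ e ^ (v + 2 * c1) := div_le_self (hpos _).le hG1
    linarith
  have hQe : ((((2 ^ r' : ℕ) : ℝ)) / ((2 ^ r : ℕ) : ℝ)) ^ 2 ≤ ((2 : ℝ) ^ r' / 2 ^ r) ^ 2 := by
    push_cast
    exact le_rfl
  have hN := nrq_kn (pow_dvd_pow 2 hrr) (pow_dvd_pow 2 hsr)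
    (by rw [ed r hsr, ed r' hsr']; exact pow_dvd_pow 2 (by omega)) hb htn hD hD' hK hκ hd1 hQe
    hS1 hS2
  have hκe : cm * lam / ((2 ^ s : ℕ) : ℝ) / 2 = cm / 2 / 2 ^ n := by
    rw [hlam]
    push_cast
    field_simp
  rw [hκe] at hN
  have hC1 : Real.exp (cm * lam) * Cm ≤ Real.exp cm * Cm := by
    refine mul_le_mul_of_nonneg_right (Real.exp_le_exp.2 ?_) hCm.le
    exact mul_le_of_le_one_right hcm.le hlam1
  have hG2 := TT_pow he g0 hT'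
  rw [pth, pthp, pq0] at hG2
  have hQb : ((2 : ℝ) ^ r' / 2 ^ r) ^ 2 ≤
      (2 ^ (1 + 4 * q0)) ^ 2 * e ^ (-(2 * (th + 4 * q0 * thp))) := by
    have h1 : (2 : ℝ) ^ r' / 2 ^ r ≤ 2 ^ r' / 2 ^ n :=
      div_le_div_of_nonneg_left (by positivity) (by positivity)
        (pow_le_pow_right₀ one_le_two hnr)
    have h2 : e ^ (-(2 * (th + 4 * q0 * thp))) = (e ^ (-(th + 4 * q0 * thp))) ^ 2 := by
      rw [pow_two, rp_mul he]
      congr 1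
      ring
    rw [h2, ← mul_pow]
    exact pow_le_pow_left₀ (by positivity) (h1.trans hG2) 2
  refine ⟨hb, _, _, _, hN.η0, ?_, by positivity, hQb, hN.B0, ?_, hN.mono hC1 le_rfl le_rfl⟩
  · exact e2q_le he g0 hc hc1 hnr hG hlam hlB hB hS0 hSn hCS hQb
      (by
        have : (1 : ℝ) ≤ 2 ^ (1 + 4 * q0) := one_le_pow₀ (by norm_num)
        exact one_le_pow₀ this) hρ0
  · calc cS c * n * (Real.exp (cm * lam) * Cm) ≤
        (cS c * e ^ (-An)) * (Real.exp cm * Cm) :=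
          mul_le_mul hSn hC1 (by positivity) (mul_nonneg hCS (hpos _).le)
      _ = _ := by ring

/-- **WL in the letters of LIST P_up**: the window comparison of the tori `2 ^ r`, `2 ^ r'` at the
mass `tn n`; window radius `D ≤ e ^ (-a) ξ`, distance of the cores `≥ e ^ (-ρ) ξ`, `2 a + d < ρ` -/
theorem cmp_par {b1 : ℝ} (hb1 : 0 < b1) (b2 : ℝ) :
    ∃ W₀ : ℝ, ∀ W : ℝ, W₀ ≤ W → ∃ ys : ℝ, ∃ X : ℕ, 0 < ys ∧ 1 ≤ X ∧
    ∀ (c v th thp c1 B An a d ρ dd : ℝ) (q0 : ℕ), 0 < c → 0 < v → 0 < th → 0 < thp → 0 < c1 →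
      c1 < th / 2 → 0 ≤ An → 0 < a → 0 < d → 0 < dd → dd ≤ 1 / 8 → 2 * a + d < ρ →
      7 * (th + 4 * q0 * thp) + 2 * c1 ≤ 1 - v →
      (th + 4 * q0 * thp) + An / 2 + 10 * a + 5 * d < v →
      v + An / 2 + (th + 4 * q0 * thp) ≤ B →
    ∃ E0 : ℝ, 0 < E0 ∧ ∀ P : Par, P.th = th → P.thp = thp → P.q0 = q0 → P.b1 = b1 → P.b2 = b2 →
      P.W = W → P.ys ≤ ys → X ≤ P.X0 →
    ∀ (b : ℝ) (n r r' N N2 : ℕ) (e Y : ℝ) [NeZero N] [NeZero N2], N = 2 ^ r → N2 = 2 ^ r' →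
      0 < e → e ≤ E0 → P.TT n e r → P.TT n e r' → r ≤ r' →
      RNG P b n r e → RNG P b (n - 1) r e → RNG P b n r' e → RNG P b (n - 1) r' e →
      1 ≤ n → H972.lg B e ≤ n → (n : ℝ) ≤ e ^ (-An) →
      yt (2 ^ r) b (tn n) ≤ Y → yt (2 ^ r') b (tn n) ≤ Y → Y ^ 2 ≤ e →
      Dom (Anm N b (tn n)) (tn n) c → Dom (Anm N2 b (tn n)) (tn n) c →
    ∀ (η bb : ℝ) (Bd : Set (V N → ℝ)) (Bd' : Set (V N2 → ℝ)), MeasurableSet Bd →
      MeasurableSet Bd' → 0 ≤ η → η + bb ≤ 1 / 8 →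
      (∀ F, F ∉ Bd → Wt (wT b N) (tn n • (1 : Matrix (V N) (V N) ℝ)) (tn n) 0 F ≤ 1 + η) →
      (nuM (wT b N) (tn n • (1 : Matrix (V N) (V N) ℝ)) 0).real Bd ≤ bb →
      (∀ F, F ∉ Bd' → Wt (wT b N2) (tn n • (1 : Matrix (V N2) (V N2) ℝ)) (tn n) 0 F ≤ 1 + η) →
      (nuM (wT b N2) (tn n • (1 : Matrix (V N2) (V N2) ℝ)) 0).real Bd' ≤ bb →
    ∀ (D : ℕ) (R : ℝ) (p q : V N) (p2 q2 : V N2), (D : ℝ) ≤ e ^ (-a) * 2 ^ n →
      e ^ (-ρ) * 2 ^ n ≤ R → R ≤ sn (q - p) → R ≤ sn (q2 - p2) →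
      Cmp (nuM (wT b N) (tn n • (1 : Matrix (V N) (V N) ℝ)) 0)
        (nuM (wT b N2) (tn n • (1 : Matrix (V N2) (V N2) ℝ)) 0) (wd D p q) (wd D p2 q2)
        (4 * (η + bb) + 2 * dd) (4 * bb + Real.exp (-(e ^ (-(d / 2))))) := by
  obtain ⟨W₀, cm, Cm, hcm, hCm, h0⟩ := nrq_par hb1 b2
  refine ⟨W₀, fun W hW => ?_⟩
  obtain ⟨ys, X, hys, hX, h1⟩ := h0 W hW
  refine ⟨ys, X, hys, hX, ?_⟩
  intro c v th thp c1 B An a d ρ dd q0 hc hv hth hthp hc1 hc1t hAn ha hd hdd hdd8 hρ hsum hv2 hB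
  have hρ0 : 0 ≤ th + 4 * q0 * thp := by positivity
  obtain ⟨e1, he1, n1⟩ := h1 c v th thp c1 B An q0 hc hv hth hthp hc1 hc1t hAn hsum hB
  have hCS := cS_nonneg hc
  obtain ⟨e2, he2, n2⟩ := par_num2 (c := c) (c0 := cm / 2) (C1 := Real.exp cm * Cm)
    (Cη := 8 + 64 * cS c * (2 ^ (1 + 4 * q0)) ^ 2 / c) (CQ := (2 ^ (1 + 4 * q0)) ^ 2)
    (CB := cS c * (Real.exp cm * Cm)) (ρ1 := th + 4 * q0 * thp) (v := v) (An := An) (a := a)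
    (d := d) (r := ρ) (μ := 4 * a + 2 * d) hc (by positivity) (by positivity) (by positivity)
    (by positivity) hρ0 hAn ha hd rfl hρ hv2
  obtain ⟨e3, he3, n3⟩ := sm_rpow (s := ρ - a) (A := 8) (B := 1) (by linarith) one_pos
  obtain ⟨e4, he4, n4⟩ := sm_rpow (s := d) (A := 1) (B := 1 / 4) hd (by norm_num)
  obtain ⟨e5, he5, n5⟩ := tau_num hd hdd
  refine ⟨min 1 (min e1 (min e2 (min e3 (min e4 e5)))), by positivity, ?_⟩
  intro P pth pthp pq0 pb1 pb2 pW pys pX b n r r' N N2 e Y _ _ hN hN2 he hle hT hT' hrr hR hR1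
    hR' hR1' hn hlg hnA hY hY' hYe hD hD' η bb Bd Bd' hBd hBd' hη0 hηb hη hbd hη' hbd' D R p q
    p2 q2 hDn hRn hpq hpq2
  subst hN hN2
  simp only [le_min_iff] at hle
  obtain ⟨g0, g1, g2, g3, g4, g5⟩ := hle
  have f3 := n3 e he g3
  have f4 := n4 e he g4
  have f5 := n5 e he g5
  rw [one_mul] at f4
  have hpos : ∀ x : ℝ, 0 < e ^ x := fun x => Real.rpow_pos_of_pos he x
  obtain ⟨hb, Q, B2, η2, k1, k2, k3, k4, k5, k6, hNr⟩ := n1 P pth pthp pq0 pb1 pb2 pW pys pX b n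
    r r' e Y he g1 hT hT' hrr hR hR1 hR' hR1' hn hlg hnA hY hY' hYe hD hD'
  obtain ⟨σ, s1, s2, s3, s4⟩ := n2 e he g2 η2 Q B2 (cm / 2) k1 k2 k3 k4 k5 k6 le_rfl
  have hX1 : (1 : ℝ) ≤ 2 ^ n := one_le_pow₀ (by norm_num)
  have hX0 : (0 : ℝ) < 2 ^ n := by positivity
  have ha1 : 1 ≤ e ^ (-a) :=
    Real.one_le_rpow_of_pos_of_le_one_of_nonpos he g0 (by linarith)
  have h8 : 4 * (2 * e ^ (-a)) ≤ e ^ (-ρ) := by
    have h1 : e ^ (ρ - a) * e ^ (-ρ) = e ^ (-a) := by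
      rw [rp_mul he]
      congr 1
      ring
    calc 4 * (2 * e ^ (-a)) = (8 * e ^ (ρ - a)) * e ^ (-ρ) := by rw [← h1]; ring
      _ ≤ 1 * e ^ (-ρ) := mul_le_mul_of_nonneg_right f3 (hpos _).le
      _ = _ := one_mul _
  have h9 : 4 * (2 * e ^ (-a)) * 2 ^ n ≤ e ^ (-ρ) * 2 ^ n :=
    mul_le_mul_of_nonneg_right h8 hX0.le
  have h10 : 0 < e ^ (-a) * 2 ^ n := mul_pos (hpos _) hX0
  have hD8 : 8 * (D : ℝ) ≤ R := by linarith
  have hR0 : 0 < R := by linarith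
  have hRN : R ≤ ((2 ^ r : ℕ) : ℝ) / 2 := by
    have k1 := sn_half (q - p)
    have k2 : 2 * ((sn (q - p) : ℕ) : ℝ) ≤ ((2 ^ r : ℕ) : ℝ) := by exact_mod_cast k1
    linarith
  have hRN' : R ≤ ((2 ^ r : ℕ) : ℝ) := by linarith
  have h4D : 4 * D < 2 ^ r := by
    have : (4 : ℝ) * D < ((2 ^ r : ℕ) : ℝ) := by linarith
    exact_mod_cast this
  obtain ⟨m1, -, -⟩ := mP_bd (μ := 4 * a + 2 * d) (by positivity) he g0
  have ht : tn n = (((2 : ℝ) ^ n) ^ 2)⁻¹ := by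
    unfold tn
    rw [← pow_mul, mul_comm n 2, pow_mul]
    norm_num
  have hnum := hB_num (ξ := (2 : ℝ) ^ n) (κ₀ := cm / 2) (ρ := e ^ (-ρ)) (K := 2 * e ^ (-a))
    (m := mP (4 * a + 2 * d) e) (δ := e ^ d) (c := c) (C1 := Real.exp cm * Cm) (Q := Q)
    (B2 := B2) (η2 := η2) (σ := σ) (D := D) (R := R) (N := 2 ^ r) hX1 hc (by positivity) k3 k5 k1
    s1 m1 (by linarith) (by linarith) hRn h8 (hRn.trans hRN') s3 s4
  rw [← ht] at hnum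
  have hmain := cmp_tor_q hb (H972.tn_pos n) hNr s1 s2 hBd hBd' hη0 hη hbd hη' hbd' hηb h4D m1
    (by linarith : 2 * (D : ℝ) < R) hpq hpq2 (hpos d) f4 hnum hdd.le hdd8
  exact cmp_mono hmain le_rfl (by linarith)

end

end Vale.Agent.P159.H708
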