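import Vale.Agent.P159.H708.Wl17
import Vale.Agent.P159.H801.ParEv

/-!
P159 / H708 (module WL), part 18: `cmp_ev`, the window comparison of two tori of one level in the
order of constants (`Ev`).
-/

set_option linter.unusedSectionVars false

namespace Vale.Agent.P159.H708

open Finset Matrix MeasureTheory
open Vale.Agent.P159.TM.Spec (V)
open Vale.Agent.P159.TM.SpecC (wT)
open Vale.Agent.P159.TM.H459 (sn)
open Vale.Agent.P159.H462 (Dom)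
open Vale.Agent.P159.H963 (Anm)
open Vale.Agent.P159.H864 (yt)
open Vale.Agent.P159.H686 (Cmp)
open Vale.Agent.P159.H883
open Vale.Agent.P159.H801 (Ev PS)
open Vale.Agent.P159.H972 (Par tn RNG Good)

noncomputable section

/-- **the window comparison of the tori `N`, `N2` at the mass `t`**: all windows of radius
`D ≤ Dm` around pairs of sites at distance `≥ Rm`, all exceptional sets of the weights -/
def WLc (b t : ℝ) (N N2 : ℕ) [NeZero N] [NeZero N2] (Dm Rm dd τ : ℝ) : Prop :=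
  ∀ (η bb : ℝ) (Bd : Set (V N → ℝ)) (Bd' : Set (V N2 → ℝ)), MeasurableSet Bd →
    MeasurableSet Bd' → 0 ≤ η → η + bb ≤ 1 / 8 →
    (∀ F, F ∉ Bd → Wt (wT b N) (t • (1 : Matrix (V N) (V N) ℝ)) t 0 F ≤ 1 + η) →
    (nuM (wT b N) (t • (1 : Matrix (V N) (V N) ℝ)) 0).real Bd ≤ bb →
    (∀ F, F ∉ Bd' → Wt (wT b N2) (t • (1 : Matrix (V N2) (V N2) ℝ)) t 0 F ≤ 1 + η) →
    (nuM (wT b N2) (t • (1 : Matrix (V N2) (V N2) ℝ)) 0).real Bd' ≤ bb →
  ∀ (D : ℕ) (p q : V N) (p2 q2 : V N2), (D : ℝ) ≤ Dm → Rm ≤ sn (q - p) →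
    Rm ≤ sn (q2 - p2) →
    Cmp (nuM (wT b N) (t • (1 : Matrix (V N) (V N) ℝ)) 0)
      (nuM (wT b N2) (t • (1 : Matrix (V N2) (V N2) ℝ)) 0) (wd D p q) (wd D p2 q2)
      (4 * (η + bb) + 2 * dd) (4 * bb + τ)

/-- **WL in the order of constants**: one level `n`, size `e`, any two tori of `TT n e`; the
exponents `a` (window), `ρ` (distance of the cores), `d` (tail) are free, `2 a + d < ρ` -/
theorem cmp_ev {b1 : ℝ} (hb1 : 0 < b1) (b2 pf : ℝ) (Q : ℕ) :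
    Ev b1 b2 pf Q fun P _ => P.th + 4 * P.q0 * P.thp ≤ 1 / 100 ∧ 3 / 2 ≤ P.C0 ∧
    ∀ (c a d ρ dd : ℝ), 0 < c → 0 < a → 0 < d → 0 < dd → dd ≤ 1 / 8 → 2 * a + d < ρ →
      10 * a + 5 * d ≤ 1 / 5 →
    ∃ E0 : ℝ, 0 < E0 ∧ ∀ (b : ℝ) (n r r' N N2 : ℕ) (e Y : ℝ) [NeZero N] [NeZero N2],
      N = 2 ^ r → N2 = 2 ^ r' → 0 < e → e ≤ E0 → e ≤ P.es → Good P b n e → P.TT n e r →
      P.TT n e r' → r ≤ r' → (n : ℝ) * e ≤ 1 →
      yt (2 ^ r) b (tn n) ≤ Y → yt (2 ^ r') b (tn n) ≤ Y → Y ^ 2 ≤ e →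
      Dom (Anm N b (tn n)) (tn n) c → Dom (Anm N2 b (tn n)) (tn n) c →
      WLc b (tn n) N N2 (e ^ (-a) * 2 ^ n) (e ^ (-ρ) * 2 ^ n) dd
        (Real.exp (-(e ^ (-(d / 2))))) := by
  obtain ⟨W₀, h0⟩ := cmp_par hb1 b2
  refine Ev.of ⟨W₀, fun W hW => ?_⟩
  obtain ⟨ys, X, hys, hX, h1⟩ := h0 W hW
  refine ⟨ys, hys, fun ys' hys0 hys' => ⟨max X 2, fun X0 hX0 => ?_⟩⟩
  refine ⟨1 / 2000, by positivity, fun x1 hx1 hx1' => ?_⟩
  refine ⟨1 / (2000 * (Q + 3)), by positivity, fun thp hthp hthp' => ?_⟩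
  refine ⟨1 / 2000, by positivity, fun th hth hth' => ⟨3 / 2, fun C0 hC0 => ?_⟩⟩
  refine ⟨1, one_pos, fun c1 _ _ => ⟨1, one_pos, fun P hP => ?_⟩⟩
  have hQ3 : (0 : ℝ) < (Q : ℝ) + 3 := by positivity
  have hthp2 : ((Q : ℝ) + 3) * thp ≤ 1 / 2000 := by
    rw [le_div_iff₀ (by positivity)] at hthp' ⊢
    linarith
  have hq0 := hP.rho hx1 hthp
  have hsum : P.th + 4 * P.q0 * P.thp ≤ 1 / 100 := by
    rw [hP.eth]
    have : 4 * (P.q0 : ℝ) * P.thp = 4 * (P.q0 * P.thp) := by ring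
    linarith
  have hsum0 : 0 ≤ P.th + 4 * P.q0 * P.thp := by
    have := P.th0
    have := P.thp0
    positivity
  have hC : 3 / 2 ≤ P.C0 := by rw [hP.eC0]; exact hC0
  refine ⟨hsum, hC, ?_⟩
  intro c a d ρ dd hc ha hd hdd hdd8 hρ had
  obtain ⟨E0, hE0, H⟩ := h1 c (9 / 10) P.th P.thp (min (P.th / 4) (1 / 100)) (3 / 2) 1 a d ρ dd
    P.q0 hc (by norm_num) P.th0 P.thp0 (lt_min (by have := P.th0; positivity) (by norm_num))
    (lt_of_le_of_lt (min_le_left _ _) (by have := P.th0; linarith)) zero_le_one ha hd hdd hdd8 hρ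
    (by have := min_le_right (P.th / 4) (1 / 100 : ℝ); linarith) (by linarith) (by linarith)
  refine ⟨E0, hE0, ?_⟩
  intro b n r r' N N2 e Y _ _ hN hN2 he heE hes hG hT hT' hrr hne hY hY' hYe hD hD'
  obtain ⟨τ0, a0, _, _, hGP⟩ := hG
  have hGe := hGP e le_rfl hes
  have hr := hGe.rng r (Or.inl hT)
  have hr' := hGe.rng r' (Or.inl hT')
  have he1 : e ≤ 1 := hes.trans (P.es1.trans (by norm_num))
  have hn1 : 1 ≤ n := by
    have h2 := hr.1.hX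
    have h3 : 2 ≤ P.X0 := by
      rw [hP.eX0]
      exact (le_max_right _ _).trans hX0
    by_contra h4
    have h5 : n = 0 := by omega
    rw [h5] at h2
    simp only [pow_zero] at h2
    omega
  have hlg : H972.lg (3 / 2) e ≤ n := by
    have k1 : H972.lg (3 / 2) e ≤ H972.lg P.C0 e := H972.lg_mono hC he he1
    have k2 := hGe.nE
    omega
  have hnA : (n : ℝ) ≤ e ^ (-1 : ℝ) := by
    rw [Real.rpow_neg_one, ← one_div, le_div_iff₀ he]
    exact hne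
  intro η bb Bd Bd' hBd hBd' hη0 hηb hη hbd hη' hbd' D p q p2 q2 hDm hR hR'
  exact H P rfl rfl rfl hP.eb1 hP.eb2 hP.eW (by rw [hP.eys]; exact hys')
    (by rw [hP.eX0]; exact (le_max_left _ _).trans hX0) b n r r' N N2 e Y hN hN2 he heE hT hT'
    hrr hr.1 hr.2 hr'.1 hr'.2 hn1 hlg hnA hY hY' hYe hD hD' η bb Bd Bd' hBd hBd' hη0 hηb hη hbd
    hη' hbd' D _ p q p2 q2 hDm le_rfl hR hR'

end

end Vale.Agent.P159.H708
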