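import Vale.Agent.P159.H708.Wl18
import Vale.Agent.P159.H686.LvS

/-!
P159 / H708 (module WL), part 19: the field `cmp` of one level of S (686's `LvlW`), windows
`wdS .. (g R)` shifted by arbitrary fields of small energy.
-/

set_option linter.unusedSectionVars false

namespace Vale.Agent.P159.H708

open Finset Matrix MeasureTheory
open Vale.Agent.P159.TM.Spec (V)
open Vale.Agent.P159.TM.SpecC (wT)
open Vale.Agent.P159.TM.H459 (sn)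
open Vale.Agent.P159.H37 (gau qf)
open Vale.Agent.P159.H462 (Dom)
open Vale.Agent.P159.H963 (Anm An)
open Vale.Agent.P159.H864 (yt)
open Vale.Agent.P159.H686 (Cmp wdS cmp_shift_num cmp_shifted)
open Vale.Agent.P159.H883
open Vale.Agent.P159.H801 (Ev PS)
open Vale.Agent.P159.H972 (Par tn RNG Good)
open Vale.Agent.P159.H773 (sd ax0 nuF wdF sn_ax0 sd_ge)

noncomputable section

/-- the weight of the torus `N` at the mass `t` is `≤ 1 + η` off a set of measure `≤ bb` -/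
def WtOK (b t η bb : ℝ) (N : ℕ) [NeZero N] : Prop :=
  ∃ Bd : Set (V N → ℝ), MeasurableSet Bd ∧
    (∀ F, F ∉ Bd → Wt (wT b N) (t • (1 : Matrix (V N) (V N) ℝ)) t 0 F ≤ 1 + η) ∧
    (nuM (wT b N) (t • (1 : Matrix (V N) (V N) ℝ)) 0).real Bd ≤ bb

/-- **the field `cmp`** from the comparison of the tori and the energy of the shifts -/
theorem cmp_fld {b t η bb dd τ ρ : ℝ} {i R0 R1 D : ℕ} {Dm Rm : ℝ} (hb : 0 < b) (ht : 0 < t)
    (hi : 1 ≤ i) (hR0 : R0 ≤ R1)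
    (hW : ∀ R, R0 ≤ R → R ≤ R1 → WLc b t (sd i R0) (sd i R) Dm Rm dd τ)
    (hBd : ∀ R, R0 ≤ R → R ≤ R1 → WtOK b t η bb (sd i R)) (hη0 : 0 ≤ η)
    (hD : (D : ℝ) ≤ Dm) (hRm : Rm ≤ R0) (g : ∀ R, V (sd i R) → ℝ) (hρ : 0 < ρ)
    (hρ1 : ρ ≤ 1 / 7200)
    (hg : ∀ R, R0 ≤ R → R ≤ R1 →
      qf (An (wT b (sd i R)) (t • (1 : Matrix (V (sd i R)) (V (sd i R)) ℝ)) t 0) (g R) ≤ ρ ^ 4)
    (hηb : η + bb ≤ 1 / 2200) (hdd0 : 0 ≤ dd) (hdd : dd ≤ 1 / 800) (hτ : 0 ≤ τ) :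
    ∀ R, R0 ≤ R → R ≤ R1 →
      Cmp (nuF b (sd i) t R0) (nuF b (sd i) t R) (wdS (sd i) D R0 (g R0))
        (wdS (sd i) D R (g R)) (1 / 40)
        (32 * bb + 48 * Real.exp (1 - 1 / (2 * ρ ^ 2)) + 2 * τ) := by
  intro R h1 h2
  obtain ⟨Bd, m1, w1, n1⟩ := hBd R0 le_rfl hR0
  obtain ⟨Bd', m2, w2, n2⟩ := hBd R h1 h2
  have hbb0 : 0 ≤ bb := measureReal_nonneg.trans n1
  have hRR : (R0 : ℝ) ≤ R := by exact_mod_cast h1
  have s0 : ∀ R : ℕ, ((R : ℝ)) ≤ sn (ax0 (sd i R) R - 0) := by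
    intro R
    rw [sub_zero]
    have h3 : 2 * R ≤ sd i R := by
      refine le_trans ?_ (sd_ge i R)
      refine Nat.mul_le_mul_right _ ?_
      calc 2 = 2 ^ 1 := rfl
        _ ≤ 2 ^ i := Nat.pow_le_pow_right (by norm_num) hi
    have h4 := sn_ax0 h3
    rw [h4]
  have c0 := hW R h1 h2 η bb Bd Bd' m1 m2 hη0 (by linarith) w1 n1 w2 n2 D 0
    (ax0 (sd i R0) R0) 0 (ax0 (sd i R) R) hD (hRm.trans (s0 R0))
    ((hRm.trans hRR).trans (s0 R))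
  have c1 := cmp_shift_num (H963.gw_wT hb.le) (bw_wT hb) (mf_scalar ht) m1 hη0 w1 n1
    (by linarith) D 0 (ax0 (sd i R0) R0) (g R0) hρ (by linarith) (hg R0 le_rfl hR0)
  have c2 := cmp_shift_num (H963.gw_wT hb.le) (bw_wT hb) (mf_scalar ht) m2 hη0 w2 n2
    (by linarith) D 0 (ax0 (sd i R) R) (g R) hρ (by linarith) (hg R h1 h2)
  have hE : 0 < Real.exp (1 - 1 / (2 * ρ ^ 2)) := Real.exp_pos _
  have c3 := cmp_shifted (by linarith) (by linarith) (by linarith) (by linarith) (by linarith)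
    (by linarith) (by linarith) (by linarith) (by linarith) c0 c1 c2
  exact cmp_mono c3 (by linarith) (by linarith)

/-- **the field `cmp` of a level of S in the order of constants** -/
theorem cmp_lvl {b1 : ℝ} (hb1 : 0 < b1) (b2 pf : ℝ) (Q : ℕ) :
    Ev b1 b2 pf Q fun P _ => P.th + 4 * P.q0 * P.thp ≤ 1 / 100 ∧
    ∀ (c a d ρ : ℝ), 0 < c → 0 < a → 0 < d → 2 * a + d < ρ → 10 * a + 5 * d ≤ 1 / 5 →
    ∃ E0 : ℝ, 0 < E0 ∧ ∀ (b : ℝ) (i n R0 R1 D : ℕ) (e Y η bb ρg : ℝ)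
      (g : ∀ R, V (sd i R) → ℝ), 0 < b → 0 < e → e ≤ E0 → e ≤ P.es → Good P b n e →
      (n : ℝ) * e ≤ 1 → Y ^ 2 ≤ e → 1 ≤ i → R0 ≤ R1 → (D : ℝ) ≤ e ^ (-a) * 2 ^ n →
      e ^ (-ρ) * 2 ^ n ≤ R0 → 0 ≤ η → η + bb ≤ 1 / 2200 → 0 < ρg → ρg ≤ 1 / 7200 →
      (∀ R, R0 ≤ R → R ≤ R1 → P.TT n e (i + Nat.clog 2 R)) →
      (∀ R, R0 ≤ R → R ≤ R1 → yt (2 ^ (i + Nat.clog 2 R)) b (tn n) ≤ Y) →
      (∀ R, R0 ≤ R → R ≤ R1 → Dom (Anm (sd i R) b (tn n)) (tn n) c) →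
      (∀ R, R0 ≤ R → R ≤ R1 → WtOK b (tn n) η bb (sd i R)) →
      (∀ R, R0 ≤ R → R ≤ R1 → qf (An (wT b (sd i R))
        (tn n • (1 : Matrix (V (sd i R)) (V (sd i R)) ℝ)) (tn n) 0) (g R) ≤ ρg ^ 4) →
      ∀ R, R0 ≤ R → R ≤ R1 →
        Cmp (nuF b (sd i) (tn n) R0) (nuF b (sd i) (tn n) R) (wdS (sd i) D R0 (g R0))
          (wdS (sd i) D R (g R)) (1 / 40)
          (32 * bb + 48 * Real.exp (1 - 1 / (2 * ρg ^ 2)) +
            2 * Real.exp (-(e ^ (-(d / 2))))) := by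
  refine (cmp_ev hb1 b2 pf Q).mono fun P _ _ hP => ?_
  obtain ⟨hsum, -, H⟩ := hP
  refine ⟨hsum, fun c a d ρ hc ha hd hρ had => ?_⟩
  obtain ⟨E0, hE0, H0⟩ := H c a d ρ (1 / 800) hc ha hd (by norm_num) (by norm_num) hρ had
  refine ⟨E0, hE0, ?_⟩
  intro b i n R0 R1 D e Y η bb ρg g hb he heE hes hG hne hY hi hR01 hD hR hη0 hηb hρg hρg1 hT hyt
    hDom hWt hgs
  have hsd : ∀ R, sd i R = 2 ^ (i + Nat.clog 2 R) := fun R => by
    unfold sd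
    rw [pow_add]
  refine cmp_fld (dd := 1 / 800) hb (H972.tn_pos n) hi hR01 (fun R h1 h2 => ?_) hWt hη0 hD hR g
    hρg hρg1 hgs hηb (by norm_num) le_rfl (Real.exp_pos _).le
  exact H0 b n (i + Nat.clog 2 R0) (i + Nat.clog 2 R) (sd i R0) (sd i R) e Y (hsd R0) (hsd R) he
    heE hes hG (hT R0 le_rfl hR01) (hT R h1 h2)
    (Nat.add_le_add_left (Nat.clog_mono_right 2 h1) i) hne
    (hyt R0 le_rfl hR01) (hyt R h1 h2) hY (hDom R0 le_rfl hR01) (hDom R h1 h2)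

end

end Vale.Agent.P159.H708
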