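import Vale.Agent.P159.H733.TorgG
import Vale.Agent.P159.H708.Wl1

/-!
P159 / H708 (module WL), part 2: the window increments of a Gaussian field of Hessian `A` around
two far points `p`, `q`. The cross covariance is bounded without any regularity of the Green
function: finite range part of 733's series + the smooth part. `two_win`: relative comparison of
the joint covariances of two pairs of windows `(N; p, q)`, `(N2; p2, q2)`.
-/

set_option linter.unusedSectionVars false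

namespace Vale.Agent.P159.H708

open Finset Matrix MeasureTheory
open Vale.Agent.P159.TM.H764 (cN sN dt EE)
open Vale.Agent.P159.TM.Spec (V)
open Vale.Agent.P159.H864 (TI sym mlt fc hsq)
open Vale.Agent.P159.H462 (Dom)
open Vale.Agent.P159.TM.H459 (sn)
open Vale.Agent.P159.H37 (gau qf)
open Vale.Agent.P159.H733.Torg

noncomputable section

variable {N N2 : ℕ} [NeZero N] [NeZero N2]

/-- a Hessian whose step kernel `1 - A / ν` is nonnegative with an exponential moment -/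
structure Tl (A : Matrix (V N) (V N) ℝ) (ν c κ C1 : ℝ) : Prop where
  dom : Dom A ν c
  nn : ∀ x y, 0 ≤ (1 - ν⁻¹ • A : Matrix (V N) (V N) ℝ) x y
  kp : 0 < κ
  mom : ∑ z, (1 - ν⁻¹ • A : Matrix (V N) (V N) ℝ) 0 z * Real.exp (κ * sn z) ≤ C1

variable {A : Matrix (V N) (V N) ℝ} {A2 : Matrix (V N2) (V N2) ℝ} {ν c κ C1 β : ℝ}

/-- the near periodization of 733 gives `Tl` on the large torus -/
lemma _root_.Vale.Agent.P159.H733.Torg.Near.tl2 {h : N ∣ N2} {η s : ℝ}
    (hN : Near h A A2 ν c κ C1 η s) : Tl A2 ν c κ C1 :=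
  ⟨hN.dom2, fun x y => step_nonneg hN.dom2 hN.off2 x y, hN.kp, hN.mom⟩

/-! ### far entries -/

/-- the bound of the finite range part at distance `r` -/
def ft (κ C1 : ℝ) (T : ℕ) (r : ℝ) : ℝ := 4 * Real.exp C1 * Real.exp (-(κ * r / (2 * √T)))

lemma ft_nonneg (κ C1 : ℝ) (T : ℕ) (r : ℝ) : 0 ≤ ft κ C1 T r := by unfold ft; positivity

lemma ft_anti (hκ : 0 ≤ κ) {T : ℕ} {r r' : ℝ} (h : r ≤ r') : ft κ C1 T r' ≤ ft κ C1 T r := by
  unfold ft
  refine mul_le_mul_of_nonneg_left (Real.exp_le_exp.2 ?_) (by positivity)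
  refine neg_le_neg ?_
  exact div_le_div_of_nonneg_right (mul_le_mul_of_nonneg_left h hκ) (by positivity)

lemma Tl.sm_far (hT : Tl A ν c κ C1) (hβ : 0 ≤ β) {T : ℕ} (hT1 : 1 ≤ T) {y : V N} {r : ℝ}
    (hr : r ≤ sn y) :
    0 ≤ sm β ν A T 0 y ∧ sm β ν A T 0 y ≤ T * ft κ C1 T r / (ν + β) := by
  have hν := hT.dom.hν
  have e1 : sm β ν A T 0 y = (ν + β)⁻¹ * ∑ m ∈ range T, (ν / (ν + β)) ^ m *
      ((1 - ν⁻¹ • A : Matrix (V N) (V N) ℝ) ^ m) 0 y := by
    unfold sm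
    rw [Matrix.smul_apply, Matrix.sum_apply, smul_eq_mul]
    congr 1
  rw [e1]
  have hl0 : 0 ≤ ν / (ν + β) := by positivity
  have hl1 : ν / (ν + β) ≤ 1 := by
    rw [div_le_one (by positivity)]
    linarith
  have hp : ∀ m, 0 ≤ ((1 - ν⁻¹ • A : Matrix (V N) (V N) ℝ) ^ m) 0 y := fun m =>
    pow_nonneg' hT.nn m 0 y
  constructor
  · exact mul_nonneg (by positivity) (Finset.sum_nonneg fun m _ =>
      mul_nonneg (pow_nonneg hl0 m) (hp m))
  · have h3 : ∑ m ∈ range T, (ν / (ν + β)) ^ m *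
        ((1 - ν⁻¹ • A : Matrix (V N) (V N) ℝ) ^ m) 0 y ≤ ∑ _m ∈ range T, ft κ C1 T r := by
      refine Finset.sum_le_sum fun m hm => ?_
      have h4 := tail (ti_step hT.dom.ti ν) hT.nn (step_row hT.dom) hT.kp hT.mom hT1
        (Finset.mem_range.1 hm).le r
      have h5 : ((1 - ν⁻¹ • A : Matrix (V N) (V N) ℝ) ^ m) 0 y ≤ ft κ C1 T r := by
        refine le_trans ?_ h4
        exact Finset.single_le_sum
          (f := fun z => ((1 - ν⁻¹ • A : Matrix (V N) (V N) ℝ) ^ m) 0 z)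
          (fun z _ => pow_nonneg' hT.nn m 0 z) (Finset.mem_filter.2 ⟨mem_univ y, hr⟩)
      calc (ν / (ν + β)) ^ m * ((1 - ν⁻¹ • A : Matrix (V N) (V N) ℝ) ^ m) 0 y
          ≤ 1 * ((1 - ν⁻¹ • A : Matrix (V N) (V N) ℝ) ^ m) 0 y :=
            mul_le_mul_of_nonneg_right (pow_le_one₀ hl0 hl1) (hp m)
        _ ≤ ft κ C1 T r := by
            rw [one_mul]
            exact h5
    rw [Finset.sum_const, Finset.card_range, nsmul_eq_mul] at h3
    refine (mul_le_mul_of_nonneg_left h3 (show 0 ≤ (ν + β)⁻¹ by positivity)).trans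
      (le_of_eq ?_)
    ring

/-! ### the cross covariance -/

/-- the mixed second difference -/
def ck (K : Matrix (V N) (V N) ℝ) (w a b : V N) : ℝ :=
  K 0 (w + b - a) - K 0 (w + b) - K 0 (w - a) + K 0 w

lemma cos_mixed (x a b : ZMod N) :
    |cN (x + b - a) - cN (x + b) - cN (x - a) + cN x| ≤ (1 - cN a) + (1 - cN b) := by
  have ha := TM.H764.cN_sq_add a
  have hb := TM.H764.cN_sq_add b
  have hx := TM.H764.cN_sq_add x
  have ha1 := TM.H764.cN_le_one a
  have hb1 := TM.H764.cN_le_one b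
  have e : cN (x + b - a) - cN (x + b) - cN (x - a) + cN x =
      cN x * ((cN b - 1) * (cN a - 1) + sN b * sN a) -
        sN x * (sN b * (cN a - 1) - (cN b - 1) * sN a) := by
    rw [TM.H764.cN_sub, TM.H764.cN_sub, TM.H764.cN_add, TM.H764.sN_add]
    ring
  rw [e]
  set P : ℝ := (cN b - 1) * (cN a - 1) + sN b * sN a with hP
  set Q : ℝ := sN b * (cN a - 1) - (cN b - 1) * sN a with hQ
  have h1 : P ^ 2 + Q ^ 2 = 4 * ((1 - cN a) * (1 - cN b)) := by
    have e1 : P ^ 2 + Q ^ 2 = ((cN a - 1) ^ 2 + sN a ^ 2) * ((cN b - 1) ^ 2 + sN b ^ 2) := by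
      rw [hP, hQ]
      ring
    rw [e1, cs_one, cs_one]
    ring
  refine abs_le_of_sq_le_sq ?_ (by linarith)
  have h2 : (cN x * P - sN x * Q) ^ 2 ≤ P ^ 2 + Q ^ 2 := by
    have : (cN x ^ 2 + sN x ^ 2) * (P ^ 2 + Q ^ 2) =
        (cN x * P - sN x * Q) ^ 2 + (cN x * Q + sN x * P) ^ 2 := by ring
    rw [hx, one_mul] at this
    have := sq_nonneg (cN x * Q + sN x * P)
    linarith
  have h3 := sq_nonneg ((1 - cN a) - (1 - cN b))
  nlinarith

/-- the bound of the cross covariance of two windows of half side `D` at distance `R` -/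
def cX (ν c κ C1 β : ℝ) (m D : ℕ) (R : ℝ) : ℝ :=
  10 * ν * D ^ 2 / (m * c ^ 2) + 2 * ((2 * m + 1 : ℕ) * ft κ C1 (2 * m + 1) (R - 2 * D)) / (ν + β)

lemma cX_nonneg (hν : 0 < ν) (hβ : 0 ≤ β) (m D : ℕ) (R : ℝ) : 0 ≤ cX ν c κ C1 β m D R := by
  have := ft_nonneg κ C1 (2 * m + 1) (R - 2 * D)
  unfold cX
  positivity

lemma cX_anti (hν : 0 < ν) (hβ : 0 ≤ β) (hκ : 0 ≤ κ) (m D : ℕ) {R R' : ℝ} (h : R ≤ R') :
    cX ν c κ C1 β m D R' ≤ cX ν c κ C1 β m D R := by
  have := ft_anti (κ := κ) (C1 := C1) hκ (T := 2 * m + 1)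
    (show R - 2 * (D : ℝ) ≤ R' - 2 * D by linarith)
  unfold cX
  have h2 : 2 * ((2 * m + 1 : ℕ) * ft κ C1 (2 * m + 1) (R' - 2 * D)) / (ν + β) ≤
      2 * ((2 * m + 1 : ℕ) * ft κ C1 (2 * m + 1) (R - 2 * D)) / (ν + β) := by
    refine div_le_div_of_nonneg_right ?_ (by positivity)
    refine mul_le_mul_of_nonneg_left ?_ (by norm_num)
    exact mul_le_mul_of_nonneg_left this (Nat.cast_nonneg _)
  linarith

theorem Tl.cross (hT : Tl A ν c κ C1) (hβ : 0 ≤ β) {m : ℕ} (hm : 1 ≤ m)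
    {K : Matrix (V N) (V N) ℝ} (hK : Cv β A K) {D : ℕ} {R : ℝ} {w a b : V N}
    (ha : sn a ≤ D) (hb : sn b ≤ D) (hw : R ≤ sn w) :
    |ck K w a b| ≤ cX ν c κ C1 β m D R := by
  have hν := hT.dom.hν
  have hc := hT.dom.hc
  set T : ℕ := 2 * m + 1 with hTd
  have hT1 : 1 ≤ T := by omega
  have hm' : (0 : ℝ) < m := by exact_mod_cast hm
  have e0 : ck K w a b = ck (sm β ν A T) w a b +
      ∑ k, wt A ν β T k * (cN (dt k w + dt k b - dt k a) - cN (dt k w + dt k b) -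
        cN (dt k w - dt k a) + cN (dt k w)) := by
    have g := fun y => hK.ent hT.dom hβ T y
    have e1 : ck K w a b = (K 0 (w + b - a) - K 0 0) - (K 0 (w + b) - K 0 0) -
        (K 0 (w - a) - K 0 0) + (K 0 w - K 0 0) := by
      unfold ck
      ring
    rw [e1, g, g, g, g]
    have e2 : ∑ k, wt A ν β T k * (cN (dt k w + dt k b - dt k a) - cN (dt k w + dt k b) -
        cN (dt k w - dt k a) + cN (dt k w)) =
        ∑ k, wt A ν β T k * (cN (dt k (w + b - a)) - 1) -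
        ∑ k, wt A ν β T k * (cN (dt k (w + b)) - 1) -
        ∑ k, wt A ν β T k * (cN (dt k (w - a)) - 1) +
        ∑ k, wt A ν β T k * (cN (dt k w) - 1) := by
      rw [← Finset.sum_sub_distrib, ← Finset.sum_sub_distrib, ← Finset.sum_add_distrib]
      refine Finset.sum_congr rfl fun k _ => ?_
      rw [TM.H764.dt_sub, TM.H764.dt_sub, TM.H764.dt_add]
      ring
    rw [e2]
    unfold ck
    ring
  -- distances
  have s1 : (sn w : ℝ) ≤ sn (w + b - a) + 2 * D := by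
    have h1 := TM.H459.sn_add_le (w + b - a) (a - b)
    have h2 := TM.H459.sn_add_le a (-b)
    rw [TM.H459.sn_neg] at h2
    have e : w + b - a + (a - b) = w := by abel
    rw [e] at h1
    rw [← sub_eq_add_neg] at h2
    have : sn w ≤ sn (w + b - a) + 2 * D := by omega
    exact_mod_cast this
  have s2 : (sn w : ℝ) ≤ sn (w + b) + 2 * D := by
    have h1 := TM.H459.sn_add_le (w + b) (-b)
    rw [TM.H459.sn_neg] at h1
    have e : w + b + -b = w := by abel
    rw [e] at h1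
    have : sn w ≤ sn (w + b) + 2 * D := by omega
    exact_mod_cast this
  have s3 : (sn w : ℝ) ≤ sn (w - a) + 2 * D := by
    have h1 := TM.H459.sn_add_le (w - a) a
    have e : w - a + a = w := by abel
    rw [e] at h1
    have : sn w ≤ sn (w - a) + 2 * D := by omega
    exact_mod_cast this
  have hD0 : (0 : ℝ) ≤ D := Nat.cast_nonneg _
  have f1 := hT.sm_far hβ hT1 (y := w + b - a) (r := R - 2 * D) (by linarith)
  have f2 := hT.sm_far hβ hT1 (y := w + b) (r := R - 2 * D) (by linarith)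
  have f3 := hT.sm_far hβ hT1 (y := w - a) (r := R - 2 * D) (by linarith)
  have f4 := hT.sm_far hβ hT1 (y := w) (r := R - 2 * D) (by linarith)
  have g1 : |ck (sm β ν A T) w a b| ≤ 2 * (T * ft κ C1 T (R - 2 * D)) / (ν + β) := by
    have e : 2 * (T * ft κ C1 T (R - 2 * D)) / (ν + β) =
        T * ft κ C1 T (R - 2 * D) / (ν + β) + T * ft κ C1 T (R - 2 * D) / (ν + β) := by ring
    rw [e, abs_le]
    unfold ck
    obtain ⟨f11, f12⟩ := f1
    obtain ⟨f21, f22⟩ := f2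
    obtain ⟨f31, f32⟩ := f3
    obtain ⟨f41, f42⟩ := f4
    constructor <;> linarith
  have g2 : |∑ k, wt A ν β T k * (cN (dt k w + dt k b - dt k a) - cN (dt k w + dt k b) -
        cN (dt k w - dt k a) + cN (dt k w))| ≤ 10 * ν * D ^ 2 / (m * c ^ 2) := by
    have h1 := smooth hT.dom hβ hm a
    have h2 := smooth hT.dom hβ hm b
    have h3 : |∑ k, wt A ν β T k * (cN (dt k w + dt k b - dt k a) - cN (dt k w + dt k b) -
        cN (dt k w - dt k a) + cN (dt k w))| ≤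
        1 / 2 * (∑ k, wt A ν β T k * (2 * (1 - cN (dt k a))) +
          ∑ k, wt A ν β T k * (2 * (1 - cN (dt k b)))) := by
      refine (Finset.abs_sum_le_sum_abs _ _).trans ?_
      rw [← Finset.sum_add_distrib, Finset.mul_sum]
      refine Finset.sum_le_sum fun k _ => ?_
      rw [abs_mul, abs_of_nonneg (wt_nonneg hT.dom hβ T k)]
      refine (mul_le_mul_of_nonneg_left (cos_mixed (dt k w) (dt k a) (dt k b))
        (wt_nonneg hT.dom hβ T k)).trans (le_of_eq ?_)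
      ring
    have h4 : ∀ {v : V N}, sn v ≤ D → (sn v : ℝ) ^ 2 ≤ (D : ℝ) ^ 2 := fun hv =>
      pow_le_pow_left₀ (Nat.cast_nonneg _) (by exact_mod_cast hv) 2
    have h5 : ∀ {v : V N}, sn v ≤ D → 10 * ν / (m * c ^ 2) * (sn v : ℝ) ^ 2 ≤
        10 * ν * D ^ 2 / (m * c ^ 2) := fun hv =>
      (mul_le_mul_of_nonneg_left (h4 hv) (by positivity)).trans (le_of_eq (by ring))
    have h6 := h5 ha
    have h7 := h5 hb
    rw [← hTd] at h1 h2
    linarith
  rw [e0]
  refine (abs_add_le _ _).trans ?_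
  unfold cX
  rw [← hTd]
  linarith

/-! ### several windows -/

section mw

variable {J L : Type*}

/-- increments of the windows `bp j + z j` of base points `bp j` -/
def mw (bp : J → V N) (z : J → ℤ × ℤ) : Matrix J (V N) ℝ :=
  Matrix.of fun j y => (if y = bp j + ip N (z j) then 1 else 0) - (if y = bp j then 1 else 0)

lemma mw_mul (bp : J → V N) (z : J → ℤ × ℤ) (M : Matrix (V N) L ℝ) (i : J) (y : L) :
    (mw bp z * M) i y = M (bp i + ip N (z i)) y - M (bp i) y := by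
  rw [Matrix.mul_apply]
  unfold mw
  simp only [Matrix.of_apply, sub_mul, ite_mul, one_mul, zero_mul, Finset.sum_sub_distrib,
    Finset.sum_ite_eq', mem_univ, if_true]

lemma mul_mwT (bp : J → V N) (z : J → ℤ × ℤ) (M : Matrix L (V N) ℝ) (i : L) (j : J) :
    (M * (mw bp z)ᵀ) i j = M i (bp j + ip N (z j)) - M i (bp j) := by
  rw [Matrix.mul_apply]
  unfold mw
  simp only [Matrix.transpose_apply, Matrix.of_apply, mul_sub, mul_ite, mul_one, mul_zero,
    Finset.sum_sub_distrib, Finset.sum_ite_eq', mem_univ, if_true]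

lemma mw_mulVec (bp : J → V N) (z : J → ℤ × ℤ) (F : V N → ℝ) (j : J) :
    (mw bp z *ᵥ F) j = F (bp j + ip N (z j)) - F (bp j) := by
  unfold mw Matrix.mulVec dotProduct
  simp only [Matrix.of_apply, sub_mul, ite_mul, one_mul, zero_mul, Finset.sum_sub_distrib,
    Finset.sum_ite_eq', mem_univ, if_true]

/-- the entries of the covariance of the increments -/
lemma mw_TI {K : Matrix (V N) (V N) ℝ} (hK : TI K) (bp : J → V N) (z : J → ℤ × ℤ) (i j : J) :
    (mw bp z * K * (mw bp z)ᵀ) i j = ck K (bp j - bp i) (ip N (z i)) (ip N (z j)) := by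
  rw [mul_mwT, mw_mul, mw_mul]
  unfold ck
  rw [hK.eq (bp i + ip N (z i)) (bp j + ip N (z j)), hK.eq (bp i) (bp j + ip N (z j)),
    hK.eq (bp i + ip N (z i)) (bp j), hK.eq (bp i) (bp j)]
  rw [show bp j + ip N (z j) - (bp i + ip N (z i)) = bp j - bp i + ip N (z j) - ip N (z i) by
      abel,
    show bp j + ip N (z j) - bp i = bp j - bp i + ip N (z j) by abel,
    show bp j - (bp i + ip N (z i)) = bp j - bp i - ip N (z i) by abel]
  ring

lemma ck_zero (K : Matrix (V N) (V N) ℝ) (ζ ζ' : ℤ × ℤ) :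
    ck K 0 (ip N ζ) (ip N ζ') = (K 0 (ip N (ζ' - ζ)) - K 0 0) - (K 0 (ip N ζ') - K 0 0) -
      (K 0 (ip N (-ζ)) - K 0 0) := by
  unfold ck
  rw [ip_sub, ip_neg, zero_add, zero_sub]
  ring

variable [Fintype J]

lemma mwT_mulVec_sum (bp : J → V N) (z : J → ℤ × ℤ) (u : J → ℝ) :
    ∑ y, ((mw bp z)ᵀ *ᵥ u) y = 0 := by
  unfold Matrix.mulVec dotProduct
  rw [Finset.sum_comm]
  refine Finset.sum_eq_zero fun j _ => ?_
  rw [← Finset.sum_mul]
  have : ∑ y, (mw bp z)ᵀ y j = 0 := by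
    unfold mw
    simp only [Matrix.transpose_apply, Matrix.of_apply, Finset.sum_sub_distrib,
      Finset.sum_ite_eq', mem_univ, if_true]
    ring
  rw [this, zero_mul]

/-- increments away from the base points have independent components -/
lemma mw_low {bp : J → V N} {z : J → ℤ × ℤ}
    (h1 : ∀ i j, bp i + ip N (z i) = bp j + ip N (z j) → i = j)
    (h2 : ∀ i j, bp i + ip N (z i) ≠ bp j) (u : J → ℝ) :
    ∑ j, u j ^ 2 ≤ ∑ y, ((mw bp z)ᵀ *ᵥ u) y ^ 2 := by
  classical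
  have e : ∀ i, ((mw bp z)ᵀ *ᵥ u) (bp i + ip N (z i)) = u i := by
    intro i
    unfold Matrix.mulVec dotProduct mw
    simp only [Matrix.transpose_apply, Matrix.of_apply]
    rw [Finset.sum_eq_single i]
    · rw [if_pos rfl, if_neg (h2 i i)]
      ring
    · intro j _ hj
      rw [if_neg fun he => hj (h1 i j he).symm, if_neg (h2 i j)]
      ring
    · intro hi
      exact absurd (mem_univ i) hi
  calc ∑ j, u j ^ 2 = ∑ j, ((mw bp z)ᵀ *ᵥ u) (bp j + ip N (z j)) ^ 2 :=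
        Finset.sum_congr rfl fun j _ => by rw [e]
    _ = ∑ y ∈ univ.image (fun j => bp j + ip N (z j)), ((mw bp z)ᵀ *ᵥ u) y ^ 2 := by
        rw [Finset.sum_image fun i _ j _ h => h1 i j h]
    _ ≤ _ := Finset.sum_le_sum_of_subset_of_nonneg (Finset.subset_univ _)
        fun y _ _ => sq_nonneg _

end mw

lemma Cv.low0 {K : Matrix (V N) (V N) ℝ} (hK : Cv β A K) (h : Dom A ν c) (hβ : 0 ≤ β)
    {U : V N → ℝ} (hU : ∑ x, U x = 0) : (ν + β)⁻¹ * ∑ x, U x ^ 2 ≤ qf K U := by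
  have hν := h.hν
  have hN := H864.N_pos (N := N)
  have h0 : hsq U 0 = 0 := by rw [hsq_zero, hU]; ring
  rw [H864.qf_eq_sum hK.ti, ← H864.sum_hsq, ← mul_assoc, mul_comm (ν + β)⁻¹, mul_assoc]
  refine mul_le_mul_of_nonneg_left ?_ (by positivity)
  rw [Finset.mul_sum]
  refine Finset.sum_le_sum fun k _ => ?_
  by_cases hk : k = 0
  · rw [hk, h0, mul_zero, mul_zero]
  · rw [hK.sy k hk]
    refine mul_le_mul_of_nonneg_right ?_ (H864.hsq_nonneg U k)
    have h3 := sym_pos h hk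
    have h4 := h.le k
    exact inv_anti₀ (by linarith) (by linarith)

/-! ### relative comparison of two families of windows -/

section main

variable {I J : Type*} [Fintype I] [Fintype J] [DecidableEq I] [DecidableEq J]

/-- two families of windows: the same class has the same base point on both sides, different
classes are at distance `≥ R` on both sides -/
def Fam (bp : J → V N) (bp2 : J → V N2) (R : ℝ) : Prop :=
  ∀ i j, (bp i = bp j ∧ bp2 i = bp2 j) ∨ (R ≤ sn (bp j - bp i) ∧ R ≤ sn (bp2 j - bp2 i))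

lemma win_sep {bp : J → V N} {bp2 : J → V N2} {R : ℝ} {D : ℕ} (hF : Fam bp bp2 R)
    (hR : 2 * (D : ℝ) < R) (hDN : 4 * D < N) {z : J → ℤ × ℤ}
    (hz : ∀ j, (z j).1.natAbs ≤ D ∧ (z j).2.natAbs ≤ D)
    (hzi : ∀ i j, bp i = bp j → z i = z j → i = j) :
    (∀ i j, bp i + ip N (z i) = bp j + ip N (z j) → i = j) ∧
    ((∀ j, z j ≠ 0) → ∀ i j, bp i + ip N (z i) ≠ bp j) := by
  have hs : ∀ j, sn (ip N (z j)) ≤ D := fun j => sn_ip_le (hz j).1 (hz j).2
  constructor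
  · intro i j hij
    rcases hF i j with ⟨h1, -⟩ | ⟨h1, -⟩
    · rw [h1] at hij
      exact hzi i j h1 (ip_inj (D := D) (by omega) (hz i).1 (hz i).2 (hz j).1 (hz j).2
        (add_left_cancel hij))
    · exfalso
      have e : bp j - bp i = ip N (z i) + -ip N (z j) := by
        have : bp i + ip N (z i) - ip N (z j) - bp i = bp j - bp i := by rw [hij]; abel
        rw [← this]
        abel
      have h2 := TM.H459.sn_add_le (ip N (z i)) (-ip N (z j))
      rw [TM.H459.sn_neg, ← e] at h2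
      have h3 := hs i
      have h4 := hs j
      have h5 : (sn (bp j - bp i) : ℝ) ≤ 2 * D := by
        have : sn (bp j - bp i) ≤ 2 * D := by omega
        exact_mod_cast this
      linarith
  · intro hz0 i j hij
    rcases hF i j with ⟨h1, -⟩ | ⟨h1, -⟩
    · rw [h1] at hij
      have h2 : ip N (z i) = ip N 0 := by
        rw [ip_zero]
        exact add_eq_left.1 hij
      exact hz0 i (ip_inj (D := D) (by omega) (hz i).1 (hz i).2 (by simp) (by simp) h2)
    · have e : bp j - bp i = ip N (z i) := by rw [← hij]; abel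
      rw [e] at h1
      have h3 : (sn (ip N (z i)) : ℝ) ≤ D := by exact_mod_cast hs i
      have h4 : (0 : ℝ) ≤ D := Nat.cast_nonneg _
      linarith

/-- bounds `X` of the cross covariances between different windows, on both sides -/
def XB (z : J → ℤ × ℤ) (bp : J → V N) (bp2 : J → V N2) (K : Matrix (V N) (V N) ℝ)
    (K2 : Matrix (V N2) (V N2) ℝ) (X : ℝ) : Prop :=
  ∀ i j, ¬(bp i = bp j ∧ bp2 i = bp2 j) →
    |ck K (bp j - bp i) (ip N (z i)) (ip N (z j))| ≤ X ∧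
    |ck K2 (bp2 j - bp2 i) (ip N2 (z i)) (ip N2 (z j))| ≤ X

/-- **comparison of the covariances of two families of windows**, all points off the base
points, abstract cross bound -/
theorem fam_gen' (hA : Dom A ν c) (hβ : 0 ≤ β) {D : ℕ}
    (hDN : 4 * D < N) {K : Matrix (V N) (V N) ℝ} {K2 : Matrix (V N2) (V N2) ℝ}
    (hK : Cv β A K) (hK2 : TI K2) {e X : ℝ} (he0 : 0 ≤ e) (hX0 : 0 ≤ X)
    (he : ∀ ζ : ℤ × ℤ, ζ.1.natAbs ≤ 2 * D → ζ.2.natAbs ≤ 2 * D →
      |(K2 0 (ip N2 ζ) - K2 0 0) - (K 0 (ip N ζ) - K 0 0)| ≤ e)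
    {z : J → ℤ × ℤ} (hz : ∀ j, (z j).1.natAbs ≤ D ∧ (z j).2.natAbs ≤ D)
    {bp : J → V N} {bp2 : J → V N2} (hzi : ∀ i j, bp i = bp j → z i = z j → i = j)
    (hz0 : ∀ j, z j ≠ 0) {R : ℝ} (hR : 2 * (D : ℝ) < R) (hF : Fam bp bp2 R)
    (hX : XB z bp bp2 K K2 X)
    {B1 : Matrix J I ℝ} (hB1 : B1 * B1ᵀ = mw bp z * K * (mw bp z)ᵀ) :
    ∃ H : Matrix I I ℝ, Hᵀ = H ∧ mw bp2 z * K2 * (mw bp2 z)ᵀ = B1 * (1 + H) * B1ᵀ ∧
      ∑ x, ∑ y, H x y ^ 2 ≤ ((ν + β) * Fintype.card J * (3 * e + 2 * X)) ^ 2 := by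
  have hν := hA.hν
  obtain ⟨hsep, hsep0⟩ := win_sep hF hR hDN hz hzi
  set G2 : Matrix J J ℝ := mw bp2 z * K2 * (mw bp2 z)ᵀ with hG2
  have hG2t : G2ᵀ = G2 := by
    rw [hG2, Matrix.transpose_mul, Matrix.transpose_mul, Matrix.transpose_transpose,
      hK2.transpose, Matrix.mul_assoc]
  have hlow : ∀ u : J → ℝ, (ν + β)⁻¹ * ∑ j, u j ^ 2 ≤ ∑ i, (B1ᵀ *ᵥ u) i ^ 2 := by
    intro u
    rw [qf_gram, hB1, qf_win]
    refine le_trans ?_ (Cv.low0 hK hA hβ (mwT_mulVec_sum bp z u))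
    exact mul_le_mul_of_nonneg_left (mw_low hsep (hsep0 hz0) u) (by positivity)
  obtain ⟨H, hH, hHG, hHS⟩ := hs_of_ent hG2t (show 0 < (ν + β)⁻¹ by positivity) hlow
  refine ⟨H, hH, hHG.symm, ?_⟩
  refine hHS.trans ?_
  have hent : ∀ i j, (G2 - B1 * B1ᵀ) i j ^ 2 ≤ (3 * e + 2 * X) ^ 2 := by
    intro i j
    rw [Matrix.sub_apply, hB1, hG2, mw_TI hK2, mw_TI hK.ti]
    rw [← sq_abs]
    refine pow_le_pow_left₀ (abs_nonneg _) ?_ 2
    by_cases hij : bp i = bp j ∧ bp2 i = bp2 j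
    · obtain ⟨h1, h2⟩ := hij
      rw [h1, h2, sub_self, sub_self, ck_zero, ck_zero]
      have g1 := (hz i).1
      have g2 := (hz i).2
      have g3 := (hz j).1
      have g4 := (hz j).2
      have a1 := abs_le.1 (he (z j - z i) (by rw [Prod.fst_sub]; omega)
        (by rw [Prod.snd_sub]; omega))
      have a2 := abs_le.1 (he (-z i) (by rw [Prod.fst_neg]; omega) (by rw [Prod.snd_neg]; omega))
      have a3 := abs_le.1 (he (z j) (by omega) (by omega))
      obtain ⟨a11, a12⟩ := a1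
      obtain ⟨a21, a22⟩ := a2
      obtain ⟨a31, a32⟩ := a3
      rw [abs_le]
      constructor <;> linarith
    · have a := hX i j hij
      obtain ⟨a11, a12⟩ := abs_le.1 a.1
      obtain ⟨a21, a22⟩ := abs_le.1 a.2
      rw [abs_le]
      constructor <;> linarith
  have h5 : ∑ i, ∑ j, (G2 - B1 * B1ᵀ) i j ^ 2 ≤ ∑ _i : J, ∑ _j : J, (3 * e + 2 * X) ^ 2 :=
    Finset.sum_le_sum fun i _ => Finset.sum_le_sum fun j _ => hent i j
  simp only [Finset.sum_const, Finset.card_univ, nsmul_eq_mul] at h5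
  rw [inv_inv]
  refine (mul_le_mul_of_nonneg_left h5 (by positivity)).trans (le_of_eq ?_)
  ring

/-- **comparison of the covariances of two families of windows**, abstract cross bound -/
theorem fam_gen (hA : Dom A ν c) (hβ : 0 ≤ β) {D : ℕ}
    (hDN : 4 * D < N) {K : Matrix (V N) (V N) ℝ} {K2 : Matrix (V N2) (V N2) ℝ}
    (hK : Cv β A K) (hK2 : TI K2) {e X : ℝ} (he0 : 0 ≤ e) (hX0 : 0 ≤ X)
    (he : ∀ ζ : ℤ × ℤ, ζ.1.natAbs ≤ 2 * D → ζ.2.natAbs ≤ 2 * D →
      |(K2 0 (ip N2 ζ) - K2 0 0) - (K 0 (ip N ζ) - K 0 0)| ≤ e)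
    {z : J → ℤ × ℤ} (hz : ∀ j, (z j).1.natAbs ≤ D ∧ (z j).2.natAbs ≤ D)
    {bp : J → V N} {bp2 : J → V N2} (hzi : ∀ i j, bp i = bp j → z i = z j → i = j)
    {R : ℝ} (hR : 2 * (D : ℝ) < R) (hF : Fam bp bp2 R) (hX : XB z bp bp2 K K2 X)
    {B1 : Matrix J I ℝ} (hB1 : B1 * B1ᵀ = mw bp z * K * (mw bp z)ᵀ) :
    ∃ H : Matrix I I ℝ, Hᵀ = H ∧ mw bp2 z * K2 * (mw bp2 z)ᵀ = B1 * (1 + H) * B1ᵀ ∧
      ∑ x, ∑ y, H x y ^ 2 ≤ ((ν + β) * Fintype.card J * (3 * e + 2 * X)) ^ 2 := by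
  have hν := hA.hν
  set J' : Type _ := {j : J // z j ≠ 0} with hJ'
  set B1' : Matrix J' I ℝ := B1.submatrix Subtype.val id with hB1'
  have sub1 : ∀ {M : ℕ} [NeZero M] (a : J → V M) (K : Matrix (V M) (V M) ℝ) (i j : J'),
      (mw (fun j : J' => a j.1) (fun j : J' => z j.1) * K *
        (mw (fun j : J' => a j.1) fun j : J' => z j.1)ᵀ) i j =
        (mw a z * K * (mw a z)ᵀ) i.1 j.1 := by
    intro M _ a K i j
    rw [mul_mwT, mw_mul, mw_mul, mul_mwT, mw_mul, mw_mul]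
  have h1 : B1' * B1'ᵀ = mw (fun j : J' => bp j.1) (fun j : J' => z j.1) * K *
      (mw (fun j : J' => bp j.1) fun j : J' => z j.1)ᵀ := by
    ext i j
    rw [sub1 bp K i j, ← hB1]
    rfl
  obtain ⟨H, hH, hHG, hHS⟩ := fam_gen' hA hβ hDN hK hK2 he0 hX0 he
    (z := fun j : J' => z j.1) (fun j => hz j.1) (bp := fun j : J' => bp j.1)
    (bp2 := fun j : J' => bp2 j.1) (fun i j h h' => Subtype.ext (hzi _ _ h h')) (fun j => j.2)
    hR (fun i j => hF i.1 j.1) (fun i j => hX i.1 j.1) h1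
  refine ⟨H, hH, ?_, ?_⟩
  · -- rows with `z j = 0` vanish
    have hrow : ∀ j, z j = 0 → ∀ i, B1 j i = 0 := by
      intro j hj
      have h2 : (B1 * B1ᵀ) j j = 0 := by
        rw [hB1, mul_mwT, mw_mul, mw_mul, hj, ip_zero, add_zero]
        ring
      rw [Matrix.mul_apply] at h2
      have h3 : ∀ i ∈ (univ : Finset I), B1 j i * B1ᵀ i j = 0 :=
        (Finset.sum_eq_zero_iff_of_nonneg fun i _ => mul_self_nonneg _).1 h2
      intro i
      exact mul_self_eq_zero.1 (h3 i (mem_univ i))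
    ext i j
    by_cases hi : z i = 0
    · have e1 : (B1 * (1 + H) * B1ᵀ : Matrix J J ℝ) i j = 0 := by
        rw [Matrix.mul_apply]
        refine Finset.sum_eq_zero fun l _ => ?_
        have : (B1 * (1 + H) : Matrix J I ℝ) i l = 0 := by
          rw [Matrix.mul_apply]
          exact Finset.sum_eq_zero fun l' _ => by rw [hrow i hi, zero_mul]
        rw [this, zero_mul]
      rw [e1, mul_mwT, mw_mul, mw_mul, hi, ip_zero, add_zero]
      ring
    · by_cases hj : z j = 0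
      · have e1 : (B1 * (1 + H) * B1ᵀ : Matrix J J ℝ) i j = 0 := by
          rw [Matrix.mul_apply]
          refine Finset.sum_eq_zero fun l _ => ?_
          rw [Matrix.transpose_apply, hrow j hj, mul_zero]
        rw [e1, mul_mwT, mw_mul, mw_mul, hj, ip_zero, add_zero]
        ring
      · have e1 := congrFun (congrFun hHG ⟨i, hi⟩) ⟨j, hj⟩
        rw [sub1 bp2 K2 ⟨i, hi⟩ ⟨j, hj⟩] at e1
        rw [e1]
        rfl
  · refine hHS.trans (pow_le_pow_left₀ (by positivity) ?_ 2)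
    have hc : (Fintype.card J' : ℝ) ≤ Fintype.card J := by
      exact_mod_cast Fintype.card_subtype_le _
    refine mul_le_mul_of_nonneg_right ?_ (by positivity)
    exact mul_le_mul_of_nonneg_left hc (by positivity)

/-- the cross bound from the step kernels -/
lemma Tl.xb (hT : Tl A ν c κ C1) (hT2 : Tl A2 ν c κ C1) (hβ : 0 ≤ β) {m D : ℕ} (hm : 1 ≤ m)
    {K : Matrix (V N) (V N) ℝ} {K2 : Matrix (V N2) (V N2) ℝ} (hK : Cv β A K) (hK2 : Cv β A2 K2)
    {z : J → ℤ × ℤ} (hz : ∀ j, (z j).1.natAbs ≤ D ∧ (z j).2.natAbs ≤ D)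
    {bp : J → V N} {bp2 : J → V N2} {R : ℝ} (hF : Fam bp bp2 R) :
    XB z bp bp2 K K2 (cX ν c κ C1 β m D R) := by
  intro i j hij
  rcases hF i j with h | ⟨h1, h2⟩
  · exact absurd h hij
  · exact ⟨hT.cross hβ hm hK (sn_ip_le (hz i).1 (hz i).2) (sn_ip_le (hz j).1 (hz j).2) h1,
      hT2.cross hβ hm hK2 (sn_ip_le (hz i).1 (hz i).2) (sn_ip_le (hz j).1 (hz j).2) h2⟩

/-- **comparison of the covariances of two families of windows** -/
theorem fam_hs (hT : Tl A ν c κ C1) (hT2 : Tl A2 ν c κ C1) (hβ : 0 ≤ β) {m D : ℕ} (hm : 1 ≤ m)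
    (hDN : 4 * D < N) {K : Matrix (V N) (V N) ℝ} {K2 : Matrix (V N2) (V N2) ℝ}
    (hK : Cv β A K) (hK2 : Cv β A2 K2) {e : ℝ} (he0 : 0 ≤ e)
    (he : ∀ ζ : ℤ × ℤ, ζ.1.natAbs ≤ 2 * D → ζ.2.natAbs ≤ 2 * D →
      |(K2 0 (ip N2 ζ) - K2 0 0) - (K 0 (ip N ζ) - K 0 0)| ≤ e)
    {z : J → ℤ × ℤ} (hz : ∀ j, (z j).1.natAbs ≤ D ∧ (z j).2.natAbs ≤ D)
    {bp : J → V N} {bp2 : J → V N2} (hzi : ∀ i j, bp i = bp j → z i = z j → i = j)
    {R : ℝ} (hR : 2 * (D : ℝ) < R) (hF : Fam bp bp2 R)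
    {B1 : Matrix J I ℝ} (hB1 : B1 * B1ᵀ = mw bp z * K * (mw bp z)ᵀ) :
    ∃ H : Matrix I I ℝ, Hᵀ = H ∧ mw bp2 z * K2 * (mw bp2 z)ᵀ = B1 * (1 + H) * B1ᵀ ∧
      ∑ x, ∑ y, H x y ^ 2 ≤
        ((ν + β) * Fintype.card J * (3 * e + 2 * cX ν c κ C1 β m D R)) ^ 2 :=
  fam_gen hT.dom hβ hDN hK hK2.ti he0 (cX_nonneg hT.dom.hν hβ m D R) he hz hzi hR hF
    (hT.xb hT2 hβ hm hK hK2 hz hF) hB1

end main

end

end Vale.Agent.P159.H708
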