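import Vale.Agent.P159.H708.Wl19
import Vale.Agent.P159.H37.Sp1
import Vale.Agent.P159.H859.Idl4

/-!
P159 / H708 (module WL), part 20: the field `cmp` of a level of S in the letters of the flow
(`SFlow`): windows `2 ^ (n + k n) ≤ R ≤ 2 ^ (n' + k n')`, all large levels.
-/

set_option linter.unusedSectionVars false

namespace Vale.Agent.P159.H708

open Finset Matrix MeasureTheory Filter Topology
open Vale.Agent.P159.TM.Spec (V)
open Vale.Agent.P159.TM.SpecC (wT)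
open Vale.Agent.P159.H37 (gau qf)
open Vale.Agent.P159.H37.Sf (kf sf_wt sf_k3 sf_eps dom_Anm')
open Vale.Agent.P159.H963 (Anm An)
open Vale.Agent.P159.H864 (yt)
open Vale.Agent.P159.H686 (Cmp wdS)
open Vale.Agent.P159.H801 (Ev PS SFlow)
open Vale.Agent.P159.H972 (Par tn Good YBn)
open Vale.Agent.P159.H640 (lg_lo)
open Vale.Agent.P159.H773 (sd nuF)

noncomputable section

section flow

variable {P : Par} {b σ c c1 q2 qx : ℝ} {a y ε xs : ℕ → ℝ} {c' r q A : ℝ} {N : ℕ}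

/-- `y n ≤ C / (n + 1)` -/
lemma sf_yn (h : SFlow P b σ c c1 q2 qx a y ε xs c' r q A N) :
    ∃ C : ℝ, 0 < C ∧ ∀ n : ℕ, y n ≤ C / (n + 1) := by
  obtain ⟨K, hK, h1⟩ := h.t3.lower
  obtain ⟨C, hC, h2⟩ := h.t3.fl.decay (a := 2) (K := K) (by norm_num)
    (by have := h.t3.fl.c0; linarith) hK (by simpa only [Real.rpow_two] using h1)
  refine ⟨C, hC, fun n => ?_⟩
  have h3 := h2 n
  rwa [div_self (two_ne_zero' ℝ), Real.rpow_one] at h3

/-- `ε ≤ y ^ (5 / 4)` -/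
lemma sf_up (h : SFlow P b σ c c1 q2 qx a y ε xs c' r q A N) (hσ : σ ≤ 1 / 4) {n : ℕ}
    (hn : N ≤ n) : ε n ≤ y n ^ (5 / 4 : ℝ) :=
  (h.up n hn).trans (Real.rpow_le_rpow_of_exponent_ge (h.fl.y0 n) (h.y1 n hn) (by linarith))

/-- `y ^ 2 ≤ ε` -/
lemma sf_lo (h : SFlow P b σ c c1 q2 qx a y ε xs c' r q A N) (hσ : 0 ≤ σ) {n : ℕ}
    (hn : N ≤ n) : y n ^ (2 : ℝ) ≤ ε n :=
  (Real.rpow_le_rpow_of_exponent_ge (h.fl.y0 n) (h.y1 n hn) (by linarith)).trans (h.lo n hn)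

/-- `n ε ≤ 1` -/
lemma sf_ne (h : SFlow P b σ c c1 q2 qx a y ε xs c' r q A N) (hσ : σ ≤ 1 / 4) :
    ∀ᶠ n : ℕ in atTop, (n : ℝ) * ε n ≤ 1 := by
  obtain ⟨C, hC, hy⟩ := sf_yn h
  filter_upwards [eventually_ge_atTop N,
    h.fl.ev_pow (b := 1 / 4) (e := 1 / C) (by norm_num) (by positivity)] with n hn h1
  have h2 := sf_up h hσ hn
  have h3 := h.fl.y0 n
  have h4 : y n ^ (5 / 4 : ℝ) = y n * y n ^ (1 / 4 : ℝ) := by
    conv_rhs => rw [← Real.rpow_one (y n), ← Real.rpow_mul h3.le, ← Real.rpow_add h3]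
    norm_num
  have h5 : (n : ℝ) * y n ≤ C := by
    have h6 := hy n
    rw [le_div_iff₀ (by positivity)] at h6
    nlinarith
  calc (n : ℝ) * ε n ≤ n * (y n * y n ^ (1 / 4 : ℝ)) := by
        rw [← h4]
        exact mul_le_mul_of_nonneg_left h2 (Nat.cast_nonneg _)
    _ = (n * y n) * y n ^ (1 / 4 : ℝ) := by ring
    _ ≤ C * (1 / C) := mul_le_mul h5 h1 (Real.rpow_nonneg h3.le _) hC.le
    _ = 1 := by field_simp

/-- `ε → 0` -/
lemma sf_e0 (h : SFlow P b σ c c1 q2 qx a y ε xs c' r q A N) (hσ : σ ≤ 1 / 4) {E0 : ℝ}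
    (hE : 0 < E0) : ∀ᶠ n in atTop, ε n ≤ E0 := by
  filter_upwards [eventually_ge_atTop N,
    h.fl.ev_pow (b := 5 / 4) (e := E0) (by norm_num) hE] with n hn h1
  exact (sf_up h hσ hn).trans h1

/-- the tori of the window -/
lemma sf_tt (h : SFlow P b σ c c1 q2 qx a y ε xs c' r q A N) (hσ0 : 0 ≤ σ) (hσ : σ ≤ 1 / 4)
    (hA : P.Adm) {ck : ℝ} (hck : 0 < ck) (hck1 : ck ≤ P.thp) (hck2 : 2 * P.th ≤ ck) (i : ℕ) :
    ∀ᶠ n in atTop, ∀ R, 2 ^ (n + kf ck y n) ≤ R →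
      R ≤ 2 ^ (n + P.w (ε n) + kf ck y (n + P.w (ε n))) →
      P.TT n (ε n) (i + Nat.clog 2 R) := by
  filter_upwards [eventually_ge_atTop N, sf_k3 h hσ hck hck1,
    (sf_wt h hσ).eventually_ge_atTop i] with n hn h3 hw R h1 h2
  have hy := h.fl.y0 n
  have hy1 := h.y1 n hn
  have he := sf_eps h hn
  have he1 : ε n ≤ 1 := (h.es n hn).trans (P.es1.trans (by norm_num))
  have hk : P.kE (ε n) ≤ kf ck y n := by
    unfold Par.kE kf H972.lg
    apply Nat.ceil_mono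
    have k1 : Real.logb 2 (1 / ε n) ≤ 2 * Real.logb 2 (1 / y n) := by
      have k2 : 1 / ε n ≤ (1 / y n) ^ (2 : ℝ) := by
        rw [one_div, one_div, Real.inv_rpow hy.le]
        exact inv_anti₀ (Real.rpow_pos_of_pos hy _) (sf_lo h hσ0 hn)
      have k3 := Real.logb_le_logb_of_le one_lt_two (by positivity) k2
      rwa [Real.logb_rpow_eq_mul_logb_of_pos (by positivity)] at k3
    have k4 : 0 ≤ Real.logb 2 (1 / y n) :=
      Real.logb_nonneg one_lt_two (by rw [le_div_iff₀ hy]; linarith)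
    have k5 := P.th0
    calc P.th * Real.logb 2 (1 / ε n) ≤ P.th * (2 * Real.logb 2 (1 / y n)) :=
          mul_le_mul_of_nonneg_left k1 k5.le
      _ = (2 * P.th) * Real.logb 2 (1 / y n) := by ring
      _ ≤ _ := mul_le_mul_of_nonneg_right hck2 k4
  have c1 : n + kf ck y n ≤ Nat.clog 2 R := by
    have k1 : 2 ^ (n + kf ck y n) ≤ 2 ^ Nat.clog 2 R :=
      h1.trans (Nat.le_pow_clog (by norm_num) R)
    exact (Nat.pow_le_pow_iff_right (by norm_num)).1 k1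
  have c2 : Nat.clog 2 R ≤ n + P.w (ε n) + kf ck y (n + P.w (ε n)) := by
    have k1 := Nat.clog_mono_right 2 h2
    rwa [Nat.clog_pow 2 _ (by norm_num)] at k1
  have hq := hA.hq
  have k6 : 2 * (4 * P.w (ε n)) ≤ P.q0 * (4 * P.w (ε n)) := Nat.mul_le_mul_right _ hq
  exact ⟨by omega, by omega⟩

end flow

/-- exponentially small numbers -/
lemma ev_exps {y : ℕ → ℝ} (hy : ∀ n, 0 < y n) (ht : Tendsto y atTop (𝓝 0)) {c3 s K κ : ℝ}
    (hs : c3 < s) (hc3 : 0 < c3) (hκ : 0 < κ) :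
    ∀ᶠ n in atTop, K * Real.exp (-(κ * y n ^ (-s))) ≤ Real.exp (-(y n ^ (-c3))) / 3 := by
  have h0 : Tendsto y atTop (𝓝[>] 0) :=
    tendsto_nhdsWithin_iff.2 ⟨ht, Eventually.of_forall hy⟩
  -- `y ^ (-c3) → ∞`, `y ^ (-(s - c3)) → ∞`
  have h1 : Tendsto (fun n => y n ^ (-c3)) atTop atTop :=
    (tendsto_rpow_neg_nhdsGT_zero (by linarith : -c3 < 0)).comp h0
  have h2 : Tendsto (fun n => y n ^ (-(s - c3))) atTop atTop :=
    (tendsto_rpow_neg_nhdsGT_zero (by linarith : -(s - c3) < 0)).comp h0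
  filter_upwards [h1.eventually_ge_atTop (Real.log (3 * (|K| + 1))),
    h2.eventually_ge_atTop (2 / κ)] with n a1 a2
  have hyn := hy n
  have e1 : y n ^ (-s) = y n ^ (-(s - c3)) * y n ^ (-c3) := by
    rw [← Real.rpow_add hyn]
    congr 1
    ring
  have hp : 0 < y n ^ (-c3) := Real.rpow_pos_of_pos hyn _
  have e2 : 2 * y n ^ (-c3) ≤ κ * y n ^ (-s) := by
    rw [e1]
    have : 2 ≤ κ * y n ^ (-(s - c3)) := by
      rw [div_le_iff₀ hκ] at a2
      linarith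
    calc 2 * y n ^ (-c3) ≤ (κ * y n ^ (-(s - c3))) * y n ^ (-c3) :=
          mul_le_mul_of_nonneg_right this hp.le
      _ = _ := by ring
  have e3 : Real.exp (-(κ * y n ^ (-s))) ≤ Real.exp (-(y n ^ (-c3))) * Real.exp (-(y n ^ (-c3))) := by
    rw [← Real.exp_add]
    refine Real.exp_le_exp.2 ?_
    linarith
  have e4 : Real.exp (-(y n ^ (-c3))) ≤ 1 / (3 * (|K| + 1)) := by
    have k1 : 0 < 3 * (|K| + 1) := by positivity
    rw [Real.exp_neg, one_div]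
    refine inv_anti₀ k1 ?_
    calc 3 * (|K| + 1) = Real.exp (Real.log (3 * (|K| + 1))) := (Real.exp_log k1).symm
      _ ≤ _ := Real.exp_le_exp.2 a1
  have hE := Real.exp_pos (-(y n ^ (-c3)))
  have hKa : K ≤ |K| + 1 := (le_abs_self K).trans (by linarith)
  have hKp : 0 < |K| + 1 := by positivity
  calc K * Real.exp (-(κ * y n ^ (-s))) ≤ (|K| + 1) * Real.exp (-(κ * y n ^ (-s))) :=
        mul_le_mul_of_nonneg_right hKa (Real.exp_pos _).le
    _ ≤ (|K| + 1) * (Real.exp (-(y n ^ (-c3))) * Real.exp (-(y n ^ (-c3)))) :=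
        mul_le_mul_of_nonneg_left e3 hKp.le
    _ ≤ (|K| + 1) * (1 / (3 * (|K| + 1)) * Real.exp (-(y n ^ (-c3)))) :=
        mul_le_mul_of_nonneg_left (mul_le_mul_of_nonneg_right e4 hE.le) hKp.le
    _ = _ := by field_simp

/-- **THE FIELD `cmp` OF A LEVEL OF S IN THE LETTERS OF THE FLOW** -/
theorem cmp_sf {b1 : ℝ} (hb1 : 0 < b1) (b2 pf : ℝ) (Qn : ℕ) :
    Ev b1 b2 pf Qn fun P _ => ∀ {b σ c c1 q2 qx : ℝ} {a y ε xs : ℕ → ℝ} {c' r q A : ℝ} {N : ℕ},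
      0 < b → 0 < σ → σ ≤ 1 / 4 → 0 ≤ c → 4 * c ≤ σ →
      SFlow P b σ c c1 q2 qx a y ε xs c' r q A N →
    ∀ (ck kd c3 c5 : ℝ), 0 < ck → ck ≤ P.thp → 2 * P.th ≤ ck → 4 * kd ≤ ck → 0 < c3 →
      c3 < c5 → 32 * c3 < ck →
    ∀ i : ℕ, 1 ≤ i → ∀ᶠ n in atTop, ∀ (D : ℕ) (g : ∀ R, V (sd i R) → ℝ) (η bb ρg : ℝ),
      (D : ℝ) ≤ y n ^ (-kd) * 2 ^ n → 0 ≤ η → η ≤ 1 / 2300 →
      bb ≤ Real.exp (-(y n ^ (-c5))) → 0 < ρg → ρg ^ 2 ≤ y n ^ c5 →
      (∀ R, 2 ^ (n + kf ck y n) ≤ R → R ≤ 2 ^ (n + P.w (ε n) + kf ck y (n + P.w (ε n))) →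
        WtOK b (tn n) η bb (sd i R)) →
      (∀ R, 2 ^ (n + kf ck y n) ≤ R → R ≤ 2 ^ (n + P.w (ε n) + kf ck y (n + P.w (ε n))) →
        qf (An (wT b (sd i R)) (tn n • (1 : Matrix (V (sd i R)) (V (sd i R)) ℝ)) (tn n) 0)
          (g R) ≤ ρg ^ 4) →
      ∀ R, 2 ^ (n + kf ck y n) ≤ R → R ≤ 2 ^ (n + P.w (ε n) + kf ck y (n + P.w (ε n))) →
        Cmp (nuF b (sd i) (tn n) (2 ^ (n + kf ck y n))) (nuF b (sd i) (tn n) R)
          (wdS (sd i) D (2 ^ (n + kf ck y n)) (g (2 ^ (n + kf ck y n))))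
          (wdS (sd i) D R (g R)) (1 / 40) (Real.exp (-(y n ^ (-c3)))) := by
  refine (cmp_lvl hb1 b2 pf Qn).mono fun P _ hA hP => ?_
  obtain ⟨hsum, H⟩ := hP
  intro b σ c c1 q2 qx a y ε xs c' r q A N hb hσ0 hσ hc hc4 h ck kd c3 c5 hck hck1 hck2 hkd hc3
    hc35 hck3 i hi
  have hthp : P.thp ≤ 1 / 800 := by
    have h1 := hA.hq
    have h2 : (2 : ℝ) ≤ P.q0 := by exact_mod_cast h1
    have h3 := P.th0
    have h4 := P.thp0
    nlinarith
  obtain ⟨E0, hE0, H0⟩ := H (1 / b) (ck / 5) (ck / 20) (ck / 2) (by positivity) (by positivity)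
    (by positivity) (by linarith) (by linarith)
  have hyt := h.fl.yt
  have hy0 := h.fl.y0
  filter_upwards [eventually_ge_atTop N, sf_e0 h hσ hE0, sf_ne h hσ,
    sf_tt h hσ0.le hσ hA hck hck1 hck2 i,
    h.fl.ev_pow (b := c5) (e := (1 / 7200) ^ 2) (by linarith) (by positivity),
    ev_exps (K := 32) (κ := 1) hy0 hyt hc35 hc3 one_pos,
    ev_exps (K := 48 * Real.exp 1) (κ := 1 / 2) hy0 hyt hc35 hc3 (by norm_num),
    ev_exps (K := 2) (κ := 1) (s := ck / 32) hy0 hyt (by linarith) hc3 one_pos,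
    ev_exps (K := 32 * 100000) (κ := 1) hy0 hyt hc35 hc3 one_pos,
    (sf_k3 h hσ hck hck1), (sf_wt h hσ).eventually_ge_atTop 1] with
    n hn q1 q3 q4 q5 q6 q7 q8 q9 q10 q11
  intro D g η bb ρg hD hη0 hη hbb hρg0 hρg hWt hg
  have hyn := hy0 n
  have hy1 := h.y1 n hn
  have he := sf_eps h hn
  have hes := h.es n hn
  have he1 : ε n ≤ 1 := hes.trans (P.es1.trans (by norm_num))
  have hup := sf_up h hσ hn
  have hlo := sf_lo h hσ0.le hn
  have hX : (0 : ℝ) < 2 ^ n := by positivity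
  -- powers of `ε` and `y`
  have p1 : ∀ s : ℝ, 0 ≤ s → y n ^ (-(5 / 4 * s)) ≤ ε n ^ (-s) := by
    intro s hs
    have k1 : y n ^ (-(5 / 4 * s)) = (y n ^ (5 / 4 : ℝ)) ^ (-s) := by
      rw [← Real.rpow_mul hyn.le]
      congr 1
      ring
    rw [k1]
    exact Real.rpow_le_rpow_of_nonpos he hup (by linarith)
  have p2 : ∀ s : ℝ, 0 ≤ s → ε n ^ (-s) ≤ y n ^ (-(2 * s)) := by
    intro s hs
    have k1 : y n ^ (-(2 * s)) = (y n ^ (2 : ℝ)) ^ (-s) := by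
      rw [← Real.rpow_mul hyn.le]
      congr 1
      ring
    rw [k1]
    exact Real.rpow_le_rpow_of_nonpos (Real.rpow_pos_of_pos hyn _) hlo (by linarith)
  have hD' : (D : ℝ) ≤ ε n ^ (-(ck / 5)) * 2 ^ n := by
    refine hD.trans (mul_le_mul_of_nonneg_right ?_ hX.le)
    refine le_trans ?_ (p1 (ck / 5) (by positivity))
    exact Real.rpow_le_rpow_of_exponent_ge hyn hy1 (by linarith)
  have hR0 : ε n ^ (-(ck / 2)) * 2 ^ n ≤ ((2 ^ (n + kf ck y n) : ℕ) : ℝ) := by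
    have k1 := p2 (ck / 2) (by positivity)
    have k2 : y n ^ (-(2 * (ck / 2))) ≤ (2 : ℝ) ^ kf ck y n := by
      have := lg_lo (c := ck) hyn
      rw [show 2 * (ck / 2) = ck by ring]
      exact this
    push_cast
    rw [pow_add, mul_comm ((2 : ℝ) ^ n)]
    exact mul_le_mul_of_nonneg_right (k1.trans k2) hX.le
  have hY2 : (max (ε n ^ (-c) * y n) (ε n)) ^ 2 ≤ ε n := by
    rcases le_total (ε n ^ (-c) * y n) (ε n) with k | k
    · rw [max_eq_right k]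
      nlinarith
    · rw [max_eq_left k]
      exact h.Y2 hσ0 hσ hc hc4 hn
  have hyb := h.yb n hn
  have hρ1 : ρg ≤ 1 / 7200 := by
    have := hρg.trans q5
    exact le_of_sq_le_sq this (by norm_num)
  have hbb1 : bb ≤ 1 / 100000 := by
    have k1 : Real.exp (-(y n ^ (-c3))) / 3 ≤ 1 := by
      have : Real.exp (-(y n ^ (-c3))) ≤ 1 := by
        rw [Real.exp_le_one_iff]
        have := Real.rpow_nonneg hyn.le (-c3)
        linarith
      linarith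
    rw [one_mul] at q9
    have k2 := q9.trans k1
    linarith
  have hwin : 2 ^ (n + kf ck y n) ≤ 2 ^ (n + P.w (ε n) + kf ck y (n + P.w (ε n))) ∨
      2 ^ (n + P.w (ε n) + kf ck y (n + P.w (ε n))) < 2 ^ (n + kf ck y n) := le_or_gt _ _
  rcases hwin with hwin | hwin
  swap
  · intro R h1 h2
    exact absurd (h1.trans h2) (not_le.2 hwin)
  intro R h1 h2
  have hmain := H0 b i n (2 ^ (n + kf ck y n)) (2 ^ (n + P.w (ε n) + kf ck y (n + P.w (ε n)))) D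
    (ε n) (max (ε n ^ (-c) * y n) (ε n)) η bb ρg g hb he q1 hes (h.good n hn) q3 hY2 hi hwin hD'
    hR0 hη0 (by linarith) hρg0 hρ1 q4
    (fun R h3 h4 => hyb.2.1 (ε n) le_rfl hes _ (q4 R h3 h4).1)
    (fun R _ _ => dom_Anm' hb (H972.tn_pos n)) hWt hg R h1 h2
  refine cmp_mono hmain le_rfl ?_
  -- the tail
  have t1 : 32 * bb ≤ Real.exp (-(y n ^ (-c3))) / 3 := by
    rw [one_mul] at q6
    linarith
  have t2 : 48 * Real.exp (1 - 1 / (2 * ρg ^ 2)) ≤ Real.exp (-(y n ^ (-c3))) / 3 := by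
    refine le_trans ?_ q7
    have k1 : 1 / 2 * y n ^ (-c5) ≤ 1 / (2 * ρg ^ 2) := by
      have k2 : y n ^ (-c5) ≤ 1 / ρg ^ 2 := by
        rw [Real.rpow_neg hyn.le, ← one_div]
        exact one_div_le_one_div_of_le (by positivity) hρg
      calc 1 / 2 * y n ^ (-c5) ≤ 1 / 2 * (1 / ρg ^ 2) :=
            mul_le_mul_of_nonneg_left k2 (by norm_num)
        _ = _ := by field_simp
    rw [mul_assoc, ← Real.exp_add]
    refine mul_le_mul_of_nonneg_left (Real.exp_le_exp.2 ?_) (by norm_num)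
    linarith
  have t3 : 2 * Real.exp (-(ε n ^ (-(ck / 20 / 2)))) ≤ Real.exp (-(y n ^ (-c3))) / 3 := by
    refine le_trans ?_ q8
    have k1 := p1 (ck / 20 / 2) (by positivity)
    have k2 : -(5 / 4 * (ck / 20 / 2)) = -(ck / 32) := by ring
    rw [k2] at k1
    refine mul_le_mul_of_nonneg_left (Real.exp_le_exp.2 ?_) (by norm_num)
    linarith
  linarith

end

end Vale.Agent.P159.H708
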