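import Vale.Agent.P159.H708.Wl20

/-!
P159 / H708 (module WL), part 21: the field `cmp` in the letters of the flow, free exponents, and
with 859's shifts.
-/

set_option linter.unusedSectionVars false

namespace Vale.Agent.P159.H708

open Finset Matrix MeasureTheory Filter Topology
open Vale.Agent.P159.TM.Spec (V)
open Vale.Agent.P159.TM.SpecC (wT)
open Vale.Agent.P159.H37 (gau qf)
open Vale.Agent.P159.H37.Sf (kf sf_wt sf_k3 sf_eps dom_Anm')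
open Vale.Agent.P159.H963 (Anm An)
open Vale.Agent.P159.H864 (yt)
open Vale.Agent.P159.H686 (Cmp wdS)
open Vale.Agent.P159.H801 (Ev PS SFlow)
open Vale.Agent.P159.H972 (Par tn Good YBn FL)
open Vale.Agent.P159.H640 (lg_lo)
open Vale.Agent.P159.H773 (sd nuF)
open Vale.Agent.P159.H859.Idl (Prm gsR s0 rhoS qf_gsR s0_pos)

noncomputable section

/-- the field `cmp` in the letters of the flow, free exponents: window `y ^ (-kd) ξ`, tail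
`exp (-y ^ (-c4))` -/
theorem cmp_sf2 {b1 : ℝ} (hb1 : 0 < b1) (b2 pf : ℝ) (Qn : ℕ) :
    Ev b1 b2 pf Qn fun P _ => ∀ {b σ c c1 q2 qx : ℝ} {a y ε xs : ℕ → ℝ} {c' r q A : ℝ} {N : ℕ},
      0 < b → 0 < σ → σ ≤ 1 / 4 → 0 ≤ c → 4 * c ≤ σ →
      SFlow P b σ c c1 q2 qx a y ε xs c' r q A N →
    ∀ (ck kd c4 c5 : ℝ), 0 < ck → ck ≤ P.thp → 2 * P.th ≤ ck → 0 < kd → 0 < c4 →
      c4 < c5 → 16 * (kd + c4) < 5 * ck →
    ∀ i : ℕ, 1 ≤ i → ∀ᶠ n in atTop, ∀ (D : ℕ) (g : ∀ R, V (sd i R) → ℝ) (η bb ρg : ℝ),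
      (D : ℝ) ≤ y n ^ (-kd) * 2 ^ n → 0 ≤ η → η + bb ≤ 1 / 2200 → 0 < ρg →
      ρg ^ 2 ≤ y n ^ c5 →
      (∀ R, 2 ^ (n + kf ck y n) ≤ R → R ≤ 2 ^ (n + P.w (ε n) + kf ck y (n + P.w (ε n))) →
        WtOK b (tn n) η bb (sd i R)) →
      (∀ R, 2 ^ (n + kf ck y n) ≤ R → R ≤ 2 ^ (n + P.w (ε n) + kf ck y (n + P.w (ε n))) →
        qf (An (wT b (sd i R)) (tn n • (1 : Matrix (V (sd i R)) (V (sd i R)) ℝ)) (tn n) 0)
          (g R) ≤ ρg ^ 4) →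
      ∀ R, 2 ^ (n + kf ck y n) ≤ R → R ≤ 2 ^ (n + P.w (ε n) + kf ck y (n + P.w (ε n))) →
        Cmp (nuF b (sd i) (tn n) (2 ^ (n + kf ck y n))) (nuF b (sd i) (tn n) R)
          (wdS (sd i) D (2 ^ (n + kf ck y n)) (g (2 ^ (n + kf ck y n))))
          (wdS (sd i) D R (g R)) (1 / 40)
          (32 * bb + Real.exp (-(y n ^ (-c4)))) := by
  refine (cmp_lvl hb1 b2 pf Qn).mono fun P _ hA hP => ?_
  obtain ⟨hsum, H⟩ := hP
  intro b σ c c1 q2 qx a y ε xs c' r q A N hb hσ0 hσ hc hc4 h ck kd c4 c5 hck hck1 hck2 hkd hc3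
    hc35 hck3 i hi
  have hthp : P.thp ≤ 1 / 800 := by
    have h1 := hA.hq
    have h2 : (2 : ℝ) ≤ P.q0 := by exact_mod_cast h1
    have h3 := P.th0
    have h4 := P.thp0
    nlinarith
  obtain ⟨s4, hs4⟩ : ∃ s4, s4 = (c4 + (5 / 16 * ck - kd)) / 2 := ⟨_, rfl⟩
  have hs4c : c4 < s4 := by linarith
  obtain ⟨E0, hE0, H0⟩ := H (1 / b) (4 / 5 * kd) (8 / 5 * s4) (ck / 2) (by positivity)
    (by positivity) (by linarith) (by linarith) (by linarith)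
  have hyt := h.fl.yt
  have hy0 := h.fl.y0
  filter_upwards [eventually_ge_atTop N, sf_e0 h hσ hE0, sf_ne h hσ,
    sf_tt h hσ0.le hσ hA hck hck1 hck2 i,
    h.fl.ev_pow (b := c5) (e := (1 / 7200) ^ 2) (by linarith) (by positivity),
    ev_exps (K := 48 * Real.exp 1) (κ := 1 / 2) hy0 hyt hc35 hc3 (by norm_num),
    ev_exps (K := 2) (κ := 1) (s := s4) hy0 hyt hs4c hc3 one_pos] with
    n hn q1 q3 q4 q5 q7 q8
  intro D g η bb ρg hD hη0 hηb hρg0 hρg hWt hg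
  have hyn := hy0 n
  have hy1 := h.y1 n hn
  have he := sf_eps h hn
  have hes := h.es n hn
  have he1 : ε n ≤ 1 := hes.trans (P.es1.trans (by norm_num))
  have hup := sf_up h hσ hn
  have hlo := sf_lo h hσ0.le hn
  have hX : (0 : ℝ) < 2 ^ n := by positivity
  -- powers of `ε` and `y`
  have p1 : ∀ s : ℝ, 0 ≤ s → y n ^ (-(5 / 4 * s)) ≤ ε n ^ (-s) := by
    intro s hs
    have k1 : y n ^ (-(5 / 4 * s)) = (y n ^ (5 / 4 : ℝ)) ^ (-s) := by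
      rw [← Real.rpow_mul hyn.le]
      congr 1
      ring
    rw [k1]
    exact Real.rpow_le_rpow_of_nonpos he hup (by linarith)
  have p2 : ∀ s : ℝ, 0 ≤ s → ε n ^ (-s) ≤ y n ^ (-(2 * s)) := by
    intro s hs
    have k1 : y n ^ (-(2 * s)) = (y n ^ (2 : ℝ)) ^ (-s) := by
      rw [← Real.rpow_mul hyn.le]
      congr 1
      ring
    rw [k1]
    exact Real.rpow_le_rpow_of_nonpos (Real.rpow_pos_of_pos hyn _) hlo (by linarith)
  have hD' : (D : ℝ) ≤ ε n ^ (-(4 / 5 * kd)) * 2 ^ n := by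
    refine hD.trans (mul_le_mul_of_nonneg_right ?_ hX.le)
    refine le_trans (le_of_eq ?_) (p1 (4 / 5 * kd) (by positivity))
    congr 1
    ring
  have hR0 : ε n ^ (-(ck / 2)) * 2 ^ n ≤ ((2 ^ (n + kf ck y n) : ℕ) : ℝ) := by
    have k1 := p2 (ck / 2) (by positivity)
    have k2 : y n ^ (-(2 * (ck / 2))) ≤ (2 : ℝ) ^ kf ck y n := by
      have := lg_lo (c := ck) hyn
      rw [show 2 * (ck / 2) = ck by ring]
      exact this
    push_cast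
    rw [pow_add, mul_comm ((2 : ℝ) ^ n)]
    exact mul_le_mul_of_nonneg_right (k1.trans k2) hX.le
  have hY2 : (max (ε n ^ (-c) * y n) (ε n)) ^ 2 ≤ ε n := by
    rcases le_total (ε n ^ (-c) * y n) (ε n) with k | k
    · rw [max_eq_right k]
      nlinarith
    · rw [max_eq_left k]
      exact h.Y2 hσ0 hσ hc hc4 hn
  have hyb := h.yb n hn
  have hρ1 : ρg ≤ 1 / 7200 := by
    have := hρg.trans q5
    exact le_of_sq_le_sq this (by norm_num)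
  have hwin : 2 ^ (n + kf ck y n) ≤ 2 ^ (n + P.w (ε n) + kf ck y (n + P.w (ε n))) ∨
      2 ^ (n + P.w (ε n) + kf ck y (n + P.w (ε n))) < 2 ^ (n + kf ck y n) := le_or_gt _ _
  rcases hwin with hwin | hwin
  swap
  · intro R h1 h2
    exact absurd (h1.trans h2) (not_le.2 hwin)
  intro R h1 h2
  have hmain := H0 b i n (2 ^ (n + kf ck y n)) (2 ^ (n + P.w (ε n) + kf ck y (n + P.w (ε n)))) D
    (ε n) (max (ε n ^ (-c) * y n) (ε n)) η bb ρg g hb he q1 hes (h.good n hn) q3 hY2 hi hwin hD'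
    hR0 hη0 hηb hρg0 hρ1 q4
    (fun R h3 h4 => hyb.2.1 (ε n) le_rfl hes _ (q4 R h3 h4).1)
    (fun R _ _ => dom_Anm' hb (H972.tn_pos n)) hWt hg R h1 h2
  refine cmp_mono hmain le_rfl ?_
  -- the tail
  have t2 : 48 * Real.exp (1 - 1 / (2 * ρg ^ 2)) ≤ Real.exp (-(y n ^ (-c4))) / 3 := by
    refine le_trans ?_ q7
    have k1 : 1 / 2 * y n ^ (-c5) ≤ 1 / (2 * ρg ^ 2) := by
      have k2 : y n ^ (-c5) ≤ 1 / ρg ^ 2 := by
        rw [Real.rpow_neg hyn.le, ← one_div]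
        exact one_div_le_one_div_of_le (by positivity) hρg
      calc 1 / 2 * y n ^ (-c5) ≤ 1 / 2 * (1 / ρg ^ 2) :=
            mul_le_mul_of_nonneg_left k2 (by norm_num)
        _ = _ := by field_simp
    rw [mul_assoc, ← Real.exp_add]
    refine mul_le_mul_of_nonneg_left (Real.exp_le_exp.2 ?_) (by norm_num)
    linarith
  have t3 : 2 * Real.exp (-(ε n ^ (-(8 / 5 * s4 / 2)))) ≤ Real.exp (-(y n ^ (-c4))) / 3 := by
    refine le_trans ?_ q8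
    have k1 := p1 (8 / 5 * s4 / 2) (by linarith)
    have k2 : -(5 / 4 * (8 / 5 * s4 / 2)) = -s4 := by ring
    rw [k2] at k1
    refine mul_le_mul_of_nonneg_left (Real.exp_le_exp.2 ?_) (by norm_num)
    linarith
  have hE := Real.exp_pos (-(y n ^ (-c4)))
  linarith

/-- **the field `cmp` with 859's shifts** `gsR`: any scale function `l`, any auxiliary torus -/
theorem cmp_sf_gs {b1 : ℝ} (hb1 : 0 < b1) (b2 pf : ℝ) (Qn : ℕ) :
    Ev b1 b2 pf Qn fun P _ => ∀ {b σ c c1 q2 qx : ℝ} {a y ε xs : ℕ → ℝ} {c' r q A : ℝ} {N : ℕ},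
      0 < b → 0 < σ → σ ≤ 1 / 4 → 0 ≤ c → 4 * c ≤ σ →
      SFlow P b σ c c1 q2 qx a y ε xs c' r q A N →
    ∀ (ck kd c4 c5 : ℝ), 0 < ck → ck ≤ P.thp → 2 * P.th ≤ ck → 0 < kd → 0 < c4 →
      c4 < c5 → 16 * (kd + c4) < 5 * ck →
    ∀ i : ℕ, 1 ≤ i → ∀ᶠ n in atTop, ∀ (D N1 R1 : ℕ) [NeZero N1] (l : ℕ → ℕ) (a0 η0 η bb : ℝ),
      (D : ℝ) ≤ y n ^ (-kd) * 2 ^ n → 0 ≤ η → η + bb ≤ 1 / 2200 → a0 ≤ 2 → η0 ≤ 1 →
      (∀ R, 2 ^ (n + kf ck y n) ≤ R → R ≤ 2 ^ (n + P.w (ε n) + kf ck y (n + P.w (ε n))) →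
        Prm (sd i R) N1 (l R) R R1 ∧ 19600 * s0 * ((l R : ℝ) / R) ≤ y n ^ c5 ∧
          FL b (tn n) a0 η0 (sd i R) ∧ WtOK b (tn n) η bb (sd i R)) →
      ∀ R, 2 ^ (n + kf ck y n) ≤ R → R ≤ 2 ^ (n + P.w (ε n) + kf ck y (n + P.w (ε n))) →
        Cmp (nuF b (sd i) (tn n) (2 ^ (n + kf ck y n))) (nuF b (sd i) (tn n) R)
          (wdS (sd i) D (2 ^ (n + kf ck y n)) (gsR (sd i (2 ^ (n + kf ck y n))) N1 R1
            (l (2 ^ (n + kf ck y n))) (2 ^ (n + kf ck y n))))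
          (wdS (sd i) D R (gsR (sd i R) N1 R1 (l R) R)) (1 / 40)
          (32 * bb + Real.exp (-(y n ^ (-c4)))) := by
  refine (cmp_sf2 hb1 b2 pf Qn).mono fun P _ hA hP => ?_
  intro b σ c c1 q2 qx a y ε xs c' r q A N hb hσ0 hσ hc hc4 h ck kd c4 c5 hck hck1 hck2 hkd hc3
    hc35 hck3 i hi
  filter_upwards [hP hb hσ0 hσ hc hc4 h ck kd c4 c5 hck hck1 hck2 hkd hc3 hc35 hck3 i hi] with
    n hn D N1 R1 _ l a0 η0 η bb hD hη0 hηb ha0 hη01 hR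
  have hy := h.fl.y0 n
  have hp : 0 < y n ^ c5 := Real.rpow_pos_of_pos hy _
  refine hn D (fun R => gsR (sd i R) N1 R1 (l R) R) η bb (√(y n ^ c5)) hD hη0 hηb
    (Real.sqrt_pos.2 hp) (le_of_eq (Real.sq_sqrt hp.le)) (fun R h1 h2 => (hR R h1 h2).2.2.2)
    (fun R h1 h2 => ?_)
  obtain ⟨g1, g2, g3, -⟩ := hR R h1 h2
  refine (qf_gsR g1 hb (H972.tn_pos n) g3 ha0 hη01).trans ?_
  have hs0 := s0_pos
  have k1 : rhoS (l R) R ^ 2 ≤ √(y n ^ c5) ^ 2 := by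
    rw [Real.sq_sqrt hp.le]
    unfold rhoS
    rw [mul_pow, Real.sq_sqrt (by positivity)]
    linarith
  have k2 : rhoS (l R) R ^ 4 = (rhoS (l R) R ^ 2) ^ 2 := by ring
  have k3 : √(y n ^ c5) ^ 4 = (√(y n ^ c5) ^ 2) ^ 2 := by ring
  rw [k2, k3]
  exact pow_le_pow_left₀ (sq_nonneg _) k1 2

end

end Vale.Agent.P159.H708
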