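import Vale.Agent.P159.H883.Brg6
import Vale.Agent.P159.H708.Wl2

/-!
P159 / H708 (module WL), part 3: the laws `nuM w M x₀` of the field modulo constants seen through
linear windows. `cmp_gau_nuM`: Gaussian of covariance `D K Dᵀ` versus `D F`; `cmp_lin`: two laws
on two volumes; `cmp_fam`: families of windows on two tori.
-/

set_option linter.unusedSectionVars false

namespace Vale.Agent.P159.H708

open Finset Matrix MeasureTheory
open Vale.Agent.P159.H686 (Cmp fl)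
open Vale.Agent.P159.H37 (gau qf wM)
open Vale.Agent.P159.H963 (MF GW nM An ntr)
open Vale.Agent.P159.H883

noncomputable section

section gen

variable {V : Type} [Fintype V] [DecidableEq V] [Nonempty V]
variable {w : (V → ℤ) → ℝ} {M : Matrix V V ℝ} {m : ℝ} {x₀ : V}
variable {I I' J L : Type} [Fintype I] [Fintype I'] [Fintype J] [DecidableEq I] [Fintype L]
variable {H H' : Matrix V V ℝ} {B : Matrix V I ℝ} {KH : Matrix I V ℝ} {A : Matrix V I' ℝ}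
  {C : Matrix V J ℝ}
variable {β X : Type*} [Fintype β] [MeasurableSpace X]

/-- **a law `nuM` versus its Gaussian** -/
theorem cmp_fl (hw : GW w) (hb : BW w) (hM : MF M m) (hW : Win (An w M m x₀) H' B KH A C)
    {Bd : Set (V → ℝ)} (hBd : MeasurableSet Bd) {η b : ℝ} (hη0 : 0 ≤ η)
    (hη : ∀ F, F ∉ Bd → Wt w M m x₀ F ≤ 1 + η) (hbd : (nuM w M x₀).real Bd ≤ b)
    {wm : (V → ℝ) → X} (hwm : Measurable wm) (hci : CI wm) :
    Cmp ((gau J).prod (gau I')) (nuM w M x₀) (fun p => wm (fl (F0m B KH C) A p)) wm (η + b) b := by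
  have hfl : Measurable (fl (F0m B KH C) A) := H686.measurable_fl _ _
  have hq : Measurable fun p => q0 x₀ (fl (F0m B KH C) A p) := (measurable_q0 x₀).comp hfl
  have hZ1 : 1 ≤ Zt w M m x₀ B KH A C := one_le_Zt hw hb hM hW
  refine cmp_weight (W := fun p => Wt w M m x₀ (fl (F0m B KH C) A p)) hfl hwm
    (integrable_W hw hb hM hW) (fun p => one_le_Wt hw hM x₀ _) (hq hBd) hη0 ?_ ?_ ?_
  · intro p hp
    have h1 := hη (q0 x₀ (fl (F0m B KH C) A p)) hp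
    rwa [(ci_Wt hM x₀).q0] at h1
  · rw [bad_eq hw hb hM hW hBd]
    exact mul_le_mul_of_nonneg_right hbd (by
      have : (∫ p, Wt w M m x₀ (fl (F0m B KH C) A p) ∂((gau J).prod (gau I'))) =
        Zt w M m x₀ B KH A C := rfl
      linarith)
  · intro φ B' hφ h0 hB
    have hc : CI fun F => φ (wm F) := hci.comp φ
    have h1 := (nuM_ci hw hb hM x₀ hc (hφ.comp hwm)).2
    rw [h1, Enu_M hw hb hM hW hc (hφ.comp hwm)]
    rfl

/-- covariances modulo constants agree on windows of zero row sums -/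
lemma win_cov_eq (hH : PC H) {S K : Matrix V V ℝ} (hS : H * S * H = H) (hK : H * K * H = H)
    {D : Matrix β V ℝ} (hD : D * J1 V = 0) : D * S * Dᵀ = D * K * Dᵀ := by
  have e1 : D * (1 - J1 V) = D := by rw [Matrix.mul_sub, Matrix.mul_one, hD, sub_zero]
  have e2 : (1 - J1 V) * Dᵀ = Dᵀ := by
    have := congrArg Matrix.transpose e1
    rwa [transpose_mul, transpose_sub, transpose_one, J1_symm] at this
  have e3 : ∀ T : Matrix V V ℝ, D * T * Dᵀ = D * ((1 - J1 V) * T * (1 - J1 V)) * Dᵀ := by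
    intro T
    calc D * T * Dᵀ = (D * (1 - J1 V)) * T * ((1 - J1 V) * Dᵀ) := by rw [e1, e2]
      _ = _ := by simp only [Matrix.mul_assoc]
  rw [e3 S, e3 K, hH.cov hS, hH.cov hK]

/-- the joint Gaussian of `fl` seen through a linear window -/
lemma int_fl (D : Matrix β V ℝ) (F₀ : Matrix V J ℝ) (A : Matrix V I' ℝ) {B₁ : Matrix β L ℝ}
    (h : B₁ * B₁ᵀ = D * (F₀ * F₀ᵀ + A * Aᵀ) * Dᵀ) {ψ : (β → ℝ) → ℝ} (hψ : Measurable ψ) :
    ∫ p, ψ (D *ᵥ fl F₀ A p) ∂((gau J).prod (gau I')) = ∫ g, ψ (B₁ *ᵥ g) ∂(gau L) := by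
  have h2 := (H37.gau_sum (I₁ := J) (I₂ := I')).integral_comp
    (MeasurableEquiv.measurableEmbedding _)
    (fun p : (J → ℝ) × (I' → ℝ) => ψ (D *ᵥ fl F₀ A p))
  rw [← h2]
  have e : ∀ g : J ⊕ I' → ℝ, D *ᵥ fl F₀ A
      ((MeasurableEquiv.sumPiEquivProdPi fun _ : J ⊕ I' => ℝ) g) =
      Matrix.fromCols (D * F₀) (D * A) *ᵥ g := by
    intro g
    have e1 : fl F₀ A ((MeasurableEquiv.sumPiEquivProdPi fun _ : J ⊕ I' => ℝ) g) =
        Matrix.fromCols F₀ A *ᵥ g := by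
      unfold fl
      funext x
      simp only [mulVec, dotProduct, Fintype.sum_sum_type, fromCols_apply_inl,
        fromCols_apply_inr, Pi.add_apply]
      rfl
    rw [e1, mulVec_mulVec, mul_fromCols]
  simp only [e]
  refine H363.law_integral_eq _ _ ?_ ψ hψ.stronglyMeasurable
  rw [transpose_fromCols, fromCols_mul_fromRows, h]
  simp only [transpose_mul, Matrix.mul_add, Matrix.add_mul, Matrix.mul_assoc]

lemma ci_lin {D : Matrix β V ℝ} (hD : D * J1 V = 0) : CI fun F : V → ℝ => D *ᵥ F := by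
  intro F c
  have e : (fun x => F x + c) = F + c • (fun _ : V => (1 : ℝ)) := by
    funext x
    simp
  have h1 : D *ᵥ (fun _ : V => (1 : ℝ)) = 0 := by
    have hc := card_ne V
    funext j
    have h2 := congrFun (congrFun hD j) (Classical.arbitrary V)
    simp only [Matrix.mul_apply, J1, Matrix.zero_apply] at h2
    rw [← Finset.sum_mul] at h2
    have h3 : ∑ y, D j y = 0 := by
      rcases mul_eq_zero.1 h2 with h4 | h4
      · exact h4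
      · exact absurd h4 (inv_ne_zero hc)
    simp only [mulVec, dotProduct, mul_one, Pi.zero_apply]
    exact h3
  simp only
  rw [e, mulVec_add, mulVec_smul, h1, smul_zero, add_zero]

/-- **a law `nuM` versus a Gaussian, linear window** -/
theorem cmp_gau_nuM (hw : GW w) (hb : BW w) (hM : MF M m)
    {Bd : Set (V → ℝ)} (hBd : MeasurableSet Bd) {η b : ℝ} (hη0 : 0 ≤ η)
    (hη : ∀ F, F ∉ Bd → Wt w M m x₀ F ≤ 1 + η) (hbd : (nuM w M x₀).real Bd ≤ b)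
    {D : Matrix β V ℝ} (hD : D * J1 V = 0) {K : Matrix V V ℝ}
    (hK : An w M m x₀ * K * An w M m x₀ = An w M m x₀) {B₁ : Matrix β L ℝ}
    (hB : B₁ * B₁ᵀ = D * K * Dᵀ) :
    Cmp (gau L) (nuM w M x₀) (fun g => B₁ *ᵥ g) (fun F => D *ᵥ F) (η + b) b := by
  have hH := pc_An hw hb hM x₀
  obtain ⟨H', KH, A, C, hW⟩ := exists_Win hH (0 : Matrix V (Fin 1) ℝ)
  have h1 := cmp_fl hw hb hM hW hBd hη0 hη hbd (wm := fun F : V → ℝ => D *ᵥ F)
    (H363.measurable_mulVec D) (ci_lin hD)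
  have h2 : B₁ * B₁ᵀ = D * (F0m (0 : Matrix V (Fin 1) ℝ) KH C *
      (F0m (0 : Matrix V (Fin 1) ℝ) KH C)ᵀ + A * Aᵀ) * Dᵀ := by
    rw [hB]
    exact win_cov_eq hH hK hW.cov hD
  intro ψ Bb hψ h0 hB'
  have h3 := h1 ψ Bb hψ h0 hB'
  rw [int_fl D _ A h2 hψ] at h3
  exact h3

end gen

/-- scalar part of the composition law ← Gaussian ← Gaussian ← law -/
lemma cmp_chain {Ω₁ Ω₂ Ω₃ Ω₄ Y : Type*} [MeasurableSpace Ω₁] [MeasurableSpace Ω₂]
    [MeasurableSpace Ω₃] [MeasurableSpace Ω₄] [MeasurableSpace Y] [Nonempty Y]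
    {ν₁ : Measure Ω₁} {ν₂ : Measure Ω₂} {ν₃ : Measure Ω₃} {ν₄ : Measure Ω₄}
    {w₁ : Ω₁ → Y} {w₂ : Ω₂ → Y} {w₃ : Ω₃ → Y} {w₄ : Ω₄ → Y} {a b d τ : ℝ}
    (ha0 : 0 ≤ a) (ha : a ≤ 1 / 8) (hb0 : 0 ≤ b) (hd0 : 0 ≤ d) (hd : d ≤ 1 / 8) (hτ : 0 ≤ τ)
    (h1 : Cmp ν₂ ν₁ w₂ w₁ a b) (h2 : Cmp ν₂ ν₃ w₂ w₃ d τ) (h3 : Cmp ν₃ ν₄ w₃ w₄ a b) :
    Cmp ν₁ ν₄ w₁ w₄ (4 * a + 2 * d) (4 * b + 2 * τ) := by
  have s1 : Cmp ν₁ ν₂ w₁ w₂ (2 * a) (2 * b) := by
    have ha1 : a < 1 := by linarith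
    refine cmp_mono (cmp_symm ha1 ha0 h1) ?_ ?_
    · rw [div_le_iff₀ (by linarith)]
      nlinarith
    · rw [div_le_iff₀ (by linarith)]
      nlinarith
  have s2 := cmp_trans hd0 s1 h2
  have s3 := cmp_trans ha0 s2 h3
  refine cmp_mono s3 ?_ ?_
  · nlinarith [mul_nonneg ha0 hd0, mul_nonneg ha0 ha0, mul_nonneg (mul_nonneg ha0 ha0) hd0]
  · nlinarith [mul_nonneg ha0 hτ, mul_nonneg hd0 hb0, mul_nonneg ha0 hb0,
      mul_nonneg (mul_nonneg ha0 hd0) hb0]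

section two

variable {V V' : Type} [Fintype V] [DecidableEq V] [Nonempty V]
variable [Fintype V'] [DecidableEq V'] [Nonempty V']
variable {w : (V → ℤ) → ℝ} {M : Matrix V V ℝ} {m : ℝ} {x₀ : V}
variable {w' : (V' → ℤ) → ℝ} {M' : Matrix V' V' ℝ} {m' : ℝ} {x₀' : V'}
variable {β : Type*} [Fintype β]

/-- **two laws, two volumes, linear windows**: `D' K' D'ᵀ = B₁ (1 + H) B₁ᵀ`, `|H|_HS ≤ δ` -/
theorem cmp_lin {L : Type} [Fintype L] [DecidableEq L] (hw : GW w) (hb : BW w) (hM : MF M m)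
    (hw' : GW w') (hb' : BW w') (hM' : MF M' m')
    {Bd : Set (V → ℝ)} (hBd : MeasurableSet Bd) {Bd' : Set (V' → ℝ)} (hBd' : MeasurableSet Bd')
    {η b : ℝ} (hη0 : 0 ≤ η)
    (hη : ∀ F, F ∉ Bd → Wt w M m x₀ F ≤ 1 + η) (hbd : (nuM w M x₀).real Bd ≤ b)
    (hη' : ∀ F, F ∉ Bd' → Wt w' M' m' x₀' F ≤ 1 + η) (hbd' : (nuM w' M' x₀').real Bd' ≤ b)
    (hηb : η + b ≤ 1 / 8)
    {D : Matrix β V ℝ} (hD : D * J1 V = 0) {D' : Matrix β V' ℝ} (hD' : D' * J1 V' = 0)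
    {K : Matrix V V ℝ} (hK : An w M m x₀ * K * An w M m x₀ = An w M m x₀)
    {K' : Matrix V' V' ℝ} (hK' : An w' M' m' x₀' * K' * An w' M' m' x₀' = An w' M' m' x₀')
    {B₁ : Matrix β L ℝ} (hB : B₁ * B₁ᵀ = D * K * Dᵀ) {H : Matrix L L ℝ} (hH : Hᵀ = H)
    (hB' : D' * K' * D'ᵀ = B₁ * (1 + H) * B₁ᵀ) {δ : ℝ} (hδ : 0 < δ) (hδ4 : δ ≤ 1 / 4)
    (hHS : ∑ x, ∑ y, H x y ^ 2 ≤ δ ^ 2) {d : ℝ} (hd : 0 ≤ d) (hd8 : d ≤ 1 / 8) :
    Cmp (nuM w M x₀) (nuM w' M' x₀') (fun F => D *ᵥ F) (fun F => D' *ᵥ F)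
      (4 * (η + b) + 2 * d) (4 * b + 2 * (2 * (1 + d) ^ (-(1 / (4 * δ))))) := by
  have hb0 : 0 ≤ b := measureReal_nonneg.trans hbd
  obtain ⟨S, hS, -, -⟩ := (pc_An hw' hb' hM' x₀').exists_S
  have hHi : An w' M' m' x₀' * Hi (An w' M' m' x₀') * An w' M' m' x₀' = An w' M' m' x₀' := by
    rw [(pc_An hw' hb' hM' x₀').H_Hi, Matrix.sub_mul, Matrix.one_mul,
      (pc_An hw' hb' hM' x₀').J1_mul, sub_zero]
  have e2 : (D' * S) * (D' * S)ᵀ = D' * K' * D'ᵀ := by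
    rw [← win_cov_eq (pc_An hw' hb' hM' x₀') hHi hK' hD', transpose_mul, ← hS]
    simp only [Matrix.mul_assoc]
  refine cmp_chain (by linarith) hηb hb0 hd hd8 (by positivity)
    (cmp_gau_nuM hw hb hM hBd hη0 hη hbd hD hK hB)
    (cmp_hs (B₂ := D' * S) hH (by rw [e2, hB']) hδ hδ4 hHS hd)
    (cmp_gau_nuM hw' hb' hM' hBd' hη0 hη' hbd' hD' hK' e2)

end two

end

end Vale.Agent.P159.H708
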