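import Vale.Agent.P159.H708.Wl3
import Vale.Agent.P159.H686.Two
import Vale.Agent.P159.H963.NeuI

/-!
P159 / H708 (module WL), part 4: the torus theorem. `cmp_fam`: families of windows under `nuM` on
two tori; `wd`: the data of two boxes around `p` and `q`; `cmp_two`: the comparison of
`(N; p, q)` and `(N2; p2, q2)`; `An_scalar`: the Hessian of the torus model of mass `t`.
-/

set_option linter.unusedSectionVars false

namespace Vale.Agent.P159.H708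

open Finset Matrix MeasureTheory
open Vale.Agent.P159.TM.H764 (cN sN dt EE)
open Vale.Agent.P159.TM.Spec (V)
open Vale.Agent.P159.H864 (TI sym mlt fc hsq)
open Vale.Agent.P159.H462 (Dom)
open Vale.Agent.P159.TM.H459 (sn)
open Vale.Agent.P159.H37 (gau qf wM)
open Vale.Agent.P159.H686 (Cmp fl)
open Vale.Agent.P159.H963 (MF GW nM An ntr)
open Vale.Agent.P159.H733.Torg
open Vale.Agent.P159.H883

noncomputable section

variable {N N2 : ℕ} [NeZero N] [NeZero N2]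

/-! ### kernels -/

section ker

variable {A : Matrix (V N) (V N) ℝ} {ν c β : ℝ}

lemma cv_mul {K : Matrix (V N) (V N) ℝ} (hA : Dom A ν c) (hK : Cv 0 A K) : A * K * A = A := by
  refine H864.sym_inj ((hA.ti.mul hK.ti).mul hA.ti) hA.ti fun k => ?_
  rw [H864.sym_mul (hA.ti.mul hK.ti) hA.ti, H864.sym_mul hA.ti hK.ti]
  by_cases hk : k = 0
  · rw [hk, hA.zero]
    ring
  · rw [hK.sy k hk, add_zero]
    have := sym_pos hA hk
    field_simp

/-- kernels with close symbols -/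
lemma ker_pert {K K' : Matrix (V N) (V N) ℝ} (hK : TI K) (hK' : TI K') {δ : ℝ}
    (h : ∀ k, k ≠ 0 → |sym K k - sym K' k| ≤ δ) (hδ : 0 ≤ δ) (a : V N) :
    |(K 0 a - K 0 0) - (K' 0 a - K' 0 0)| ≤ 2 * δ := by
  have hN := H864.N_pos (N := N)
  rw [ker_sym hK, ker_sym hK', ← mul_sub, ← Finset.sum_sub_distrib, abs_mul,
    abs_of_nonneg (show 0 ≤ ((N : ℝ) ^ 2)⁻¹ by positivity), inv_mul_le_iff₀ hN]
  refine (Finset.abs_sum_le_sum_abs _ _).trans ?_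
  have h1 : ∀ k ∈ (univ : Finset (V N)), |sym K k * (cN (dt k a) - 1) -
      sym K' k * (cN (dt k a) - 1)| ≤ 2 * δ := by
    intro k _
    rw [← sub_mul, abs_mul]
    by_cases hk : k = 0
    · rw [hk, H864.dt_zero_left, TM.H764.cN_zero, sub_self, abs_zero, mul_zero]
      linarith
    · have h2 : |cN (dt k a) - 1| ≤ 2 := by
        have h3 := TM.H764.cN_sq_add (dt k a)
        have h4 : cN (dt k a) ^ 2 ≤ 1 := by
          have := sq_nonneg (sN (dt k a))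
          linarith
        have h5 := abs_le_of_sq_le_sq (a := cN (dt k a)) (b := 1) (by linarith) (by norm_num)
        obtain ⟨h6, h7⟩ := abs_le.1 h5
        rw [abs_le]
        constructor <;> linarith
      calc |sym K k - sym K' k| * |cN (dt k a) - 1| ≤ δ * 2 :=
            mul_le_mul (h k hk) h2 (abs_nonneg _) hδ
        _ = 2 * δ := by ring
  refine (Finset.sum_le_sum h1).trans (le_of_eq ?_)
  rw [Finset.sum_const, Finset.card_univ, nsmul_eq_mul, TM.H764.card_V]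

lemma ck_pert {K K' : Matrix (V N) (V N) ℝ} (hK : TI K) (hK' : TI K') {δ : ℝ}
    (h : ∀ k, k ≠ 0 → |sym K k - sym K' k| ≤ δ) (hδ : 0 ≤ δ) (x a b : V N) :
    |ck K x a b - ck K' x a b| ≤ 8 * δ := by
  obtain ⟨a1, a2⟩ := abs_le.1 (ker_pert hK hK' h hδ (x + b - a))
  obtain ⟨b1, b2⟩ := abs_le.1 (ker_pert hK hK' h hδ (x + b))
  obtain ⟨c1, c2⟩ := abs_le.1 (ker_pert hK hK' h hδ (x - a))
  obtain ⟨d1, d2⟩ := abs_le.1 (ker_pert hK hK' h hδ x)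
  unfold ck
  rw [abs_le]
  constructor <;> linarith

end ker

/-! ### families of windows under `nuM` -/

lemma mw_J1 {J : Type*} (bp : J → V N) (z : J → ℤ × ℤ) : mw bp z * J1 (V N) = 0 := by
  ext i j
  rw [mw_mul, Matrix.zero_apply]
  unfold J1
  ring

section fam

variable {J : Type} [Fintype J] [DecidableEq J]
variable {w : (V N → ℤ) → ℝ} {M : Matrix (V N) (V N) ℝ} {m : ℝ} {x₀ : V N}
variable {w' : (V N2 → ℤ) → ℝ} {M' : Matrix (V N2) (V N2) ℝ} {m' : ℝ} {x₀' : V N2}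
variable {ν c ν' c' : ℝ}

/-- **the laws `nuM` on two tori seen through two families of windows** -/
theorem cmp_fam (hw : GW w) (hb : BW w) (hM : MF M m)
    (hw' : GW w') (hb' : BW w') (hM' : MF M' m')
    (hA : Dom (An w M m x₀) ν c) (hA' : Dom (An w' M' m' x₀') ν' c')
    {Bd : Set (V N → ℝ)} (hBd : MeasurableSet Bd) {Bd' : Set (V N2 → ℝ)}
    (hBd' : MeasurableSet Bd') {η b : ℝ} (hη0 : 0 ≤ η)
    (hη : ∀ F, F ∉ Bd → Wt w M m x₀ F ≤ 1 + η) (hbd : (nuM w M x₀).real Bd ≤ b)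
    (hη' : ∀ F, F ∉ Bd' → Wt w' M' m' x₀' F ≤ 1 + η) (hbd' : (nuM w' M' x₀').real Bd' ≤ b)
    (hηb : η + b ≤ 1 / 8)
    {D : ℕ} (hDN : 4 * D < N) {K : Matrix (V N) (V N) ℝ} {K2 : Matrix (V N2) (V N2) ℝ}
    (hK : Cv 0 (An w M m x₀) K) (hK2 : Cv 0 (An w' M' m' x₀') K2)
    {e X : ℝ} (he0 : 0 ≤ e) (hX0 : 0 ≤ X)
    (he : ∀ ζ : ℤ × ℤ, ζ.1.natAbs ≤ 2 * D → ζ.2.natAbs ≤ 2 * D →
      |(K2 0 (ip N2 ζ) - K2 0 0) - (K 0 (ip N ζ) - K 0 0)| ≤ e)
    {z : J → ℤ × ℤ} (hz : ∀ j, (z j).1.natAbs ≤ D ∧ (z j).2.natAbs ≤ D)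
    {bp : J → V N} {bp2 : J → V N2} (hzi : ∀ i j, bp i = bp j → z i = z j → i = j)
    {R : ℝ} (hR : 2 * (D : ℝ) < R) (hF : Fam bp bp2 R) (hX : XB z bp bp2 K K2 X)
    {δ : ℝ} (hδ : 0 < δ) (hδ4 : δ ≤ 1 / 4) (hδ2 : ν * Fintype.card J * (3 * e + 2 * X) ≤ δ)
    {d : ℝ} (hd : 0 ≤ d) (hd8 : d ≤ 1 / 8) :
    Cmp (nuM w M x₀) (nuM w' M' x₀') (fun F => mw bp z *ᵥ F) (fun F => mw bp2 z *ᵥ F)
      (4 * (η + b) + 2 * d) (4 * b + 2 * (2 * (1 + d) ^ (-(1 / (4 * δ))))) := by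
  have hν := hA.hν
  obtain ⟨S, hS, -, -⟩ := (pc_An hw hb hM x₀).exists_S
  have hHi : An w M m x₀ * Hi (An w M m x₀) * An w M m x₀ = An w M m x₀ := by
    rw [(pc_An hw hb hM x₀).H_Hi, Matrix.sub_mul, Matrix.one_mul,
      (pc_An hw hb hM x₀).J1_mul, sub_zero]
  have hKA := cv_mul hA hK
  have e1 : (mw bp z * S) * (mw bp z * S)ᵀ = mw bp z * K * (mw bp z)ᵀ := by
    rw [← win_cov_eq (pc_An hw hb hM x₀) hHi hKA (mw_J1 bp z), transpose_mul, ← hS]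
    simp only [Matrix.mul_assoc]
  obtain ⟨H, hH, hHB, hHS⟩ := fam_gen hA le_rfl hDN hK hK2.ti he0 hX0 he hz hzi hR hF hX e1
  refine cmp_lin hw hb hM hw' hb' hM' hBd hBd' hη0 hη hbd hη' hbd' hηb (mw_J1 bp z)
    (mw_J1 bp2 z) hKA (cv_mul hA' hK2) e1 hH hHB hδ hδ4 (hHS.trans ?_) hd hd8
  refine pow_le_pow_left₀ (by positivity) ?_ 2
  rw [add_zero]
  exact hδ2

end fam

/-! ### two boxes -/

/-- the box of half side `D` in `ℤ²` -/
abbrev Bx (D : ℕ) : Type :=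
  {ζ : ℤ × ℤ // ζ ∈ (Finset.Icc (-(D : ℤ)) D) ×ˢ (Finset.Icc (-(D : ℤ)) D)}

lemma card_Bx (D : ℕ) : Fintype.card (Bx D) = (2 * D + 1) ^ 2 := by
  rw [Fintype.card_coe, Finset.card_product, Int.card_Icc]
  have : ((D : ℤ) + 1 - -(D : ℤ)).toNat = 2 * D + 1 := by omega
  rw [this]
  ring

lemma Bx_le {D : ℕ} (ζ : Bx D) : ζ.1.1.natAbs ≤ D ∧ ζ.1.2.natAbs ≤ D := by
  have h := Finset.mem_product.1 ζ.2
  have h1 := Finset.mem_Icc.1 h.1
  have h2 := Finset.mem_Icc.1 h.2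
  omega

/-- window points -/
def zB (D : ℕ) : Bx D ⊕ Bx D → ℤ × ℤ := Sum.elim (fun ζ => ζ.1) fun ζ => ζ.1

/-- base points -/
def bB (D : ℕ) (p q : V N) : Bx D ⊕ Bx D → V N := Sum.elim (fun _ => p) fun _ => q

/-- **the data of the two core windows** modulo constants -/
def wd (D : ℕ) (p q : V N) (F : V N → ℝ) : Bx D ⊕ Bx D → ℝ := mw (bB D p q) (zB D) *ᵥ F

lemma wd_inl (D : ℕ) (p q : V N) (F : V N → ℝ) (ζ : Bx D) :
    wd D p q F (Sum.inl ζ) = F (p + ip N ζ.1) - F p := mw_mulVec _ _ _ _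

lemma wd_inr (D : ℕ) (p q : V N) (F : V N → ℝ) (ζ : Bx D) :
    wd D p q F (Sum.inr ζ) = F (q + ip N ζ.1) - F q := mw_mulVec _ _ _ _

lemma measurable_wd (D : ℕ) (p q : V N) : Measurable (wd D p q) :=
  H363.measurable_mulVec _

lemma ci_wd (D : ℕ) (p q : V N) : CI (wd D p q) := ci_lin (mw_J1 _ _)

/-- the data are a function of the increments `H686.Dm` of the two boxes -/
lemma wd_loc {D : ℕ} {p q : V N} (hpq : 2 * D < sn (q - p)) {F G : V N → ℝ}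
    (h : H686.Dm (H462.box p D ∪ H462.box q D) (H686.cen2 p q D) *ᵥ F =
      H686.Dm (H462.box p D ∪ H462.box q D) (H686.cen2 p q D) *ᵥ G) :
    wd D p q F = wd D p q G := by
  have hb : ∀ (x : V N) (ζ : Bx D), x + ip N ζ.1 ∈ H462.box x D := by
    intro x ζ
    rw [H462.mem_box]
    have h1 := sn_ip_le (N := N) (Bx_le ζ).1 (Bx_le ζ).2
    have h2 : x + ip N ζ.1 - x = ip N ζ.1 := by abel
    rw [h2]
    rw [sn_eq] at h1
    exact ⟨(le_max_left _ _).trans h1, (le_max_right _ _).trans h1⟩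
  funext j
  rcases j with ζ | ζ
  · rw [wd_inl, wd_inl]
    have h1 := congrFun h (p + ip N ζ.1)
    rw [H686.Dm_mulVec, H686.Dm_mulVec, if_pos (Finset.mem_union_left _ (hb p ζ)),
      if_pos (Finset.mem_union_left _ (hb p ζ))] at h1
    unfold H686.cen2 at h1
    rwa [if_pos (hb p ζ)] at h1
  · rw [wd_inr, wd_inr]
    have h1 := congrFun h (q + ip N ζ.1)
    rw [H686.Dm_mulVec, H686.Dm_mulVec, if_pos (Finset.mem_union_right _ (hb q ζ)),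
      if_pos (Finset.mem_union_right _ (hb q ζ))] at h1
    have h2 : q + ip N ζ.1 ∉ H462.box p D := by
      intro hmem
      rw [H462.mem_box] at hmem
      have h3 : sn (q + ip N ζ.1 - p) ≤ D := by
        rw [sn_eq]
        exact max_le hmem.1 hmem.2
      have h4 := sn_ip_le (N := N) (Bx_le ζ).1 (Bx_le ζ).2
      have h5 := TM.H459.sn_add_le (q + ip N ζ.1 - p) (-ip N ζ.1)
      rw [TM.H459.sn_neg] at h5
      have h6 : q + ip N ζ.1 - p + -ip N ζ.1 = q - p := by abel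
      rw [h6] at h5
      omega
    unfold H686.cen2 at h1
    rwa [if_neg h2] at h1

lemma fam_two {D : ℕ} {p q : V N} {p2 q2 : V N2} {R : ℝ} (h : R ≤ sn (q - p))
    (h2 : R ≤ sn (q2 - p2)) : Fam (bB D p q) (bB D p2 q2) R := by
  have h' : R ≤ sn (p - q) := by rwa [← TM.H459.sn_neg, neg_sub]
  have h2' : R ≤ sn (p2 - q2) := by rwa [← TM.H459.sn_neg, neg_sub]
  intro i j
  rcases i with i | i <;> rcases j with j | j
  · exact Or.inl ⟨rfl, rfl⟩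
  · exact Or.inr ⟨h, h2⟩
  · exact Or.inr ⟨h', h2'⟩
  · exact Or.inl ⟨rfl, rfl⟩

lemma inj_two {D : ℕ} {p q : V N} (hpq : p ≠ q) (i j : Bx D ⊕ Bx D)
    (h1 : bB D p q i = bB D p q j) (h2 : zB D i = zB D j) : i = j := by
  rcases i with i | i <;> rcases j with j | j
  · exact congrArg Sum.inl (Subtype.ext h2)
  · exact absurd h1 hpq
  · exact absurd h1.symm hpq
  · exact congrArg Sum.inr (Subtype.ext h2)

section two

variable {w : (V N → ℤ) → ℝ} {M : Matrix (V N) (V N) ℝ} {m : ℝ} {x₀ : V N}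
variable {w' : (V N2 → ℤ) → ℝ} {M' : Matrix (V N2) (V N2) ℝ} {m' : ℝ} {x₀' : V N2}
variable {ν c ν' c' : ℝ}

/-- **WL**: the laws of the data of the two core windows `(N; p, q)` and `(N2; p2, q2)` -/
theorem cmp_two (hw : GW w) (hb : BW w) (hM : MF M m)
    (hw' : GW w') (hb' : BW w') (hM' : MF M' m')
    (hA : Dom (An w M m x₀) ν c) (hA' : Dom (An w' M' m' x₀') ν' c')
    {Bd : Set (V N → ℝ)} (hBd : MeasurableSet Bd) {Bd' : Set (V N2 → ℝ)}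
    (hBd' : MeasurableSet Bd') {η b : ℝ} (hη0 : 0 ≤ η)
    (hη : ∀ F, F ∉ Bd → Wt w M m x₀ F ≤ 1 + η) (hbd : (nuM w M x₀).real Bd ≤ b)
    (hη' : ∀ F, F ∉ Bd' → Wt w' M' m' x₀' F ≤ 1 + η) (hbd' : (nuM w' M' x₀').real Bd' ≤ b)
    (hηb : η + b ≤ 1 / 8)
    {D : ℕ} (hDN : 4 * D < N) {K : Matrix (V N) (V N) ℝ} {K2 : Matrix (V N2) (V N2) ℝ}
    (hK : Cv 0 (An w M m x₀) K) (hK2 : Cv 0 (An w' M' m' x₀') K2)
    {e X : ℝ} (he0 : 0 ≤ e) (hX0 : 0 ≤ X)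
    (he : ∀ ζ : ℤ × ℤ, ζ.1.natAbs ≤ 2 * D → ζ.2.natAbs ≤ 2 * D →
      |(K2 0 (ip N2 ζ) - K2 0 0) - (K 0 (ip N ζ) - K 0 0)| ≤ e)
    {p q : V N} {p2 q2 : V N2} {R : ℝ} (hR : 2 * (D : ℝ) < R) (hpq : R ≤ sn (q - p))
    (hpq2 : R ≤ sn (q2 - p2))
    (hX : ∀ x a b : V N, R ≤ sn x → sn a ≤ D → sn b ≤ D → |ck K x a b| ≤ X)
    (hX2 : ∀ x a b : V N2, R ≤ sn x → sn a ≤ D → sn b ≤ D → |ck K2 x a b| ≤ X)
    {δ : ℝ} (hδ : 0 < δ) (hδ4 : δ ≤ 1 / 4)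
    (hδ2 : ν * (2 * (2 * (D : ℝ) + 1) ^ 2) * (3 * e + 2 * X) ≤ δ)
    {d : ℝ} (hd : 0 ≤ d) (hd8 : d ≤ 1 / 8) :
    Cmp (nuM w M x₀) (nuM w' M' x₀') (wd D p q) (wd D p2 q2)
      (4 * (η + b) + 2 * d) (4 * b + 2 * (2 * (1 + d) ^ (-(1 / (4 * δ))))) := by
  have hne : p ≠ q := by
    intro h
    rw [h, sub_self] at hpq
    have h0 : sn (0 : V N) = 0 := by simp [TM.H459.sn]
    rw [h0] at hpq
    have : (0 : ℝ) ≤ D := Nat.cast_nonneg _
    push_cast at hpq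
    linarith
  have hF : Fam (bB D p q) (bB D p2 q2) R := fam_two hpq hpq2
  have hz : ∀ j : Bx D ⊕ Bx D, (zB D j).1.natAbs ≤ D ∧ (zB D j).2.natAbs ≤ D := by
    rintro (j | j)
    · exact Bx_le j
    · exact Bx_le j
  have hcard : (Fintype.card (Bx D ⊕ Bx D) : ℝ) = 2 * (2 * (D : ℝ) + 1) ^ 2 := by
    rw [Fintype.card_sum, card_Bx]
    push_cast
    ring
  refine cmp_fam hw hb hM hw' hb' hM' hA hA' hBd hBd' hη0 hη hbd hη' hbd' hηb hDN hK hK2 he0 hX0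
    he hz (inj_two hne) hR hF ?_ hδ hδ4 (by rw [hcard]; exact hδ2) hd hd8
  intro i j hij
  rcases hF i j with h | ⟨h1, h2⟩
  · exact absurd h hij
  · exact ⟨hX _ _ _ h1 (sn_ip_le (hz i).1 (hz i).2) (sn_ip_le (hz j).1 (hz j).2),
      hX2 _ _ _ h2 (sn_ip_le (hz i).1 (hz i).2) (sn_ip_le (hz j).1 (hz j).2)⟩

end two

end

end Vale.Agent.P159.H708
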