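import Vale.Agent.P159.H708.Wl4
import Vale.Agent.P159.H883.Brg7

/-!
P159 / H708 (module WL), part 5: the inputs of `cmp_two` from 733's `Near` (the Hessian is `l1`
close to the periodization of a kernel of exponential moment), and the literal instance of the
torus model of scalar mass `t`.
-/

set_option linter.unusedSectionVars false

namespace Vale.Agent.P159.H708

open Finset Matrix MeasureTheory
open Vale.Agent.P159.TM.H764 (cN sN dt EE)
open Vale.Agent.P159.TM.Spec (V)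
open Vale.Agent.P159.TM.SpecC (wT)
open Vale.Agent.P159.H864 (TI sym mlt fc hsq)
open Vale.Agent.P159.H462 (Dom)
open Vale.Agent.P159.TM.H459 (sn)
open Vale.Agent.P159.H37 (gau qf wM)
open Vale.Agent.P159.H686 (Cmp fl)
open Vale.Agent.P159.H963 (MF GW nM An ntr Anm)
open Vale.Agent.P159.H733.Torg
open Vale.Agent.P159.H883

noncomputable section

variable {N N2 : ℕ} [NeZero N] [NeZero N2]

section near

variable {A : Matrix (V N) (V N) ℝ} {A2 : Matrix (V N2) (V N2) ℝ} {ν c κ C1 β η s : ℝ}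

/-- periodizations keep the exponential moment -/
lemma tl_two {h : N ∣ N2} (hT : Two h A A2 ν c κ C1) : Tl A ν c κ C1 := by
  refine ⟨hT.dom, hT.h0, hT.kp, ?_⟩
  rw [← hT.step.sum]
  refine le_trans (Finset.sum_le_sum fun z _ => ?_) hT.mom
  refine mul_le_mul_of_nonneg_left (Real.exp_le_exp.2 ?_) (hT.h02 0 z)
  have h1 : (sn (prj h z) : ℝ) ≤ sn z := by exact_mod_cast sn_prj h z
  exact mul_le_mul_of_nonneg_left h1 hT.kp.le

lemma ck_sub (K K' : Matrix (V N) (V N) ℝ) {r : ℝ} (h : ∀ y, |K 0 y - K' 0 y| ≤ r) (x a b : V N) :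
    |ck K x a b - ck K' x a b| ≤ 4 * r := by
  obtain ⟨a1, a2⟩ := abs_le.1 (h (x + b - a))
  obtain ⟨b1, b2⟩ := abs_le.1 (h (x + b))
  obtain ⟨c1, c2⟩ := abs_le.1 (h (x - a))
  obtain ⟨d1, d2⟩ := abs_le.1 (h x)
  unfold ck
  rw [abs_le]
  constructor <;> linarith

/-- finite range part + smooth part -/
lemma cross_smooth (hA : Dom A ν c) (hβ : 0 ≤ β) {m : ℕ} (hm : 1 ≤ m)
    {K : Matrix (V N) (V N) ℝ} (hK : Cv β A K) {D : ℕ} {w a b : V N}
    (ha : sn a ≤ D) (hb : sn b ≤ D) :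
    |ck K w a b - ck (sm β ν A (2 * m + 1)) w a b| ≤ 10 * ν * D ^ 2 / (m * c ^ 2) := by
  have hν := hA.hν
  have hc := hA.hc
  set T : ℕ := 2 * m + 1 with hTd
  have hm' : (0 : ℝ) < m := by exact_mod_cast hm
  have e0 : ck K w a b - ck (sm β ν A T) w a b =
      ∑ k, wt A ν β T k * (cN (dt k w + dt k b - dt k a) - cN (dt k w + dt k b) -
        cN (dt k w - dt k a) + cN (dt k w)) := by
    have g := fun y => hK.ent hA hβ T y
    have e1 : ck K w a b = (K 0 (w + b - a) - K 0 0) - (K 0 (w + b) - K 0 0) -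
        (K 0 (w - a) - K 0 0) + (K 0 w - K 0 0) := by
      unfold ck
      ring
    rw [e1, g, g, g, g]
    have e2 : ∑ k, wt A ν β T k * (cN (dt k w + dt k b - dt k a) - cN (dt k w + dt k b) -
        cN (dt k w - dt k a) + cN (dt k w)) =
        ∑ k, wt A ν β T k * (cN (dt k (w + b - a)) - 1) -
        ∑ k, wt A ν β T k * (cN (dt k (w + b)) - 1) -
        ∑ k, wt A ν β T k * (cN (dt k (w - a)) - 1) +
        ∑ k, wt A ν β T k * (cN (dt k w) - 1) := by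
      rw [← Finset.sum_sub_distrib, ← Finset.sum_sub_distrib, ← Finset.sum_add_distrib]
      refine Finset.sum_congr rfl fun k _ => ?_
      rw [TM.H764.dt_sub, TM.H764.dt_sub, TM.H764.dt_add]
      ring
    rw [e2]
    unfold ck
    ring
  rw [e0]
  have h1 := smooth hA hβ hm a
  have h2 := smooth hA hβ hm b
  have h3 : |∑ k, wt A ν β T k * (cN (dt k w + dt k b - dt k a) - cN (dt k w + dt k b) -
      cN (dt k w - dt k a) + cN (dt k w))| ≤
      1 / 2 * (∑ k, wt A ν β T k * (2 * (1 - cN (dt k a))) +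
        ∑ k, wt A ν β T k * (2 * (1 - cN (dt k b)))) := by
    refine (Finset.abs_sum_le_sum_abs _ _).trans ?_
    rw [← Finset.sum_add_distrib, Finset.mul_sum]
    refine Finset.sum_le_sum fun k _ => ?_
    rw [abs_mul, abs_of_nonneg (wt_nonneg hA hβ T k)]
    refine (mul_le_mul_of_nonneg_left (cos_mixed (dt k w) (dt k a) (dt k b))
      (wt_nonneg hA hβ T k)).trans (le_of_eq ?_)
    ring
  have h4 : ∀ {v : V N}, sn v ≤ D → (sn v : ℝ) ^ 2 ≤ (D : ℝ) ^ 2 := fun hv =>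
    pow_le_pow_left₀ (Nat.cast_nonneg _) (by exact_mod_cast hv) 2
  have h5 : ∀ {v : V N}, sn v ≤ D → 10 * ν / (m * c ^ 2) * (sn v : ℝ) ^ 2 ≤
      10 * ν * D ^ 2 / (m * c ^ 2) := fun hv =>
    (mul_le_mul_of_nonneg_left (h4 hv) (by positivity)).trans (le_of_eq (by ring))
  have h6 := h5 ha
  have h7 := h5 hb
  rw [← hTd] at h1 h2
  linarith

/-- the cross bound of a near periodization -/
def nX (ν c κ C1 η s β : ℝ) (m D : ℕ) (R : ℝ) : ℝ :=
  2 * cX ν c κ C1 β m D R + 4 * ((2 * m + 1 : ℕ) ^ 2 * (η * s) / (ν + β))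

lemma nX_nonneg (hν : 0 < ν) (hβ : 0 ≤ β) (hηs : 0 ≤ η * s) (m D : ℕ) (R : ℝ) :
    0 ≤ nX ν c κ C1 η s β m D R := by
  have := cX_nonneg (c := c) (κ := κ) (C1 := C1) hν hβ m D R
  unfold nX
  positivity

theorem near_cross {h : N ∣ N2} (hN : Near h A A2 ν c κ C1 η s) (hβ : 0 ≤ β) {m : ℕ} (hm : 1 ≤ m)
    {K : Matrix (V N) (V N) ℝ} (hK : Cv β A K) {D : ℕ} {R : ℝ} {w a b : V N}
    (hw : R ≤ sn w) (ha : sn a ≤ D) (hb : sn b ≤ D) :
    |ck K w a b| ≤ nX ν c κ C1 η s β m D R := by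
  have hν := hN.dom.hν
  have hc := hN.dom.hc
  have hm' : (0 : ℝ) < m := by exact_mod_cast hm
  have hT : Tl (pz h A2) ν c κ C1 := tl_two hN.two
  have h1 := cross_smooth hN.dom hβ hm hK (w := w) ha hb
  have h2 := ck_sub (sm β ν A (2 * m + 1)) (sm β ν (pz h A2) (2 * m + 1))
    (fun y => sm_stab hν hβ hN.stb (2 * m + 1) 0 y) w a b
  -- the periodized part
  have h3 := hT.cross hβ hm (cv_cov β (pz h A2)) ha hb hw
  have h4 := cross_smooth hT.dom hβ hm (cv_cov β (pz h A2)) (w := w) ha hb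
  have h5 : 10 * ν * D ^ 2 / (m * c ^ 2) ≤ cX ν c κ C1 β m D R := by
    have := ft_nonneg κ C1 (2 * m + 1) (R - 2 * D)
    unfold cX
    have h6 : 0 ≤ 2 * ((2 * m + 1 : ℕ) * ft κ C1 (2 * m + 1) (R - 2 * D)) / (ν + β) := by
      positivity
    linarith
  -- a direct bound of the finite range part of the periodization
  have h6 : |ck (sm β ν (pz h A2) (2 * m + 1)) w a b| ≤
      cX ν c κ C1 β m D R - 10 * ν * D ^ 2 / (m * c ^ 2) := by
    have hT1 : 1 ≤ 2 * m + 1 := by omega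
    have s1 : (sn w : ℝ) ≤ sn (w + b - a) + 2 * D := by
      have h1 := TM.H459.sn_add_le (w + b - a) (a - b)
      have h2 := TM.H459.sn_add_le a (-b)
      rw [TM.H459.sn_neg] at h2
      have e : w + b - a + (a - b) = w := by abel
      rw [e] at h1
      rw [← sub_eq_add_neg] at h2
      have : sn w ≤ sn (w + b - a) + 2 * D := by omega
      exact_mod_cast this
    have s2 : (sn w : ℝ) ≤ sn (w + b) + 2 * D := by
      have h1 := TM.H459.sn_add_le (w + b) (-b)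
      rw [TM.H459.sn_neg] at h1
      have e : w + b + -b = w := by abel
      rw [e] at h1
      have : sn w ≤ sn (w + b) + 2 * D := by omega
      exact_mod_cast this
    have s3 : (sn w : ℝ) ≤ sn (w - a) + 2 * D := by
      have h1 := TM.H459.sn_add_le (w - a) a
      have e : w - a + a = w := by abel
      rw [e] at h1
      have : sn w ≤ sn (w - a) + 2 * D := by omega
      exact_mod_cast this
    have hD0 : (0 : ℝ) ≤ D := Nat.cast_nonneg _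
    obtain ⟨f11, f12⟩ := hT.sm_far hβ hT1 (y := w + b - a) (r := R - 2 * D) (by linarith)
    obtain ⟨f21, f22⟩ := hT.sm_far hβ hT1 (y := w + b) (r := R - 2 * D) (by linarith)
    obtain ⟨f31, f32⟩ := hT.sm_far hβ hT1 (y := w - a) (r := R - 2 * D) (by linarith)
    obtain ⟨f41, f42⟩ := hT.sm_far hβ hT1 (y := w) (r := R - 2 * D) (by linarith)
    have e : cX ν c κ C1 β m D R - 10 * ν * D ^ 2 / (m * c ^ 2) =
        (2 * m + 1 : ℕ) * ft κ C1 (2 * m + 1) (R - 2 * D) / (ν + β) +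
          (2 * m + 1 : ℕ) * ft κ C1 (2 * m + 1) (R - 2 * D) / (ν + β) := by
      unfold cX
      ring
    rw [e, abs_le]
    unfold ck
    constructor <;> linarith
  have h7 := cX_nonneg (c := c) (κ := κ) (C1 := C1) hν hβ m D R
  obtain ⟨a1, a2⟩ := abs_le.1 h1
  obtain ⟨b1, b2⟩ := abs_le.1 h2
  obtain ⟨c1, c2⟩ := abs_le.1 h6
  unfold nX
  rw [abs_le]
  constructor <;> linarith

lemma near_ηs {h : N ∣ N2} (hN : Near h A A2 ν c κ C1 η s) : 0 ≤ η * s :=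
  (abs_nonneg _).trans (hN.stb.sup 0)

/-- **(E) for a pair** through the common kernel `A3` -/
theorem near_ent2 {A3 : Matrix (V N2) (V N2) ℝ} {h : N ∣ N2} {h' : N2 ∣ N2}
    (hN : Near h A A3 ν c κ C1 η s) (hN2 : Near h' A2 A3 ν c κ C1 η s) (hβ : 0 ≤ β)
    {m : ℕ} (hm : 1 ≤ m) {K : Matrix (V N) (V N) ℝ} {K2 : Matrix (V N2) (V N2) ℝ}
    (hK : Cv β A K) (hK2 : Cv β A2 K2) {D : ℕ} (hD : 2 * D ≤ N) {ζ : ℤ × ℤ}
    (h1 : ζ.1.natAbs ≤ D) (h2 : ζ.2.natAbs ≤ D) :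
    |(K2 0 (ip N2 ζ) - K2 0 0) - (K 0 (ip N ζ) - K 0 0)| ≤
      eE ν c κ C1 η s β N m D + eE ν c κ C1 η s β N2 m D := by
  have hNN : N ≤ N2 := Nat.le_of_dvd (Nat.pos_of_ne_zero (NeZero.ne N2)) h
  obtain ⟨a1, a2⟩ := abs_le.1 (hN.ent hβ hm hK (cv_cov β A3) hD h1 h2)
  obtain ⟨b1, b2⟩ := abs_le.1 (hN2.ent hβ hm hK2 (cv_cov β A3) (hD.trans hNN) h1 h2)
  rw [abs_le]
  constructor <;> linarith

end near

/-! ### the torus model of scalar mass `t` -/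

section inst

variable {b t c κ C1 η₀ s₀ η bb : ℝ} {D m : ℕ} {R δ d : ℝ}

/-- **WL, doubling**: the laws of the two core windows on the tori `N ∣ N2` -/
theorem cmp_tor {A3 : Matrix (V N2) (V N2) ℝ} {h : N ∣ N2} {h' : N2 ∣ N2} (hb : 0 < b) (ht : 0 < t)
    (hN : Near h (Anm N b t) A3 t c κ C1 η₀ s₀) (hN2 : Near h' (Anm N2 b t) A3 t c κ C1 η₀ s₀)
    {Bd : Set (V N → ℝ)} (hBd : MeasurableSet Bd) {Bd' : Set (V N2 → ℝ)}
    (hBd' : MeasurableSet Bd') (hη0 : 0 ≤ η)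
    (hη : ∀ F, F ∉ Bd → Wt (wT b N) (t • (1 : Matrix (V N) (V N) ℝ)) t 0 F ≤ 1 + η)
    (hbd : (nuM (wT b N) (t • (1 : Matrix (V N) (V N) ℝ)) 0).real Bd ≤ bb)
    (hη' : ∀ F, F ∉ Bd' → Wt (wT b N2) (t • (1 : Matrix (V N2) (V N2) ℝ)) t 0 F ≤ 1 + η)
    (hbd' : (nuM (wT b N2) (t • (1 : Matrix (V N2) (V N2) ℝ)) 0).real Bd' ≤ bb)
    (hηb : η + bb ≤ 1 / 8) (hDN : 4 * D < N) (hm : 1 ≤ m)
    {p q : V N} {p2 q2 : V N2} (hR : 2 * (D : ℝ) < R) (hpq : R ≤ sn (q - p))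
    (hpq2 : R ≤ sn (q2 - p2)) (hδ : 0 < δ) (hδ4 : δ ≤ 1 / 4)
    (hδ2 : t * (2 * (2 * (D : ℝ) + 1) ^ 2) *
      (3 * (eE t c κ C1 η₀ s₀ 0 N m (2 * D) + eE t c κ C1 η₀ s₀ 0 N2 m (2 * D)) +
        2 * nX t c κ C1 η₀ s₀ 0 m D R) ≤ δ)
    (hd : 0 ≤ d) (hd8 : d ≤ 1 / 8) :
    Cmp (nuM (wT b N) (t • (1 : Matrix (V N) (V N) ℝ)) 0)
      (nuM (wT b N2) (t • (1 : Matrix (V N2) (V N2) ℝ)) 0) (wd D p q) (wd D p2 q2)
      (4 * (η + bb) + 2 * d) (4 * bb + 2 * (2 * (1 + d) ^ (-(1 / (4 * δ))))) := by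
  have hA := hN.dom
  have hA' := hN2.dom
  have h1 := eE_nonneg hN le_rfl m (2 * D)
  have h2 := eE_nonneg hN2 le_rfl m (2 * D)
  rw [← An_tor b hb.le ht] at hA hA'
  refine cmp_two (H963.gw_wT hb.le) (bw_wT hb) (mf_scalar ht) (H963.gw_wT hb.le) (bw_wT hb)
    (mf_scalar ht) hA hA' hBd hBd' hη0 hη hbd hη' hbd' hηb hDN (K := cov 0 (Anm N b t))
    (K2 := cov 0 (Anm N2 b t)) ?_ ?_ (add_nonneg h1 h2)
    (nX_nonneg (c := c) (κ := κ) (C1 := C1) ht le_rfl (near_ηs hN) m D R) ?_ hR hpq hpq2 ?_ ?_ hδ hδ4 hδ2 hd hd8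
  · rw [An_tor b hb.le ht]
    exact cv_cov 0 _
  · rw [An_tor b hb.le ht]
    exact cv_cov 0 _
  · intro ζ h3 h4
    exact near_ent2 hN hN2 le_rfl hm (cv_cov 0 _) (cv_cov 0 _) (by omega) h3 h4
  · intro x a b hx ha hb
    exact near_cross hN le_rfl hm (cv_cov 0 _) hx ha hb
  · intro x a b hx ha hb
    exact near_cross hN2 le_rfl hm (cv_cov 0 _) hx ha hb

/-- **WL, move**: the laws of the two core windows at two pairs of positions on one torus -/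
theorem cmp_move {A3 : Matrix (V N) (V N) ℝ} {h : N ∣ N} (hb : 0 < b) (ht : 0 < t)
    (hN : Near h (Anm N b t) A3 t c κ C1 η₀ s₀)
    {Bd : Set (V N → ℝ)} (hBd : MeasurableSet Bd) (hη0 : 0 ≤ η)
    (hη : ∀ F, F ∉ Bd → Wt (wT b N) (t • (1 : Matrix (V N) (V N) ℝ)) t 0 F ≤ 1 + η)
    (hbd : (nuM (wT b N) (t • (1 : Matrix (V N) (V N) ℝ)) 0).real Bd ≤ bb)
    (hηb : η + bb ≤ 1 / 8) (hDN : 4 * D < N) (hm : 1 ≤ m)
    {p q p2 q2 : V N} (hR : 2 * (D : ℝ) < R) (hpq : R ≤ sn (q - p))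
    (hpq2 : R ≤ sn (q2 - p2)) (hδ : 0 < δ) (hδ4 : δ ≤ 1 / 4)
    (hδ2 : t * (2 * (2 * (D : ℝ) + 1) ^ 2) * (2 * nX t c κ C1 η₀ s₀ 0 m D R) ≤ δ)
    (hd : 0 ≤ d) (hd8 : d ≤ 1 / 8) :
    Cmp (nuM (wT b N) (t • (1 : Matrix (V N) (V N) ℝ)) 0)
      (nuM (wT b N) (t • (1 : Matrix (V N) (V N) ℝ)) 0) (wd D p q) (wd D p2 q2)
      (4 * (η + bb) + 2 * d) (4 * bb + 2 * (2 * (1 + d) ^ (-(1 / (4 * δ))))) := by
  have hA := hN.dom
  rw [← An_tor b hb.le ht] at hA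
  refine cmp_two (H963.gw_wT hb.le) (bw_wT hb) (mf_scalar ht) (H963.gw_wT hb.le) (bw_wT hb)
    (mf_scalar ht) hA hA hBd hBd hη0 hη hbd hη hbd hηb hDN (K := cov 0 (Anm N b t))
    (K2 := cov 0 (Anm N b t)) ?_ ?_ le_rfl
    (nX_nonneg (c := c) (κ := κ) (C1 := C1) ht le_rfl (near_ηs hN) m D R) ?_ hR hpq hpq2 ?_ ?_ hδ hδ4 ?_ hd hd8
  · rw [An_tor b hb.le ht]
    exact cv_cov 0 _
  · rw [An_tor b hb.le ht]
    exact cv_cov 0 _
  · intro ζ _ _
    rw [sub_self, abs_zero]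
  · intro x a b hx ha hb
    exact near_cross hN le_rfl hm (cv_cov 0 _) hx ha hb
  · intro x a b hx ha hb
    exact near_cross hN le_rfl hm (cv_cov 0 _) hx ha hb
  · rw [mul_zero, zero_add]
    exact hδ2

end inst

end

end Vale.Agent.P159.H708
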