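import Vale.Agent.P159.H708.Wl6

/-!
P159 / H708 (module WL), part 7: the site level version. The tails of the step kernels are bounded
per site (`fib`: exponential moment summed over a fibre of the periodization `≤ s`, `s ~ t log ξ`),
so that the errors are `s / t` times an exponentially small number instead of `1 / t` times.
-/

set_option linter.unusedSectionVars false

namespace Vale.Agent.P159.H708

open Finset Matrix MeasureTheory
open Vale.Agent.P159.TM.H764 (cN sN dt EE)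
open Vale.Agent.P159.TM.Spec (V)
open Vale.Agent.P159.TM.SpecC (wT)
open Vale.Agent.P159.H864 (TI sym mlt fc hsq)
open Vale.Agent.P159.H462 (Dom)
open Vale.Agent.P159.TM.H459 (sn)
open Vale.Agent.P159.H37 (gau qf wM)
open Vale.Agent.P159.H686 (Cmp fl)
open Vale.Agent.P159.H963 (MF GW nM An ntr Anm)
open Vale.Agent.P159.H733.Torg
open Vale.Agent.P159.H883

noncomputable section

variable {N N2 : ℕ} [NeZero N] [NeZero N2]

/-! ### exponential moments of the powers -/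

lemma exp_sn_le (θ : ℝ) (z : V N) :
    Real.exp (θ * sn z) ≤ 2 * H733.Torg.psi θ z.1 + 2 * H733.Torg.psi θ z.2 := by
  have h1 : ∀ a : ZMod N, Real.exp (θ * av a) ≤ 2 * H733.Torg.psi θ a := by
    intro a
    unfold H733.Torg.psi
    rw [Real.cosh_eq]
    have := Real.exp_pos (-(θ * av a))
    linarith
  have p1 := H733.Torg.psi_pos (N := N) θ z.1
  have p2 := H733.Torg.psi_pos (N := N) θ z.2
  rw [sn_eq]
  rcases le_total (av z.1) (av z.2) with h | h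
  · rw [max_eq_right h]
    have := h1 z.2
    linarith
  · rw [max_eq_left h]
    have := h1 z.1
    linarith

theorem mgf_pow {S : Matrix (V N) (V N) ℝ} (hS : TI S) (h0 : ∀ x y, 0 ≤ S x y)
    (h1 : ∀ x, ∑ y, S x y = 1) {κ C1 : ℝ} (hκ : 0 < κ)
    (hm : ∑ z, S 0 z * Real.exp (κ * sn z) ≤ C1) {T m : ℕ} (hT : 1 ≤ T) (hmT : m ≤ T) :
    ∑ z, (S ^ m) 0 z * Real.exp (κ / (2 * √T) * sn z) ≤ 4 * Real.exp C1 := by
  have hT' : (1 : ℝ) ≤ T := by exact_mod_cast hT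
  have hsT : 1 ≤ √(T : ℝ) := Real.one_le_sqrt.2 hT'
  have hC1 : 0 ≤ C1 := le_trans (Finset.sum_nonneg fun z _ =>
    mul_nonneg (h0 _ _) (Real.exp_pos _).le) hm
  set θ : ℝ := κ / (2 * √T) with hθ
  have hθ0 : 0 < θ := by positivity
  have hθκ : 2 * θ ≤ κ := by
    rw [hθ]
    rw [show 2 * (κ / (2 * √(T : ℝ))) = κ / √T by field_simp]
    exact div_le_self hκ.le hsT
  have hθ2 : 4 * (θ ^ 2 / κ ^ 2) * C1 = C1 / T := by
    rw [hθ, div_pow, mul_pow, Real.sq_sqrt (by positivity)]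
    field_simp
    norm_num
  have key : ∀ p : V N →+ ZMod N, (∀ z, av (p z) ≤ sn z) →
      ∑ z, (S ^ m) 0 z * H733.Torg.psi θ (p z) ≤ Real.exp C1 := by
    intro p hp
    have g1 := pow_psi hS h0 p θ m
    have g2 := one_step h0 h1 hκ hm hθ0.le hθκ hp
    rw [hθ2] at g2
    refine g1.trans ?_
    have k0 : 0 ≤ ∑ z, S 0 z * H733.Torg.psi θ (p z) :=
      Finset.sum_nonneg fun z _ => mul_nonneg (h0 _ _) (H733.Torg.psi_pos _ _).le
    have k1 : ∑ z, S 0 z * H733.Torg.psi θ (p z) ≤ Real.exp (C1 / T) := by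
      have := Real.add_one_le_exp (C1 / T)
      linarith
    calc (∑ z, S 0 z * H733.Torg.psi θ (p z)) ^ m ≤ (Real.exp (C1 / T)) ^ m := pow_le_pow_left₀ k0 k1 m
      _ = Real.exp (m * (C1 / T)) := by rw [← Real.exp_nat_mul]
      _ ≤ Real.exp C1 := by
        refine Real.exp_le_exp.2 ?_
        have : (m : ℝ) ≤ T := by exact_mod_cast hmT
        rw [mul_div_assoc', div_le_iff₀ (by linarith)]
        nlinarith
  have k1 := key (AddMonoidHom.fst _ _) (fun z => le_max_left _ _)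
  have k2 := key (AddMonoidHom.snd _ _) (fun z => le_max_right _ _)
  have k3 : ∑ z, (S ^ m) 0 z * Real.exp (θ * sn z) ≤
      ∑ z, (2 * ((S ^ m) 0 z * H733.Torg.psi θ ((AddMonoidHom.fst (ZMod N) (ZMod N)) z)) +
        2 * ((S ^ m) 0 z * H733.Torg.psi θ ((AddMonoidHom.snd (ZMod N) (ZMod N)) z))) := by
    refine Finset.sum_le_sum fun z _ => ?_
    refine (mul_le_mul_of_nonneg_left (exp_sn_le θ z) (pow_nonneg' h0 m 0 z)).trans
      (le_of_eq ?_)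
    simp only [AddMonoidHom.coe_fst, AddMonoidHom.coe_snd]
    ring
  refine k3.trans ?_
  rw [Finset.sum_add_distrib, ← Finset.mul_sum, ← Finset.mul_sum]
  linarith

/-- exponential moment of a power over a fibre -/
theorem fib_pow {h : N ∣ N2} {S : Matrix (V N2) (V N2) ℝ} (hS : TI S) (h0 : ∀ x y, 0 ≤ S x y)
    (h1 : ∀ x, ∑ y, S x y = 1) {κ C1 : ℝ} (hκ : 0 < κ)
    (hm : ∑ z, S 0 z * Real.exp (κ * sn z) ≤ C1) {s : ℝ}
    (hf : ∀ z : V N, ∑ y ∈ univ.filter (fun y : V N2 => prj h y = z),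
      S 0 y * Real.exp (κ * sn y) ≤ s) {T m : ℕ} (hT : 1 ≤ T) (hmT : m ≤ T) (z : V N) :
    ∑ y ∈ univ.filter (fun y : V N2 => prj h y = z),
      (S ^ (m + 1)) 0 y * Real.exp (κ / (2 * √T) * sn y) ≤ 4 * Real.exp C1 * s := by
  have hT' : (1 : ℝ) ≤ T := by exact_mod_cast hT
  have hsT : 1 ≤ √(T : ℝ) := Real.one_le_sqrt.2 hT'
  set θ : ℝ := κ / (2 * √T) with hθ
  have hθ0 : 0 < θ := by positivity
  have hθκ : θ ≤ κ := by
    rw [hθ]
    exact div_le_self hκ.le (by linarith)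
  have hs : 0 ≤ s := le_trans (Finset.sum_nonneg fun y _ =>
    mul_nonneg (h0 _ _) (Real.exp_pos _).le) (hf 0)
  have e1 : ∀ y, (S ^ (m + 1)) 0 y * Real.exp (θ * sn y) ≤
      ∑ w, (S ^ m) 0 w * Real.exp (θ * sn w) * (S 0 (y - w) * Real.exp (κ * sn (y - w))) := by
    intro y
    rw [pow_succ, Matrix.mul_apply, Finset.sum_mul]
    refine Finset.sum_le_sum fun w _ => ?_
    rw [hS.eq w y]
    have k1 : Real.exp (θ * sn y) ≤ Real.exp (θ * sn w) * Real.exp (κ * sn (y - w)) := by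
      rw [← Real.exp_add]
      refine Real.exp_le_exp.2 ?_
      have k2 := TM.H459.sn_add_le w (y - w)
      have k3 : w + (y - w) = y := by abel
      rw [k3] at k2
      have k4 : (sn y : ℝ) ≤ sn w + sn (y - w) := by exact_mod_cast k2
      have k5 : θ * sn y ≤ θ * (sn w + sn (y - w)) := mul_le_mul_of_nonneg_left k4 hθ0.le
      have k6 : θ * (sn (y - w) : ℝ) ≤ κ * sn (y - w) :=
        mul_le_mul_of_nonneg_right hθκ (Nat.cast_nonneg _)
      linarith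
    have k7 : 0 ≤ (S ^ m) 0 w * S 0 (y - w) := mul_nonneg (pow_nonneg' h0 m _ _) (h0 _ _)
    refine (mul_le_mul_of_nonneg_left k1 k7).trans (le_of_eq ?_)
    ring
  refine (Finset.sum_le_sum fun y _ => e1 y).trans ?_
  rw [Finset.sum_comm]
  have e2 : ∀ w, ∑ y ∈ univ.filter (fun y : V N2 => prj h y = z),
      (S ^ m) 0 w * Real.exp (θ * sn w) * (S 0 (y - w) * Real.exp (κ * sn (y - w))) ≤
      (S ^ m) 0 w * Real.exp (θ * sn w) * s := by
    intro w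
    rw [← Finset.mul_sum]
    refine mul_le_mul_of_nonneg_left ?_ (mul_nonneg (pow_nonneg' h0 m _ _) (Real.exp_pos _).le)
    refine le_trans (le_of_eq ?_) (hf (z - prj h w))
    refine Finset.sum_bij' (fun y _ => y - w) (fun y _ => y + w) ?_ ?_ ?_ ?_ ?_
    · intro y hy
      rw [Finset.mem_filter] at hy ⊢
      exact ⟨mem_univ _, by rw [map_sub, hy.2]⟩
    · intro y hy
      rw [Finset.mem_filter] at hy ⊢
      exact ⟨mem_univ _, by rw [map_add, hy.2]; abel⟩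
    · intro y _
      simp
    · intro y _
      simp
    · intro y _
      rfl
  refine (Finset.sum_le_sum fun w _ => e2 w).trans ?_
  rw [← Finset.sum_mul]
  exact mul_le_mul_of_nonneg_right (mgf_pow hS h0 h1 hκ hm hT hmT) hs

/-! ### the structure -/

/-- `Nrs` with the per site exponential moment -/
structure Nrp (h : N ∣ N2) (A : Matrix (V N) (V N) ℝ) (A3 : Matrix (V N2) (V N2) ℝ)
    (ν c κ C1 σ s : ℝ) : Prop extends Nrs h A A3 ν c κ C1 σ where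
  fib : ∀ z : V N, ∑ y ∈ univ.filter (fun y : V N2 => prj h y = z),
    (1 - ν⁻¹ • A3 : Matrix (V N2) (V N2) ℝ) 0 y * Real.exp (κ * sn y) ≤ s

section nrp

variable {A : Matrix (V N) (V N) ℝ} {A2 A3 : Matrix (V N2) (V N2) ℝ} {ν c κ C1 β σ s : ℝ}
  {h : N ∣ N2}

lemma Nrp.s0 (hN : Nrp h A A3 ν c κ C1 σ s) : 0 ≤ s :=
  le_trans (Finset.sum_nonneg fun y _ =>
    mul_nonneg (hN.toNrs.two.h02 _ _) (Real.exp_pos _).le) (hN.fib 0)

/-- far entries of the powers on the small torus -/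
lemma Nrp.pow_far (hN : Nrp h A A3 ν c κ C1 σ s) {T m : ℕ} (hT : 1 ≤ T) (hm : m ≤ T) {z : V N}
    {r : ℝ} (hr : r ≤ sn z) :
    ((1 - ν⁻¹ • pz h A3 : Matrix (V N) (V N) ℝ) ^ (m + 1)) 0 z ≤ s * ft κ C1 T r := by
  have hP := (hN.toNrs.two.step.pow (m + 1)).ker z
  rw [hP]
  have h1 := fib_pow (h := h) (ti_step hN.dom2.ti ν) hN.toNrs.two.h02 (step_row hN.dom2) hN.kp
    hN.mom hN.fib hT hm z
  have hθ : 0 ≤ κ / (2 * √(T : ℝ)) := div_nonneg hN.kp.le (by positivity)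
  have h2 : ∀ y ∈ univ.filter (fun y : V N2 => prj h y = z),
      ((1 - ν⁻¹ • A3 : Matrix (V N2) (V N2) ℝ) ^ (m + 1)) 0 y ≤
      ((1 - ν⁻¹ • A3 : Matrix (V N2) (V N2) ℝ) ^ (m + 1)) 0 y *
        Real.exp (κ / (2 * √(T : ℝ)) * sn y) * Real.exp (-(κ * r / (2 * √T))) := by
    intro y hy
    have hy' : prj h y = z := (Finset.mem_filter.1 hy).2
    have k1 : r ≤ sn y := by
      have := sn_prj h y
      rw [hy'] at this
      have k2 : (sn z : ℝ) ≤ sn y := by exact_mod_cast this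
      linarith
    have k3 : 1 ≤ Real.exp (κ / (2 * √(T : ℝ)) * sn y) * Real.exp (-(κ * r / (2 * √T))) := by
      rw [← Real.exp_add]
      refine Real.one_le_exp ?_
      have k4 := mul_le_mul_of_nonneg_left k1 hθ
      have k5 : κ * r / (2 * √(T : ℝ)) = κ / (2 * √(T : ℝ)) * r := by ring
      rw [k5]
      linarith
    rw [mul_assoc]
    exact le_mul_of_one_le_right (pow_nonneg' hN.toNrs.two.h02 _ _ _) k3
  refine (Finset.sum_le_sum h2).trans ?_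
  rw [← Finset.sum_mul]
  refine (mul_le_mul_of_nonneg_right h1 (Real.exp_pos _).le).trans (le_of_eq ?_)
  unfold ft
  ring

/-- the two tori differ by a tail -/
lemma Nrp.pow_diff (hN : Nrp h A A3 ν c κ C1 σ s) {T m : ℕ} (hT : 1 ≤ T) (hm : m ≤ T)
    {ζ : ℤ × ℤ} (h1 : 2 * ζ.1.natAbs ≤ N) (h2 : 2 * ζ.2.natAbs ≤ N) :
    0 ≤ ((1 - ν⁻¹ • pz h A3 : Matrix (V N) (V N) ℝ) ^ m) 0 (ip N ζ) -
      ((1 - ν⁻¹ • A3 : Matrix (V N2) (V N2) ℝ) ^ m) 0 (ip N2 ζ) ∧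
    ((1 - ν⁻¹ • pz h A3 : Matrix (V N) (V N) ℝ) ^ m) 0 (ip N ζ) -
      ((1 - ν⁻¹ • A3 : Matrix (V N2) (V N2) ℝ) ^ m) 0 (ip N2 ζ) ≤ s * ft κ C1 T (N / 2) := by
  have hP := hN.toNrs.two.step.pow m
  have h0 := pow_nonneg' hN.toNrs.two.h02 m
  refine ⟨(ker_diff hP h0 h1 h2).1, ?_⟩
  have hs0 := hN.s0
  have hft := ft_nonneg κ C1 T ((N : ℝ) / 2)
  rcases Nat.eq_zero_or_pos m with hm0 | hm0
  · subst hm0
    refine (ker_diff hP h0 h1 h2).2.trans ?_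
    rw [pow_zero]
    refine le_trans (le_of_eq (Finset.sum_eq_zero fun z hz => ?_)) (mul_nonneg hs0 hft)
    rw [Matrix.one_apply, if_neg]
    intro hz0
    rw [← hz0] at hz
    have h3 := (Finset.mem_filter.1 hz).2
    have h4 : sn (0 : V N2) = 0 := by simp [TM.H459.sn]
    rw [h4] at h3
    have h5 : (0 : ℝ) < N := by exact_mod_cast Nat.pos_of_ne_zero (NeZero.ne N)
    push_cast at h3
    linarith
  · obtain ⟨m', rfl⟩ : ∃ m', m = m' + 1 := ⟨m - 1, by omega⟩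
    rw [hP.ker]
    have hmem : ip N2 ζ ∈ univ.filter (fun z2 : V N2 => prj h z2 = ip N ζ) := by
      rw [Finset.mem_filter]
      exact ⟨mem_univ _, prj_ip h ζ⟩
    rw [← Finset.add_sum_erase _ _ hmem, add_sub_cancel_left]
    have hθ : 0 ≤ κ / (2 * √(T : ℝ)) := div_nonneg hN.kp.le (by positivity)
    have h3 := fib_pow (h := h) (ti_step hN.dom2.ti ν) hN.toNrs.two.h02 (step_row hN.dom2) hN.kp
      hN.mom hN.fib hT (show m' ≤ T by omega) (ip N ζ)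
    have h4 : ∀ y ∈ (univ.filter (fun z2 : V N2 => prj h z2 = ip N ζ)).erase (ip N2 ζ),
        ((1 - ν⁻¹ • A3 : Matrix (V N2) (V N2) ℝ) ^ (m' + 1)) 0 y ≤
        ((1 - ν⁻¹ • A3 : Matrix (V N2) (V N2) ℝ) ^ (m' + 1)) 0 y *
          Real.exp (κ / (2 * √(T : ℝ)) * sn y) * Real.exp (-(κ * (N / 2) / (2 * √T))) := by
      intro y hy
      rw [Finset.mem_erase, Finset.mem_filter] at hy
      have k0 := far h h1 h2 hy.2.2 hy.1
      have k1 : (N : ℝ) / 2 ≤ sn y := by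
        have : (N : ℝ) ≤ 2 * sn y := by exact_mod_cast k0
        linarith
      have k3 : 1 ≤ Real.exp (κ / (2 * √(T : ℝ)) * sn y) *
          Real.exp (-(κ * (N / 2) / (2 * √T))) := by
        rw [← Real.exp_add]
        refine Real.one_le_exp ?_
        have k4 := mul_le_mul_of_nonneg_left k1 hθ
        have k5 : κ * ((N : ℝ) / 2) / (2 * √(T : ℝ)) = κ / (2 * √(T : ℝ)) * (N / 2) := by ring
        rw [k5]
        linarith
      rw [mul_assoc]
      exact le_mul_of_one_le_right (pow_nonneg' hN.toNrs.two.h02 _ _ _) k3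
    refine (Finset.sum_le_sum h4).trans ?_
    rw [← Finset.sum_mul]
    have h5 : ∑ y ∈ (univ.filter (fun z2 : V N2 => prj h z2 = ip N ζ)).erase (ip N2 ζ),
        ((1 - ν⁻¹ • A3 : Matrix (V N2) (V N2) ℝ) ^ (m' + 1)) 0 y *
          Real.exp (κ / (2 * √(T : ℝ)) * sn y) ≤ 4 * Real.exp C1 * s := by
      refine le_trans (Finset.sum_le_sum_of_subset_of_nonneg (Finset.erase_subset _ _) ?_) h3
      exact fun y _ _ => mul_nonneg (pow_nonneg' hN.toNrs.two.h02 _ _ _) (Real.exp_pos _).le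
    refine (mul_le_mul_of_nonneg_right h5 (Real.exp_pos _).le).trans (le_of_eq ?_)
    unfold ft
    ring

lemma Nrp.sm_far (hN : Nrp h A A3 ν c κ C1 σ s) (hβ : 0 ≤ β) {T : ℕ} (hT1 : 1 ≤ T) {y : V N}
    {r : ℝ} (hr0 : 0 < r) (hr : r ≤ sn y) :
    0 ≤ sm β ν (pz h A3) T 0 y ∧
      sm β ν (pz h A3) T 0 y ≤ T * (s * ft κ C1 T r) / (ν + β) := by
  have hν := hN.dom.hν
  have hs0 := hN.s0
  have hft := ft_nonneg κ C1 T r
  have e1 : sm β ν (pz h A3) T 0 y = (ν + β)⁻¹ * ∑ m ∈ range T, (ν / (ν + β)) ^ m *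
      ((1 - ν⁻¹ • pz h A3 : Matrix (V N) (V N) ℝ) ^ m) 0 y := by
    unfold sm
    rw [Matrix.smul_apply, Matrix.sum_apply, smul_eq_mul]
    congr 1
  rw [e1]
  have hl0 : 0 ≤ ν / (ν + β) := by positivity
  have hl1 : ν / (ν + β) ≤ 1 := by
    rw [div_le_one (by positivity)]
    linarith
  have hp : ∀ m, 0 ≤ ((1 - ν⁻¹ • pz h A3 : Matrix (V N) (V N) ℝ) ^ m) 0 y := fun m =>
    pow_nonneg' hN.toNrs.two.h0 m 0 y
  constructor
  · exact mul_nonneg (by positivity) (Finset.sum_nonneg fun m _ =>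
      mul_nonneg (pow_nonneg hl0 m) (hp m))
  · have h3 : ∑ m ∈ range T, (ν / (ν + β)) ^ m *
        ((1 - ν⁻¹ • pz h A3 : Matrix (V N) (V N) ℝ) ^ m) 0 y ≤
        ∑ _m ∈ range T, s * ft κ C1 T r := by
      refine Finset.sum_le_sum fun m hm => ?_
      have h5 : ((1 - ν⁻¹ • pz h A3 : Matrix (V N) (V N) ℝ) ^ m) 0 y ≤ s * ft κ C1 T r := by
        rcases Nat.eq_zero_or_pos m with hm0 | hm0
        · rw [hm0, pow_zero, Matrix.one_apply, if_neg]
          · exact mul_nonneg hs0 hft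
          · intro hy
            rw [← hy] at hr
            have h4 : sn (0 : V N) = 0 := by simp [TM.H459.sn]
            rw [h4] at hr
            push_cast at hr
            linarith
        · obtain ⟨m', rfl⟩ : ∃ m', m = m' + 1 := ⟨m - 1, by omega⟩
          have := Finset.mem_range.1 hm
          exact hN.pow_far hT1 (by omega) hr
      calc (ν / (ν + β)) ^ m * ((1 - ν⁻¹ • pz h A3 : Matrix (V N) (V N) ℝ) ^ m) 0 y
          ≤ 1 * ((1 - ν⁻¹ • pz h A3 : Matrix (V N) (V N) ℝ) ^ m) 0 y :=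
            mul_le_mul_of_nonneg_right (pow_le_one₀ hl0 hl1) (hp m)
        _ ≤ s * ft κ C1 T r := by
            rw [one_mul]
            exact h5
    rw [Finset.sum_const, Finset.card_range, nsmul_eq_mul] at h3
    refine (mul_le_mul_of_nonneg_left h3 (show 0 ≤ (ν + β)⁻¹ by positivity)).trans
      (le_of_eq ?_)
    ring

lemma Nrp.sm_diff (hN : Nrp h A A3 ν c κ C1 σ s) (hβ : 0 ≤ β) {T : ℕ} (hT1 : 1 ≤ T)
    {ζ : ℤ × ℤ} (h1 : 2 * ζ.1.natAbs ≤ N) (h2 : 2 * ζ.2.natAbs ≤ N) :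
    0 ≤ sm β ν (pz h A3) T 0 (ip N ζ) - sm β ν A3 T 0 (ip N2 ζ) ∧
    sm β ν (pz h A3) T 0 (ip N ζ) - sm β ν A3 T 0 (ip N2 ζ) ≤
      T * (s * ft κ C1 T (N / 2)) / (ν + β) := by
  have hν := hN.dom.hν
  have e1 : sm β ν (pz h A3) T 0 (ip N ζ) - sm β ν A3 T 0 (ip N2 ζ) =
      (ν + β)⁻¹ * ∑ m ∈ range T, (ν / (ν + β)) ^ m *
        (((1 - ν⁻¹ • pz h A3 : Matrix (V N) (V N) ℝ) ^ m) 0 (ip N ζ) -
          ((1 - ν⁻¹ • A3 : Matrix (V N2) (V N2) ℝ) ^ m) 0 (ip N2 ζ)) := by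
    unfold sm
    rw [Matrix.smul_apply, Matrix.smul_apply, Matrix.sum_apply, Matrix.sum_apply, smul_eq_mul,
      smul_eq_mul, ← mul_sub, ← Finset.sum_sub_distrib]
    congr 1
    refine Finset.sum_congr rfl fun m _ => ?_
    rw [Matrix.smul_apply, Matrix.smul_apply, smul_eq_mul, smul_eq_mul]
    ring
  rw [e1]
  have hl0 : 0 ≤ ν / (ν + β) := by positivity
  have hl1 : ν / (ν + β) ≤ 1 := by
    rw [div_le_one (by positivity)]
    linarith
  constructor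
  · refine mul_nonneg (by positivity) (Finset.sum_nonneg fun m hm => ?_)
    exact mul_nonneg (pow_nonneg hl0 m)
      (hN.pow_diff hT1 (Finset.mem_range.1 hm).le h1 h2).1
  · have h3 : ∑ m ∈ range T, (ν / (ν + β)) ^ m *
        (((1 - ν⁻¹ • pz h A3 : Matrix (V N) (V N) ℝ) ^ m) 0 (ip N ζ) -
          ((1 - ν⁻¹ • A3 : Matrix (V N2) (V N2) ℝ) ^ m) 0 (ip N2 ζ)) ≤
        ∑ _m ∈ range T, s * ft κ C1 T (N / 2) := by
      refine Finset.sum_le_sum fun m hm => ?_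
      have h4 := hN.pow_diff hT1 (Finset.mem_range.1 hm).le h1 h2
      refine (mul_le_mul_of_nonneg_right (pow_le_one₀ hl0 hl1) h4.1).trans ?_
      rw [one_mul]
      exact h4.2
    rw [Finset.sum_const, Finset.card_range, nsmul_eq_mul] at h3
    refine (mul_le_mul_of_nonneg_left h3 (show 0 ≤ (ν + β)⁻¹ by positivity)).trans
      (le_of_eq ?_)
    ring

/-- the entrywise error, per site form -/
def eP (ν c κ C1 σ s β : ℝ) (N m D : ℕ) : ℝ :=
  5 * ν * D ^ 2 / (m * c ^ 2) + ((2 * m + 1 : ℕ) * (s * ft κ C1 (2 * m + 1) (N / 2)) +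
    2 * ((2 * m + 1 : ℕ) ^ 2 * σ)) / (ν + β)

/-- the cross error, per site form -/
def xP (ν c κ C1 σ s β : ℝ) (m D : ℕ) (R : ℝ) : ℝ :=
  10 * ν * D ^ 2 / (m * c ^ 2) +
    (2 * ((2 * m + 1 : ℕ) * (s * ft κ C1 (2 * m + 1) (R - 2 * D))) +
      4 * ((2 * m + 1 : ℕ) ^ 2 * σ)) / (ν + β)

lemma eP_nonneg (hν : 0 < ν) (hβ : 0 ≤ β) (hσ : 0 ≤ σ) (hs : 0 ≤ s) (N m D : ℕ) :
    0 ≤ eP ν c κ C1 σ s β N m D := by
  have := ft_nonneg κ C1 (2 * m + 1) ((N : ℝ) / 2)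
  unfold eP
  positivity

lemma xP_nonneg (hν : 0 < ν) (hβ : 0 ≤ β) (hσ : 0 ≤ σ) (hs : 0 ≤ s) (m D : ℕ) (R : ℝ) :
    0 ≤ xP ν c κ C1 σ s β m D R := by
  have := ft_nonneg κ C1 (2 * m + 1) (R - 2 * D)
  unfold xP
  positivity

theorem Nrp.ent (hN : Nrp h A A3 ν c κ C1 σ s) (hβ : 0 ≤ β) {m : ℕ} (hm : 1 ≤ m)
    {K : Matrix (V N) (V N) ℝ} {K3 : Matrix (V N2) (V N2) ℝ} (hK : Cv β A K) (hK3 : Cv β A3 K3)
    {D : ℕ} (hD : 2 * D ≤ N) {ζ : ℤ × ℤ} (h1 : ζ.1.natAbs ≤ D) (h2 : ζ.2.natAbs ≤ D) :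
    |(K3 0 (ip N2 ζ) - K3 0 0) - (K 0 (ip N ζ) - K 0 0)| ≤ eP ν c κ C1 σ s β N m D := by
  have hν := hN.dom.hν
  set T : ℕ := 2 * m + 1 with hT
  have hT1 : 1 ≤ T := by omega
  rw [hK.ent hN.dom hβ T, hK3.ent hN.dom2 hβ T]
  have a1 := smooth_ent hN.dom hβ hm (sn_ip_le (N := N) h1 h2)
  have a2 := smooth_ent hN.dom2 hβ hm (sn_ip_le (N := N2) h1 h2)
  have b1 := hN.sm_diff hβ hT1 (ζ := ζ) (by omega) (by omega)
  have b2 := hN.sm_diff hβ hT1 (ζ := (0 : ℤ × ℤ)) (by simp) (by simp)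
  have c1 := abs_le.1 (sm_sup hν hβ hN.toNrs.sts T 0 (ip N ζ))
  have c2 := abs_le.1 (sm_sup hν hβ hN.toNrs.sts T 0 0)
  rw [ip_zero, ip_zero] at b2
  have e : eP ν c κ C1 σ s β N m D = 5 * ν * D ^ 2 / (m * c ^ 2) +
      T * (s * ft κ C1 T (N / 2)) / (ν + β) + 2 * (T ^ 2 * σ / (ν + β)) := by
    unfold eP
    rw [← hT]
    ring
  rw [e]
  rw [← hT] at a1 a2
  obtain ⟨a11, a12⟩ := a1
  obtain ⟨a21, a22⟩ := a2
  obtain ⟨b11, b12⟩ := b1
  obtain ⟨b21, b22⟩ := b2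
  obtain ⟨c11, c12⟩ := c1
  obtain ⟨c21, c22⟩ := c2
  rw [abs_le]
  constructor <;> linarith

theorem Nrp.ent2 {h' : N2 ∣ N2} (hN : Nrp h A A3 ν c κ C1 σ s)
    (hN2 : Nrp h' A2 A3 ν c κ C1 σ s) (hβ : 0 ≤ β) {m : ℕ} (hm : 1 ≤ m)
    {K : Matrix (V N) (V N) ℝ} {K2 : Matrix (V N2) (V N2) ℝ} (hK : Cv β A K) (hK2 : Cv β A2 K2)
    {D : ℕ} (hD : 2 * D ≤ N) {ζ : ℤ × ℤ} (h1 : ζ.1.natAbs ≤ D) (h2 : ζ.2.natAbs ≤ D) :
    |(K2 0 (ip N2 ζ) - K2 0 0) - (K 0 (ip N ζ) - K 0 0)| ≤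
      eP ν c κ C1 σ s β N m D + eP ν c κ C1 σ s β N2 m D := by
  have hNN : N ≤ N2 := Nat.le_of_dvd (Nat.pos_of_ne_zero (NeZero.ne N2)) h
  obtain ⟨a1, a2⟩ := abs_le.1 (hN.ent hβ hm hK (cv_cov β A3) hD h1 h2)
  obtain ⟨b1, b2⟩ := abs_le.1 (hN2.ent hβ hm hK2 (cv_cov β A3) (hD.trans hNN) h1 h2)
  rw [abs_le]
  constructor <;> linarith

theorem Nrp.cross (hN : Nrp h A A3 ν c κ C1 σ s) (hβ : 0 ≤ β) {m : ℕ} (hm : 1 ≤ m)
    {K : Matrix (V N) (V N) ℝ} (hK : Cv β A K) {D : ℕ} {R : ℝ} (hR : 2 * (D : ℝ) < R)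
    {w a b : V N} (hw : R ≤ sn w) (ha : sn a ≤ D) (hb : sn b ≤ D) :
    |ck K w a b| ≤ xP ν c κ C1 σ s β m D R := by
  have hν := hN.dom.hν
  have hc := hN.dom.hc
  have hm' : (0 : ℝ) < m := by exact_mod_cast hm
  have h1 := cross_smooth hN.dom hβ hm hK (w := w) ha hb
  have h2 := ck_sub (sm β ν A (2 * m + 1)) (sm β ν (pz h A3) (2 * m + 1))
    (fun y => sm_sup hν hβ hN.toNrs.sts (2 * m + 1) 0 y) w a b
  have h7 : |ck (sm β ν (pz h A3) (2 * m + 1)) w a b| ≤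
      2 * ((2 * m + 1 : ℕ) * (s * ft κ C1 (2 * m + 1) (R - 2 * D)) / (ν + β)) := by
    have hT1 : 1 ≤ 2 * m + 1 := by omega
    have s1 : (sn w : ℝ) ≤ sn (w + b - a) + 2 * D := by
      have h1 := TM.H459.sn_add_le (w + b - a) (a - b)
      have h2 := TM.H459.sn_add_le a (-b)
      rw [TM.H459.sn_neg] at h2
      have e : w + b - a + (a - b) = w := by abel
      rw [e] at h1
      rw [← sub_eq_add_neg] at h2
      have : sn w ≤ sn (w + b - a) + 2 * D := by omega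
      exact_mod_cast this
    have s2 : (sn w : ℝ) ≤ sn (w + b) + 2 * D := by
      have h1 := TM.H459.sn_add_le (w + b) (-b)
      rw [TM.H459.sn_neg] at h1
      have e : w + b + -b = w := by abel
      rw [e] at h1
      have : sn w ≤ sn (w + b) + 2 * D := by omega
      exact_mod_cast this
    have s3 : (sn w : ℝ) ≤ sn (w - a) + 2 * D := by
      have h1 := TM.H459.sn_add_le (w - a) a
      have e : w - a + a = w := by abel
      rw [e] at h1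
      have : sn w ≤ sn (w - a) + 2 * D := by omega
      exact_mod_cast this
    have hD0 : (0 : ℝ) ≤ D := Nat.cast_nonneg _
    have hr0 : 0 < R - 2 * (D : ℝ) := by linarith
    obtain ⟨f11, f12⟩ := hN.sm_far hβ hT1 (y := w + b - a) hr0 (by linarith)
    obtain ⟨f21, f22⟩ := hN.sm_far hβ hT1 (y := w + b) hr0 (by linarith)
    obtain ⟨f31, f32⟩ := hN.sm_far hβ hT1 (y := w - a) hr0 (by linarith)
    obtain ⟨f41, f42⟩ := hN.sm_far hβ hT1 (y := w) hr0 (by linarith)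
    rw [abs_le]
    unfold ck
    constructor <;> linarith
  obtain ⟨a1, a2⟩ := abs_le.1 h1
  obtain ⟨b1, b2⟩ := abs_le.1 h2
  obtain ⟨c1, c2⟩ := abs_le.1 h7
  have e : xP ν c κ C1 σ s β m D R = 10 * ν * D ^ 2 / (m * c ^ 2) +
      2 * ((2 * m + 1 : ℕ) * (s * ft κ C1 (2 * m + 1) (R - 2 * D)) / (ν + β)) +
      4 * ((2 * m + 1 : ℕ) ^ 2 * σ / (ν + β)) := by
    unfold xP
    ring
  rw [e, abs_le]
  constructor <;> linarith

end nrp

end

end Vale.Agent.P159.H708
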