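import Vale.Agent.P159.H708.Wl7

/-!
P159 / H708 (module WL), part 8: fibres of the periodization, the comparison of the core windows
from `Nrp` (site level), and the numbers.
-/

set_option linter.unusedSectionVars false

namespace Vale.Agent.P159.H708

open Finset Matrix MeasureTheory
open Vale.Agent.P159.TM.H764 (cN sN dt EE)
open Vale.Agent.P159.TM.Spec (V)
open Vale.Agent.P159.TM.SpecC (wT)
open Vale.Agent.P159.H864 (TI sym mlt fc hsq)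
open Vale.Agent.P159.H462 (Dom)
open Vale.Agent.P159.TM.H459 (sn)
open Vale.Agent.P159.H37 (gau qf wM)
open Vale.Agent.P159.H686 (Cmp fl)
open Vale.Agent.P159.H963 (MF GW nM An ntr Anm)
open Vale.Agent.P159.H733.Torg
open Vale.Agent.P159.H883

noncomputable section

variable {N N2 : ℕ} [NeZero N] [NeZero N2]

/-! ### fibres -/

lemma prj_self (h : N ∣ N) (z : V N) : prj h z = z := by
  rw [prj_apply]
  have : ZMod.castHom h (ZMod N) = RingHom.id _ := ZMod.castHom_self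
  rw [this]
  rfl

lemma card_fib (h : N ∣ N2) (z : V N) :
    ((univ.filter fun y : V N2 => prj h y = z).card : ℝ) = ((N2 : ℝ) / N) ^ 2 := by
  have hN : (0 : ℝ) < N := by exact_mod_cast Nat.pos_of_ne_zero (NeZero.ne N)
  have h1 : ∀ w : V N, (univ.filter fun y : V N2 => prj h y = w).card =
      (univ.filter fun y : V N2 => prj h y = z).card := by
    intro w
    obtain ⟨u, hu⟩ : ∃ u : V N2, prj h u = z - w := by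
      refine ⟨ip N2 ((z - w).1.valMinAbs, (z - w).2.valMinAbs), ?_⟩
      rw [prj_ip]
      unfold ip
      simp only [ZMod.coe_valMinAbs]
    refine Finset.card_bij' (fun y _ => y + u) (fun y _ => y - u) ?_ ?_ ?_ ?_
    · intro y hy
      rw [Finset.mem_filter] at hy ⊢
      exact ⟨mem_univ _, by rw [map_add, hy.2, hu]; abel⟩
    · intro y hy
      rw [Finset.mem_filter] at hy ⊢
      exact ⟨mem_univ _, by rw [map_sub, hy.2, hu]; abel⟩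
    · intro y _
      simp
    · intro y _
      simp
  have h2 : (univ : Finset (V N2)).card =
      ∑ w : V N, (univ.filter fun y : V N2 => prj h y = w).card :=
    Finset.card_eq_sum_card_fiberwise fun y _ => by simp
  rw [Finset.sum_congr rfl fun w _ => h1 w, Finset.sum_const, Finset.card_univ,
    Finset.card_univ, smul_eq_mul] at h2
  have h3 : (Fintype.card (V N2) : ℝ) = (N2 : ℝ) ^ 2 := TM.H764.card_V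
  have h4 : (Fintype.card (V N) : ℝ) = (N : ℝ) ^ 2 := TM.H764.card_V
  have h5 : (Fintype.card (V N2) : ℝ) =
      Fintype.card (V N) * ((univ.filter fun y : V N2 => prj h y = z).card : ℝ) := by
    exact_mod_cast h2
  rw [h3, h4] at h5
  rw [div_pow, h5]
  field_simp

/-- pointwise decay gives the moment over the fibres -/
lemma fib_of_pt (h : N ∣ N2) {S : Matrix (V N2) (V N2) ℝ} {κ s : ℝ}
    (hpt : ∀ y, S 0 y ≤ s * Real.exp (-(κ * sn y))) (z : V N) :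
    ∑ y ∈ univ.filter (fun y : V N2 => prj h y = z), S 0 y * Real.exp (κ * sn y) ≤
      ((N2 : ℝ) / N) ^ 2 * s := by
  rw [← card_fib h z, ← nsmul_eq_mul]
  refine Finset.sum_le_card_nsmul _ _ _ fun y _ => ?_
  refine (mul_le_mul_of_nonneg_right (hpt y) (Real.exp_pos _).le).trans (le_of_eq ?_)
  rw [mul_assoc, ← Real.exp_add]
  simp

section nrp

variable {A : Matrix (V N) (V N) ℝ} {A2 A3 : Matrix (V N2) (V N2) ℝ} {ν c κ C1 β σ s : ℝ}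
  {h : N ∣ N2}

/-- the large torus -/
lemma Nrp.big {h' : N2 ∣ N2} (hN : Nrp h A A3 ν c κ C1 σ s) (hN2 : Nrs h' A2 A3 ν c κ C1 σ) :
    Nrp h' A2 A3 ν c κ C1 σ s := by
  refine ⟨hN2, fun z => ?_⟩
  refine le_trans ?_ (hN.fib (prj h z))
  refine Finset.sum_le_sum_of_subset_of_nonneg ?_ fun y _ _ =>
    mul_nonneg (hN.toNrs.two.h02 _ _) (Real.exp_pos _).le
  intro y hy
  rw [Finset.mem_filter] at hy ⊢
  refine ⟨mem_univ _, ?_⟩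
  rw [prj_self] at hy
  rw [hy.2]

end nrp

/-! ### the torus model of scalar mass `t` -/

section inst

variable {b t c κ C1 σ s η bb : ℝ} {D m : ℕ} {R δ d : ℝ}

/-- **WL, doubling**, site level: the laws of the two core windows on the tori `N ∣ N2` -/
theorem cmp_tor_pt {A3 : Matrix (V N2) (V N2) ℝ} {h : N ∣ N2} {h' : N2 ∣ N2} (hb : 0 < b)
    (ht : 0 < t) (hN : Nrp h (Anm N b t) A3 t c κ C1 σ s)
    (hN2 : Nrs h' (Anm N2 b t) A3 t c κ C1 σ)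
    {Bd : Set (V N → ℝ)} (hBd : MeasurableSet Bd) {Bd' : Set (V N2 → ℝ)}
    (hBd' : MeasurableSet Bd') (hη0 : 0 ≤ η)
    (hη : ∀ F, F ∉ Bd → Wt (wT b N) (t • (1 : Matrix (V N) (V N) ℝ)) t 0 F ≤ 1 + η)
    (hbd : (nuM (wT b N) (t • (1 : Matrix (V N) (V N) ℝ)) 0).real Bd ≤ bb)
    (hη' : ∀ F, F ∉ Bd' → Wt (wT b N2) (t • (1 : Matrix (V N2) (V N2) ℝ)) t 0 F ≤ 1 + η)
    (hbd' : (nuM (wT b N2) (t • (1 : Matrix (V N2) (V N2) ℝ)) 0).real Bd' ≤ bb)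
    (hηb : η + bb ≤ 1 / 8) (hDN : 4 * D < N) (hm : 1 ≤ m)
    {p q : V N} {p2 q2 : V N2} (hR : 2 * (D : ℝ) < R) (hpq : R ≤ sn (q - p))
    (hpq2 : R ≤ sn (q2 - p2)) (hδ : 0 < δ) (hδ4 : δ ≤ 1 / 4)
    (hδ2 : t * (2 * (2 * (D : ℝ) + 1) ^ 2) *
      (3 * (eP t c κ C1 σ s 0 N m (2 * D) + eP t c κ C1 σ s 0 N2 m (2 * D)) +
        2 * xP t c κ C1 σ s 0 m D R) ≤ δ)
    (hd : 0 ≤ d) (hd8 : d ≤ 1 / 8) :
    Cmp (nuM (wT b N) (t • (1 : Matrix (V N) (V N) ℝ)) 0)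
      (nuM (wT b N2) (t • (1 : Matrix (V N2) (V N2) ℝ)) 0) (wd D p q) (wd D p2 q2)
      (4 * (η + bb) + 2 * d) (4 * bb + 2 * (2 * (1 + d) ^ (-(1 / (4 * δ))))) := by
  have hA := hN.dom
  have hA' := hN2.dom
  have hσ := hN.toNrs.sts.nonneg
  have hs := hN.s0
  have hB := hN.big hN2
  rw [← An_tor b hb.le ht] at hA hA'
  refine cmp_two (H963.gw_wT hb.le) (bw_wT hb) (mf_scalar ht) (H963.gw_wT hb.le) (bw_wT hb)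
    (mf_scalar ht) hA hA' hBd hBd' hη0 hη hbd hη' hbd' hηb hDN (K := cov 0 (Anm N b t))
    (K2 := cov 0 (Anm N2 b t)) ?_ ?_
    (add_nonneg (eP_nonneg (c := c) (κ := κ) (C1 := C1) ht le_rfl hσ hs N m (2 * D))
      (eP_nonneg (c := c) (κ := κ) (C1 := C1) ht le_rfl hσ hs N2 m (2 * D)))
    (xP_nonneg (c := c) (κ := κ) (C1 := C1) ht le_rfl hσ hs m D R) ?_ hR hpq
    hpq2 ?_ ?_ hδ hδ4 hδ2 hd hd8
  · rw [An_tor b hb.le ht]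
    exact cv_cov 0 _
  · rw [An_tor b hb.le ht]
    exact cv_cov 0 _
  · intro ζ h3 h4
    exact hN.ent2 hB le_rfl hm (cv_cov 0 _) (cv_cov 0 _) (by omega) h3 h4
  · intro x a b hx ha hb
    exact hN.cross le_rfl hm (cv_cov 0 _) hR hx ha hb
  · intro x a b hx ha hb
    exact hB.cross le_rfl hm (cv_cov 0 _) hR hx ha hb

/-- **WL, move**, site level: one torus, two pairs of positions -/
theorem cmp_move_pt {A3 : Matrix (V N) (V N) ℝ} {h : N ∣ N} (hb : 0 < b) (ht : 0 < t)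
    (hN : Nrp h (Anm N b t) A3 t c κ C1 σ s)
    {Bd : Set (V N → ℝ)} (hBd : MeasurableSet Bd) (hη0 : 0 ≤ η)
    (hη : ∀ F, F ∉ Bd → Wt (wT b N) (t • (1 : Matrix (V N) (V N) ℝ)) t 0 F ≤ 1 + η)
    (hbd : (nuM (wT b N) (t • (1 : Matrix (V N) (V N) ℝ)) 0).real Bd ≤ bb)
    (hηb : η + bb ≤ 1 / 8) (hDN : 4 * D < N) (hm : 1 ≤ m)
    {p q p2 q2 : V N} (hR : 2 * (D : ℝ) < R) (hpq : R ≤ sn (q - p))
    (hpq2 : R ≤ sn (q2 - p2)) (hδ : 0 < δ) (hδ4 : δ ≤ 1 / 4)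
    (hδ2 : t * (2 * (2 * (D : ℝ) + 1) ^ 2) * (2 * xP t c κ C1 σ s 0 m D R) ≤ δ)
    (hd : 0 ≤ d) (hd8 : d ≤ 1 / 8) :
    Cmp (nuM (wT b N) (t • (1 : Matrix (V N) (V N) ℝ)) 0)
      (nuM (wT b N) (t • (1 : Matrix (V N) (V N) ℝ)) 0) (wd D p q) (wd D p2 q2)
      (4 * (η + bb) + 2 * d) (4 * bb + 2 * (2 * (1 + d) ^ (-(1 / (4 * δ))))) := by
  have hA := hN.dom
  have hσ := hN.toNrs.sts.nonneg
  have hs := hN.s0
  rw [← An_tor b hb.le ht] at hA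
  refine cmp_two (H963.gw_wT hb.le) (bw_wT hb) (mf_scalar ht) (H963.gw_wT hb.le) (bw_wT hb)
    (mf_scalar ht) hA hA hBd hBd hη0 hη hbd hη hbd hηb hDN (K := cov 0 (Anm N b t))
    (K2 := cov 0 (Anm N b t)) ?_ ?_ le_rfl
    (xP_nonneg (c := c) (κ := κ) (C1 := C1) ht le_rfl hσ hs m D R) ?_ hR hpq
    hpq2 ?_ ?_ hδ hδ4 ?_ hd hd8
  · rw [An_tor b hb.le ht]
    exact cv_cov 0 _
  · rw [An_tor b hb.le ht]
    exact cv_cov 0 _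
  · intro ζ _ _
    rw [sub_self, abs_zero]
  · intro x a b hx ha hb
    exact hN.cross le_rfl hm (cv_cov 0 _) hR hx ha hb
  · intro x a b hx ha hb
    exact hN.cross le_rfl hm (cv_cov 0 _) hR hx ha hb
  · rw [mul_zero, zero_add]
    exact hδ2

end inst

/-! ### numbers -/

section num

variable {ξ c κ₀ C1 K ρ L ε δ : ℝ} {D m N : ℕ} {R : ℝ}

/-- the exponentially small number of `T = 2m+1` steps at distance `ρ` correlation lengths -/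
def eL (κ₀ C1 ρ L : ℝ) (m : ℕ) : ℝ :=
  4 * Real.exp C1 * ((2 * m + 1 : ℕ) * L * Real.exp (-(κ₀ * ρ / (4 * √((2 * m + 1 : ℕ) : ℝ)))))

lemma eL_nonneg (hL : 0 ≤ L) : 0 ≤ eL κ₀ C1 ρ L m := by unfold eL; positivity

/-- window area in units of the mass -/
lemma area_le (hξ : 1 ≤ ξ) (hK : 1 ≤ K) (hD : (D : ℝ) ≤ K * ξ) :
    (ξ ^ 2)⁻¹ * (2 * (2 * (D : ℝ) + 1) ^ 2) ≤ 18 * K ^ 2 := by
  have h1 : 2 * (D : ℝ) + 1 ≤ 3 * (K * ξ) := by nlinarith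
  have h2 : (2 * (D : ℝ) + 1) ^ 2 ≤ (3 * (K * ξ)) ^ 2 :=
    pow_le_pow_left₀ (by positivity) h1 2
  rw [inv_mul_le_iff₀ (by positivity)]
  calc 2 * (2 * (D : ℝ) + 1) ^ 2 ≤ 2 * (3 * (K * ξ)) ^ 2 := by linarith
    _ = ξ ^ 2 * (18 * K ^ 2) := by ring

lemma smooth_num (hξ : 1 ≤ ξ) (hc : 0 < c) (hm : 1 ≤ m) (hD : (D : ℝ) ≤ K * ξ) (a : ℝ)
    (ha : 0 ≤ a) : a * (ξ ^ 2)⁻¹ * (D : ℝ) ^ 2 / (m * c ^ 2) ≤ a * K ^ 2 / (m * c ^ 2) := by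
  have hm' : (0 : ℝ) < m := by exact_mod_cast hm
  refine div_le_div_of_nonneg_right ?_ (by positivity)
  have h1 : (D : ℝ) ^ 2 ≤ (K * ξ) ^ 2 := pow_le_pow_left₀ (Nat.cast_nonneg _) hD 2
  have h2 : (ξ ^ 2)⁻¹ * (D : ℝ) ^ 2 ≤ K ^ 2 := by
    rw [inv_mul_le_iff₀ (by positivity)]
    calc (D : ℝ) ^ 2 ≤ (K * ξ) ^ 2 := h1
      _ = ξ ^ 2 * K ^ 2 := by ring
  calc a * (ξ ^ 2)⁻¹ * (D : ℝ) ^ 2 = a * ((ξ ^ 2)⁻¹ * (D : ℝ) ^ 2) := by ring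
    _ ≤ a * K ^ 2 := mul_le_mul_of_nonneg_left h2 ha

lemma ft_num (hξ : 1 ≤ ξ) (hκ : 0 ≤ κ₀) {r : ℝ} (hr : ρ * ξ / 2 ≤ r) {T : ℕ} (hT : 1 ≤ T) :
    ft (κ₀ / ξ) C1 T r ≤ 4 * Real.exp C1 * Real.exp (-(κ₀ * ρ / (4 * √(T : ℝ)))) := by
  have hT' : (0 : ℝ) < √(T : ℝ) := Real.sqrt_pos.2 (by exact_mod_cast hT)
  unfold ft
  refine mul_le_mul_of_nonneg_left (Real.exp_le_exp.2 (neg_le_neg ?_)) (by positivity)
  rw [div_le_div_iff₀ (by positivity) (by positivity)]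
  have h1 : κ₀ * (ρ / 2) ≤ κ₀ / ξ * r := by
    have : ρ / 2 ≤ r / ξ := by
      rw [le_div_iff₀ (by linarith)]
      linarith
    calc κ₀ * (ρ / 2) ≤ κ₀ * (r / ξ) := mul_le_mul_of_nonneg_left this hκ
      _ = κ₀ / ξ * r := by ring
  nlinarith

theorem eP_num (hξ : 1 ≤ ξ) (hc : 0 < c) (hκ : 0 ≤ κ₀) (hL : 0 ≤ L) (hε : 0 ≤ ε) (hm : 1 ≤ m)
    (hD : (D : ℝ) ≤ K * ξ) (hN : ρ * ξ ≤ N) :
    eP (ξ ^ 2)⁻¹ c (κ₀ / ξ) C1 ((ξ ^ 2)⁻¹ * ε) ((ξ ^ 2)⁻¹ * L) 0 N m (2 * D) ≤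
      20 * K ^ 2 / (m * c ^ 2) + eL κ₀ C1 ρ L m + 2 * ((2 * m + 1 : ℕ) ^ 2 * ε) := by
  have hξ0 : 0 < (ξ ^ 2)⁻¹ := by positivity
  have h1 := smooth_num (K := K) hξ hc hm hD 20 (by norm_num)
  have h2 := ft_num (C1 := C1) hξ hκ (show ρ * ξ / 2 ≤ (N : ℝ) / 2 by linarith)
    (show 1 ≤ 2 * m + 1 by omega)
  have e : eP (ξ ^ 2)⁻¹ c (κ₀ / ξ) C1 ((ξ ^ 2)⁻¹ * ε) ((ξ ^ 2)⁻¹ * L) 0 N m (2 * D) =
      20 * (ξ ^ 2)⁻¹ * (D : ℝ) ^ 2 / (m * c ^ 2) +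
        (2 * m + 1 : ℕ) * L * ft (κ₀ / ξ) C1 (2 * m + 1) (N / 2) +
        2 * ((2 * m + 1 : ℕ) ^ 2 * ε) := by
    unfold eP
    rw [add_zero]
    field_simp
    push_cast
    ring
  rw [e]
  have h3 : (2 * m + 1 : ℕ) * L * ft (κ₀ / ξ) C1 (2 * m + 1) (N / 2) ≤ eL κ₀ C1 ρ L m := by
    unfold eL
    refine (mul_le_mul_of_nonneg_left h2 (by positivity)).trans (le_of_eq ?_)
    ring
  linarith

theorem xP_num (hξ : 1 ≤ ξ) (hc : 0 < c) (hκ : 0 ≤ κ₀) (hL : 0 ≤ L) (hε : 0 ≤ ε) (hm : 1 ≤ m)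
    (hD : (D : ℝ) ≤ K * ξ) (hR : ρ * ξ ≤ R) (hρ : 4 * K ≤ ρ) :
    xP (ξ ^ 2)⁻¹ c (κ₀ / ξ) C1 ((ξ ^ 2)⁻¹ * ε) ((ξ ^ 2)⁻¹ * L) 0 m D R ≤
      10 * K ^ 2 / (m * c ^ 2) + 2 * eL κ₀ C1 ρ L m + 4 * ((2 * m + 1 : ℕ) ^ 2 * ε) := by
  have hξ0 : 0 < (ξ ^ 2)⁻¹ := by positivity
  have h1 := smooth_num (K := K) hξ hc hm hD 10 (by norm_num)
  have h2 := ft_num (C1 := C1) hξ hκ (show ρ * ξ / 2 ≤ R - 2 * D by nlinarith)
    (show 1 ≤ 2 * m + 1 by omega)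
  have e : xP (ξ ^ 2)⁻¹ c (κ₀ / ξ) C1 ((ξ ^ 2)⁻¹ * ε) ((ξ ^ 2)⁻¹ * L) 0 m D R =
      10 * (ξ ^ 2)⁻¹ * (D : ℝ) ^ 2 / (m * c ^ 2) +
        2 * ((2 * m + 1 : ℕ) * L * ft (κ₀ / ξ) C1 (2 * m + 1) (R - 2 * D)) +
        4 * ((2 * m + 1 : ℕ) ^ 2 * ε) := by
    unfold xP
    rw [add_zero]
    field_simp
    ring
  rw [e]
  have h3 : (2 * m + 1 : ℕ) * L * ft (κ₀ / ξ) C1 (2 * m + 1) (R - 2 * D) ≤ eL κ₀ C1 ρ L m := by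
    unfold eL
    refine (mul_le_mul_of_nonneg_left h2 (by positivity)).trans (le_of_eq ?_)
    ring
  linarith

/-- **the smallness condition of `cmp_tor_pt` and `cmp_move_pt`** -/
theorem wl_num {N2 : ℕ} (hξ : 1 ≤ ξ) (hc : 0 < c) (hκ : 0 ≤ κ₀) (hL : 0 ≤ L) (hε : 0 ≤ ε)
    (hm : 1 ≤ m) (hK : 1 ≤ K) (hD : (D : ℝ) ≤ K * ξ) (hR : ρ * ξ ≤ R) (hρ : 4 * K ≤ ρ)
    (hN : ρ * ξ ≤ N) (hN2 : ρ * ξ ≤ N2)
    (h1 : 7560 * K ^ 4 / c ^ 2 ≤ δ * m) (h2 : 540 * K ^ 2 * eL κ₀ C1 ρ L m ≤ δ)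
    (h3 : 1080 * K ^ 2 * ((2 * m + 1 : ℕ) ^ 2 * ε) ≤ δ) :
    (ξ ^ 2)⁻¹ * (2 * (2 * (D : ℝ) + 1) ^ 2) *
      (3 * (eP (ξ ^ 2)⁻¹ c (κ₀ / ξ) C1 ((ξ ^ 2)⁻¹ * ε) ((ξ ^ 2)⁻¹ * L) 0 N m (2 * D) +
        eP (ξ ^ 2)⁻¹ c (κ₀ / ξ) C1 ((ξ ^ 2)⁻¹ * ε) ((ξ ^ 2)⁻¹ * L) 0 N2 m (2 * D)) +
        2 * xP (ξ ^ 2)⁻¹ c (κ₀ / ξ) C1 ((ξ ^ 2)⁻¹ * ε) ((ξ ^ 2)⁻¹ * L) 0 m D R) ≤ δ := by
  have hξ0 : 0 < (ξ ^ 2)⁻¹ := by positivity
  have hm' : (0 : ℝ) < m := by exact_mod_cast hm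
  have a1 := area_le hξ hK hD
  have a2 := eP_num (C1 := C1) hξ hc hκ hL hε hm hD hN
  have a3 := eP_num (C1 := C1) hξ hc hκ hL hε hm hD hN2
  have a4 := xP_num (C1 := C1) hξ hc hκ hL hε hm hD hR hρ
  have p2 := eP_nonneg (c := c) (κ := κ₀ / ξ) (C1 := C1) hξ0 le_rfl
    (mul_nonneg hξ0.le hε) (mul_nonneg hξ0.le hL) N m (2 * D)
  have p3 := eP_nonneg (c := c) (κ := κ₀ / ξ) (C1 := C1) hξ0 le_rfl
    (mul_nonneg hξ0.le hε) (mul_nonneg hξ0.le hL) N2 m (2 * D)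
  have p4 := xP_nonneg (c := c) (κ := κ₀ / ξ) (C1 := C1) hξ0 le_rfl
    (mul_nonneg hξ0.le hε) (mul_nonneg hξ0.le hL) m D R
  set E := eL κ₀ C1 ρ L m with hE
  have hE0 : 0 ≤ E := eL_nonneg hL
  have hq : 18 * K ^ 2 * (140 * K ^ 2 / (m * c ^ 2)) ≤ δ / 3 := by
    have e : 18 * K ^ 2 * (140 * K ^ 2 / (m * c ^ 2)) = 7560 * K ^ 4 / c ^ 2 / m / 3 := by
      field_simp
      norm_num
    rw [e]
    refine div_le_div_of_nonneg_right ?_ (by norm_num)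
    rw [div_le_iff₀ hm']
    exact h1
  set X := 3 * (eP (ξ ^ 2)⁻¹ c (κ₀ / ξ) C1 ((ξ ^ 2)⁻¹ * ε) ((ξ ^ 2)⁻¹ * L) 0 N m (2 * D) +
        eP (ξ ^ 2)⁻¹ c (κ₀ / ξ) C1 ((ξ ^ 2)⁻¹ * ε) ((ξ ^ 2)⁻¹ * L) 0 N2 m (2 * D)) +
        2 * xP (ξ ^ 2)⁻¹ c (κ₀ / ξ) C1 ((ξ ^ 2)⁻¹ * ε) ((ξ ^ 2)⁻¹ * L) 0 m D R with hX
  have hX0 : 0 ≤ X := by positivity
  have hX1 : X ≤ 140 * K ^ 2 / (m * c ^ 2) + 10 * E + 20 * ((2 * m + 1 : ℕ) ^ 2 * ε) := by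
    have e : 140 * K ^ 2 / (m * c ^ 2) = 6 * (20 * K ^ 2 / (m * c ^ 2)) +
        2 * (10 * K ^ 2 / (m * c ^ 2)) := by ring
    rw [hX, e]
    linarith
  calc (ξ ^ 2)⁻¹ * (2 * (2 * (D : ℝ) + 1) ^ 2) * X ≤ 18 * K ^ 2 * X :=
        mul_le_mul_of_nonneg_right a1 hX0
    _ ≤ 18 * K ^ 2 * (140 * K ^ 2 / (m * c ^ 2) + 10 * E + 20 * ((2 * m + 1 : ℕ) ^ 2 * ε)) :=
        mul_le_mul_of_nonneg_left hX1 (by positivity)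
    _ = 18 * K ^ 2 * (140 * K ^ 2 / (m * c ^ 2)) + 540 * K ^ 2 * E / 3 +
          1080 * K ^ 2 * ((2 * m + 1 : ℕ) ^ 2 * ε) / 3 := by ring
    _ ≤ δ := by linarith

end num

end

end Vale.Agent.P159.H708
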