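import Vale.Agent.P159.H708.Wl8

/-!
P159 / H708 (module WL), part 9: the site level version with sub-probability kernels. `U` has the
symbol of the step kernel `1 - A/ν` off the constant mode (e.g. `U = t GA`, the averaged kernel
without its constant part); two tori are compared directly (no normalisation of `U`).
-/

set_option linter.unusedSectionVars false

namespace Vale.Agent.P159.H708

open Finset Matrix MeasureTheory
open Vale.Agent.P159.TM.H764 (cN sN dt EE)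
open Vale.Agent.P159.TM.Spec (V)
open Vale.Agent.P159.TM.SpecC (wT)
open Vale.Agent.P159.H864 (TI sym mlt fc hsq)
open Vale.Agent.P159.H462 (Dom)
open Vale.Agent.P159.TM.H459 (sn)
open Vale.Agent.P159.H37 (gau qf wM)
open Vale.Agent.P159.H686 (Cmp fl)
open Vale.Agent.P159.H963 (MF GW nM An ntr Anm)
open Vale.Agent.P159.H733.Torg
open Vale.Agent.P159.H883

noncomputable section

variable {N N2 : ℕ} [NeZero N] [NeZero N2]

/-! ### sub-probability kernels -/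

/-- `U` has the symbol of the step kernel `1 - A/ν` off the constant mode -/
structure Uk (A U : Matrix (V N) (V N) ℝ) (ν : ℝ) : Prop where
  ti : TI U
  nn : ∀ x y, 0 ≤ U x y
  row : ∀ x, ∑ y, U x y ≤ 1
  sy : ∀ k, k ≠ 0 → sym U k = 1 - sym A k / ν

/-- the part `n < T` of the series -/
def smU (β ν : ℝ) (U : Matrix (V N) (V N) ℝ) (T : ℕ) : Matrix (V N) (V N) ℝ :=
  (ν + β)⁻¹ • ∑ m ∈ range T, (ν / (ν + β)) ^ m • U ^ m

section basics

variable {A U P : Matrix (V N) (V N) ℝ} {ν c κ C1 β σ s : ℝ}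

lemma ti_smU (hU : TI U) (β ν : ℝ) (T : ℕ) : TI (smU β ν U T) :=
  TI.smul _ (TI.sum _ fun m _ => TI.smul _ (hU.pow m))

lemma smU_apply (β ν : ℝ) (U : Matrix (V N) (V N) ℝ) (T : ℕ) (x y : V N) :
    smU β ν U T x y = (ν + β)⁻¹ * ∑ m ∈ range T, (ν / (ν + β)) ^ m * (U ^ m) x y := by
  unfold smU
  rw [Matrix.smul_apply, Matrix.sum_apply, smul_eq_mul]
  congr 1

lemma sym_smU (hU : TI U) (β ν : ℝ) (T : ℕ) (k : V N) :
    sym (smU β ν U T) k = (ν + β)⁻¹ * ∑ m ∈ range T, (ν / (ν + β)) ^ m * (sym U k) ^ m := by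
  unfold smU
  rw [H864.sym_smul, H864.sym_sum]
  congr 1
  refine Finset.sum_congr rfl fun m _ => ?_
  rw [H864.sym_smul, H864.sym_pow hU]

/-- the differences do not see the constant mode -/
lemma smU_diff (hA : TI A) (hU : Uk A U ν) (β : ℝ) (T : ℕ) (a : V N) :
    sm β ν A T 0 a - sm β ν A T 0 0 = smU β ν U T 0 a - smU β ν U T 0 0 := by
  rw [ker_sym (ti_sm hA β ν T), ker_sym (ti_smU hU.ti β ν T)]
  congr 1
  refine Finset.sum_congr rfl fun k _ => ?_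
  by_cases hk : k = 0
  · rw [hk, H864.dt_zero_left, TM.H764.cN_zero]
    ring
  · rw [sym_sm hA, sym_smU hU.ti, hU.sy k hk]
    congr 2
    refine Finset.sum_congr rfl fun m _ => ?_
    rw [mul_pow]

lemma smU_ck (hA : TI A) (hU : Uk A U ν) (β : ℝ) (T : ℕ) (w a b : V N) :
    ck (sm β ν A T) w a b = ck (smU β ν U T) w a b := by
  have h1 := smU_diff hA hU β T (w + b - a)
  have h2 := smU_diff hA hU β T (w + b)
  have h3 := smU_diff hA hU β T (w - a)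
  have h4 := smU_diff hA hU β T w
  unfold ck
  linarith

lemma row_eq (hU : TI U) (x : V N) : ∑ y, U x y = ∑ z, U 0 z := by
  rw [← Equiv.sum_comp (Equiv.subRight x) fun z => U 0 z]
  exact Finset.sum_congr rfl fun y _ => hU.eq x y

lemma pow_mono_mat {S : Matrix (V N) (V N) ℝ} (h0 : ∀ x y, 0 ≤ U x y)
    (h : ∀ x y, U x y ≤ S x y) (m : ℕ) (x y : V N) : (U ^ m) x y ≤ (S ^ m) x y := by
  induction m generalizing x y with
  | zero => simp
  | succ m ih =>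
    rw [pow_succ, pow_succ, Matrix.mul_apply, Matrix.mul_apply]
    refine Finset.sum_le_sum fun w _ => ?_
    exact mul_le_mul (ih x w) (h w y) (h0 w y)
      (le_trans (pow_nonneg' h0 m x w) (ih x w))

theorem mgf_sub (hU : TI U) (h0 : ∀ x y, 0 ≤ U x y) (h1 : ∀ x, ∑ y, U x y ≤ 1) (hκ : 0 < κ)
    (hm : ∑ z, U 0 z * Real.exp (κ * sn z) ≤ C1) {T m : ℕ} (hT : 1 ≤ T) (hmT : m ≤ T) :
    ∑ z, (U ^ m) 0 z * Real.exp (κ / (2 * √T) * sn z) ≤ 4 * Real.exp (C1 + 1) := by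
  set r : ℝ := ∑ z, U 0 z with hr
  have hr0 : 0 ≤ r := Finset.sum_nonneg fun z _ => h0 0 z
  have hr1 : r ≤ 1 := h1 0
  set S : Matrix (V N) (V N) ℝ := U + (1 - r) • 1 with hS
  have e : ∀ x y, S x y = U x y + (1 - r) * (1 : Matrix (V N) (V N) ℝ) x y := fun x y => by
    rw [hS, Matrix.add_apply, Matrix.smul_apply, smul_eq_mul]
  have o0 : ∀ x y, 0 ≤ (1 : Matrix (V N) (V N) ℝ) x y := fun x y => by
    rw [Matrix.one_apply]
    split_ifs <;> norm_num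
  have hle : ∀ x y, U x y ≤ S x y := fun x y => by
    rw [e]
    have := mul_nonneg (by linarith : (0 : ℝ) ≤ 1 - r) (o0 x y)
    linarith
  have hS0 : ∀ x y, 0 ≤ S x y := fun x y => (h0 x y).trans (hle x y)
  have hS1 : ∀ x, ∑ y, S x y = 1 := by
    intro x
    simp only [e]
    rw [Finset.sum_add_distrib, row_eq hU, ← Finset.mul_sum]
    have : ∑ y, (1 : Matrix (V N) (V N) ℝ) x y = 1 := by
      simp [Matrix.one_apply]
    rw [this]
    ring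
  have hSm : ∑ z, S 0 z * Real.exp (κ * sn z) ≤ C1 + 1 := by
    simp only [e, add_mul]
    rw [Finset.sum_add_distrib]
    have h2 : ∑ z, (1 - r) * (1 : Matrix (V N) (V N) ℝ) 0 z * Real.exp (κ * sn z) ≤ 1 := by
      rw [Finset.sum_eq_single (0 : V N)]
      · have h4 : sn (0 : V N) = 0 := by simp [TM.H459.sn]
        rw [h4, Matrix.one_apply_eq]
        simp
        exact hr0
      · intro z _ hz
        rw [Matrix.one_apply_ne (Ne.symm hz)]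
        ring
      · intro h
        exact absurd (mem_univ _) h
    linarith
  have hST : TI S := hU.add (TI.smul _ TI.one)
  refine le_trans (Finset.sum_le_sum fun z _ => ?_) (mgf_pow hST hS0 hS1 hκ hSm hT hmT)
  exact mul_le_mul_of_nonneg_right (pow_mono_mat h0 hle m 0 z) (Real.exp_pos _).le

/-- exponential moment of a power over a fibre, sub-probability kernels -/
theorem fib_sub {h : N ∣ N2} {S : Matrix (V N2) (V N2) ℝ} (hS : TI S) (h0 : ∀ x y, 0 ≤ S x y)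
    (h1 : ∀ x, ∑ y, S x y ≤ 1) (hκ : 0 < κ)
    (hm : ∑ z, S 0 z * Real.exp (κ * sn z) ≤ C1)
    (hf : ∀ z : V N, ∑ y ∈ univ.filter (fun y : V N2 => prj h y = z),
      S 0 y * Real.exp (κ * sn y) ≤ s) {T m : ℕ} (hT : 1 ≤ T) (hmT : m ≤ T) (z : V N) :
    ∑ y ∈ univ.filter (fun y : V N2 => prj h y = z),
      (S ^ (m + 1)) 0 y * Real.exp (κ / (2 * √T) * sn y) ≤ 4 * Real.exp (C1 + 1) * s := by
  have hT' : (1 : ℝ) ≤ T := by exact_mod_cast hT
  have hsT : 1 ≤ √(T : ℝ) := Real.one_le_sqrt.2 hT'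
  set θ : ℝ := κ / (2 * √T) with hθ
  have hθ0 : 0 < θ := by positivity
  have hθκ : θ ≤ κ := by
    rw [hθ]
    exact div_le_self hκ.le (by linarith)
  have hs : 0 ≤ s := le_trans (Finset.sum_nonneg fun y _ =>
    mul_nonneg (h0 _ y) (Real.exp_pos _).le) (hf 0)
  have e1 : ∀ y, (S ^ (m + 1)) 0 y * Real.exp (θ * sn y) ≤
      ∑ w, (S ^ m) 0 w * Real.exp (θ * sn w) * (S 0 (y - w) * Real.exp (κ * sn (y - w))) := by
    intro y
    rw [pow_succ, Matrix.mul_apply, Finset.sum_mul]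
    refine Finset.sum_le_sum fun w _ => ?_
    rw [hS.eq w y]
    have k1 : Real.exp (θ * sn y) ≤ Real.exp (θ * sn w) * Real.exp (κ * sn (y - w)) := by
      rw [← Real.exp_add]
      refine Real.exp_le_exp.2 ?_
      have k2 := TM.H459.sn_add_le w (y - w)
      have k3 : w + (y - w) = y := by abel
      rw [k3] at k2
      have k4 : (sn y : ℝ) ≤ sn w + sn (y - w) := by exact_mod_cast k2
      have k5 : θ * sn y ≤ θ * (sn w + sn (y - w)) := mul_le_mul_of_nonneg_left k4 hθ0.le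
      have k6 : θ * (sn (y - w) : ℝ) ≤ κ * sn (y - w) :=
        mul_le_mul_of_nonneg_right hθκ (Nat.cast_nonneg _)
      linarith
    have k7 : 0 ≤ (S ^ m) 0 w * S 0 (y - w) := mul_nonneg (pow_nonneg' h0 m _ _) (h0 _ _)
    refine (mul_le_mul_of_nonneg_left k1 k7).trans (le_of_eq ?_)
    ring
  refine (Finset.sum_le_sum fun y _ => e1 y).trans ?_
  rw [Finset.sum_comm]
  have e2 : ∀ w, ∑ y ∈ univ.filter (fun y : V N2 => prj h y = z),
      (S ^ m) 0 w * Real.exp (θ * sn w) * (S 0 (y - w) * Real.exp (κ * sn (y - w))) ≤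
      (S ^ m) 0 w * Real.exp (θ * sn w) * s := by
    intro w
    rw [← Finset.mul_sum]
    refine mul_le_mul_of_nonneg_left ?_ (mul_nonneg (pow_nonneg' h0 m _ _) (Real.exp_pos _).le)
    refine le_trans (le_of_eq ?_) (hf (z - prj h w))
    refine Finset.sum_bij' (fun y _ => y - w) (fun y _ => y + w) ?_ ?_ ?_ ?_ ?_
    · intro y hy
      rw [Finset.mem_filter] at hy ⊢
      exact ⟨mem_univ _, by rw [map_sub, hy.2]⟩
    · intro y hy
      rw [Finset.mem_filter] at hy ⊢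
      exact ⟨mem_univ _, by rw [map_add, hy.2]; abel⟩
    · intro y _
      simp
    · intro y _
      simp
    · intro y _
      rfl
  refine (Finset.sum_le_sum fun w _ => e2 w).trans ?_
  rw [← Finset.sum_mul]
  exact mul_le_mul_of_nonneg_right (mgf_sub hS h0 h1 hκ hm hT hmT) hs

lemma pow_row_sub (h0 : ∀ x y, 0 ≤ U x y) (h1 : ∀ x, ∑ y, U x y ≤ 1) (m : ℕ) (x : V N) :
    ∑ y, (U ^ m) x y ≤ 1 := by
  induction m with
  | zero => simp [Matrix.one_apply]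
  | succ m ih =>
    rw [pow_succ]
    simp_rw [Matrix.mul_apply]
    rw [Finset.sum_comm]
    simp_rw [← Finset.mul_sum]
    refine (Finset.sum_le_sum fun w _ =>
      mul_le_mul_of_nonneg_left (h1 w) (pow_nonneg' h0 m x w)).trans ?_
    simpa using ih

/-- powers of two sub-probability kernels in sup norm -/
lemma pow_sup (tU : TI U) (tP : TI P) (hU : ∀ x y, 0 ≤ U x y) (hP : ∀ x y, 0 ≤ P x y)
    (rU : ∀ x, ∑ y, U x y ≤ 1) (rP : ∀ x, ∑ y, P x y ≤ 1) (hσ : ∀ z, |U 0 z - P 0 z| ≤ σ)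
    (n : ℕ) (x y : V N) : |(U ^ n) x y - (P ^ n) x y| ≤ n * σ := by
  have hσ0 : 0 ≤ σ := (abs_nonneg _).trans (hσ 0)
  induction n generalizing x y with
  | zero => simp
  | succ n ih =>
    have e1 : (U ^ (n + 1)) x y - (P ^ (n + 1)) x y =
        ∑ w, ((U ^ n) x w - (P ^ n) x w) * P w y + ∑ w, (U ^ n) x w * (U w y - P w y) := by
      rw [pow_succ, pow_succ, Matrix.mul_apply, Matrix.mul_apply, ← Finset.sum_sub_distrib,
        ← Finset.sum_add_distrib]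
      exact Finset.sum_congr rfl fun w _ => by ring
    have col' : ∑ w, P w y ≤ 1 := by
      refine le_trans (le_of_eq ?_) (rP y)
      exact Finset.sum_congr rfl fun w _ => tP.sy _ _
    have e2 : |∑ w, ((U ^ n) x w - (P ^ n) x w) * P w y| ≤ n * σ := by
      refine (Finset.abs_sum_le_sum_abs _ _).trans ?_
      have : ∀ w, |((U ^ n) x w - (P ^ n) x w) * P w y| ≤ n * σ * P w y := fun w => by
        rw [abs_mul, abs_of_nonneg (hP w y)]
        exact mul_le_mul_of_nonneg_right (ih x w) (hP w y)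
      refine (Finset.sum_le_sum fun w _ => this w).trans ?_
      rw [← Finset.mul_sum]
      exact mul_le_of_le_one_right (by positivity) col'
    have e3 : |∑ w, (U ^ n) x w * (U w y - P w y)| ≤ σ := by
      refine (Finset.abs_sum_le_sum_abs _ _).trans ?_
      have : ∀ w, |(U ^ n) x w * (U w y - P w y)| ≤ (U ^ n) x w * σ := fun w => by
        rw [abs_mul, abs_of_nonneg (pow_nonneg' hU n x w)]
        refine mul_le_mul_of_nonneg_left ?_ (pow_nonneg' hU n x w)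
        rw [tU.eq w y, tP.eq w y]
        exact hσ _
      refine (Finset.sum_le_sum fun w _ => this w).trans ?_
      rw [← Finset.sum_mul]
      exact mul_le_of_le_one_left hσ0 (pow_row_sub hU rU n x)
    rw [e1]
    refine (abs_add_le _ _).trans ?_
    push_cast
    linarith

/-- series with coefficients in `[0, 1]` -/
lemma ser_bd {β ν : ℝ} (hν : 0 < ν) (hβ : 0 ≤ β) {T : ℕ} {f : ℕ → ℝ} {B : ℝ} (_hB : 0 ≤ B)
    (hf : ∀ m < T, |f m| ≤ B) :
    |(ν + β)⁻¹ * ∑ m ∈ range T, (ν / (ν + β)) ^ m * f m| ≤ T * B / (ν + β) := by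
  have hl0 : 0 ≤ ν / (ν + β) := by positivity
  have hl1 : ν / (ν + β) ≤ 1 := by
    rw [div_le_one (by positivity)]
    linarith
  rw [abs_mul, abs_of_pos (show 0 < (ν + β)⁻¹ by positivity)]
  have e2 : |∑ m ∈ range T, (ν / (ν + β)) ^ m * f m| ≤ ∑ _m ∈ range T, B := by
    refine (Finset.abs_sum_le_sum_abs _ _).trans (Finset.sum_le_sum fun m hm => ?_)
    rw [abs_mul, abs_of_nonneg (pow_nonneg hl0 m)]
    calc (ν / (ν + β)) ^ m * |f m| ≤ 1 * B :=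
          mul_le_mul (pow_le_one₀ hl0 hl1) (hf m (Finset.mem_range.1 hm)) (abs_nonneg _)
            zero_le_one
      _ = B := one_mul B
  rw [Finset.sum_const, Finset.card_range, nsmul_eq_mul] at e2
  refine (mul_le_mul_of_nonneg_left e2 (show 0 ≤ (ν + β)⁻¹ by positivity)).trans (le_of_eq ?_)
  ring

end basics

/-! ### two tori -/

/-- the data of two tori: sub-probability kernels `U`, `U2` of `A`, `A2`, moments of `U2`, `U`
close in sup norm to the periodization of `U2` -/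
structure Nru (h : N ∣ N2) (A U : Matrix (V N) (V N) ℝ) (A2 U2 : Matrix (V N2) (V N2) ℝ)
    (ν c κ C1 σ s : ℝ) : Prop where
  dom : Dom A ν c
  dom2 : Dom A2 ν c
  uk : Uk A U ν
  uk2 : Uk A2 U2 ν
  kp : 0 < κ
  mom : ∑ z, U2 0 z * Real.exp (κ * sn z) ≤ C1
  fib : ∀ z : V N, ∑ y ∈ univ.filter (fun y : V N2 => prj h y = z),
    U2 0 y * Real.exp (κ * sn y) ≤ s
  sup : ∀ z : V N, |U 0 z - ∑ y ∈ univ.filter (fun y : V N2 => prj h y = z), U2 0 y| ≤ σ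

section nru

variable {A U : Matrix (V N) (V N) ℝ} {A2 U2 : Matrix (V N2) (V N2) ℝ} {ν c κ C1 β σ s : ℝ}
  {h : N ∣ N2}

lemma Nru.s0 (hN : Nru h A U A2 U2 ν c κ C1 σ s) : 0 ≤ s :=
  le_trans (Finset.sum_nonneg fun _ _ =>
    mul_nonneg (hN.uk2.nn _ _) (Real.exp_pos _).le) (hN.fib 0)

lemma Nru.σ0 (hN : Nru h A U A2 U2 ν c κ C1 σ s) : 0 ≤ σ := (abs_nonneg _).trans (hN.sup 0)

lemma Nru.pz_apply (hN : Nru h A U A2 U2 ν c κ C1 σ s) (m : ℕ) (z : V N) :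
    (pz h U2 ^ m) 0 z = ∑ y ∈ univ.filter (fun y : V N2 => prj h y = z), (U2 ^ m) 0 y :=
  ((per_pz h hN.uk2.ti).pow m).ker z

lemma Nru.pz_nn (hN : Nru h A U A2 U2 ν c κ C1 σ s) (x y : V N) : 0 ≤ pz h U2 x y := by
  unfold pz
  exact Finset.sum_nonneg fun z _ => hN.uk2.nn _ _

lemma Nru.pz_row (hN : Nru h A U A2 U2 ν c κ C1 σ s) (x : V N) : ∑ y, pz h U2 x y ≤ 1 := by
  rw [row_eq (ti_pz h hN.uk2.ti)]
  have h1 : ∀ z, pz h U2 0 z = ∑ y ∈ univ.filter (fun y : V N2 => prj h y = z), U2 0 y := by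
    intro z
    have := hN.pz_apply 1 z
    rwa [pow_one, pow_one] at this
  simp only [h1]
  rw [Finset.sum_fiberwise]
  exact hN.uk2.row 0

/-- `U` and the periodization, powers -/
lemma Nru.pow_pz (hN : Nru h A U A2 U2 ν c κ C1 σ s) (n : ℕ) (x y : V N) :
    |(U ^ n) x y - (pz h U2 ^ n) x y| ≤ n * σ := by
  refine pow_sup hN.uk.ti (ti_pz h hN.uk2.ti) hN.uk.nn hN.pz_nn hN.uk.row hN.pz_row ?_ n x y
  intro z
  have := hN.pz_apply 1 z
  rw [pow_one, pow_one] at this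
  rw [this]
  exact hN.sup z

lemma Nru.smU_pz (hN : Nru h A U A2 U2 ν c κ C1 σ s) (hβ : 0 ≤ β) (T : ℕ) (y : V N) :
    |smU β ν U T 0 y - smU β ν (pz h U2) T 0 y| ≤ T ^ 2 * σ / (ν + β) := by
  have hν := hN.dom.hν
  have hσ := hN.σ0
  have e : smU β ν U T 0 y - smU β ν (pz h U2) T 0 y =
      (ν + β)⁻¹ * ∑ m ∈ range T, (ν / (ν + β)) ^ m * ((U ^ m) 0 y - (pz h U2 ^ m) 0 y) := by
    rw [smU_apply, smU_apply, ← mul_sub, ← Finset.sum_sub_distrib]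
    congr 1
    exact Finset.sum_congr rfl fun m _ => by ring
  rw [e]
  refine (ser_bd hν hβ (B := T * σ) (by positivity) fun m hm => ?_).trans (le_of_eq ?_)
  · refine (hN.pow_pz m 0 y).trans ?_
    exact mul_le_mul_of_nonneg_right (by exact_mod_cast hm.le) hσ
  · ring

/-- powers at the same integer point -/
lemma Nru.pow_diff (hN : Nru h A U A2 U2 ν c κ C1 σ s) {T m : ℕ} (hT : 1 ≤ T) (hm : m ≤ T)
    {ζ : ℤ × ℤ} (h1 : 2 * ζ.1.natAbs ≤ N) (h2 : 2 * ζ.2.natAbs ≤ N) :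
    |(pz h U2 ^ m) 0 (ip N ζ) - (U2 ^ m) 0 (ip N2 ζ)| ≤ s * ft κ (C1 + 1) T (N / 2) := by
  have hP := (per_pz h hN.uk2.ti).pow m
  have h0 := pow_nonneg' hN.uk2.nn m
  have hd := ker_diff hP h0 h1 h2
  rw [abs_of_nonneg hd.1]
  have hs0 := hN.s0
  have hft := ft_nonneg κ (C1 + 1) T ((N : ℝ) / 2)
  rcases Nat.eq_zero_or_pos m with hm0 | hm0
  · subst hm0
    refine hd.2.trans ?_
    rw [pow_zero]
    refine le_trans (le_of_eq (Finset.sum_eq_zero fun z hz => ?_)) (mul_nonneg hs0 hft)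
    rw [Matrix.one_apply, if_neg]
    intro hz0
    rw [← hz0] at hz
    have h3 := (Finset.mem_filter.1 hz).2
    have h4 : sn (0 : V N2) = 0 := by simp [TM.H459.sn]
    rw [h4] at h3
    have h5 : (0 : ℝ) < N := by exact_mod_cast Nat.pos_of_ne_zero (NeZero.ne N)
    push_cast at h3
    linarith
  · obtain ⟨m', rfl⟩ : ∃ m', m = m' + 1 := ⟨m - 1, by omega⟩
    rw [hP.ker]
    have hmem : ip N2 ζ ∈ univ.filter (fun z2 : V N2 => prj h z2 = ip N ζ) := by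
      rw [Finset.mem_filter]
      exact ⟨mem_univ _, prj_ip h ζ⟩
    rw [← Finset.add_sum_erase _ _ hmem, add_sub_cancel_left]
    have hθ : 0 ≤ κ / (2 * √(T : ℝ)) := div_nonneg hN.kp.le (by positivity)
    have h3 := fib_sub (h := h) hN.uk2.ti hN.uk2.nn hN.uk2.row hN.kp hN.mom hN.fib hT
      (show m' ≤ T by omega) (ip N ζ)
    have h4 : ∀ y ∈ (univ.filter (fun z2 : V N2 => prj h z2 = ip N ζ)).erase (ip N2 ζ),
        (U2 ^ (m' + 1)) 0 y ≤ (U2 ^ (m' + 1)) 0 y *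
          Real.exp (κ / (2 * √(T : ℝ)) * sn y) * Real.exp (-(κ * (N / 2) / (2 * √T))) := by
      intro y hy
      rw [Finset.mem_erase, Finset.mem_filter] at hy
      have k0 := far h h1 h2 hy.2.2 hy.1
      have k1 : (N : ℝ) / 2 ≤ sn y := by
        have : (N : ℝ) ≤ 2 * sn y := by exact_mod_cast k0
        linarith
      have k3 : 1 ≤ Real.exp (κ / (2 * √(T : ℝ)) * sn y) *
          Real.exp (-(κ * (N / 2) / (2 * √T))) := by
        rw [← Real.exp_add]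
        refine Real.one_le_exp ?_
        have k4 := mul_le_mul_of_nonneg_left k1 hθ
        have k5 : κ * ((N : ℝ) / 2) / (2 * √(T : ℝ)) = κ / (2 * √(T : ℝ)) * (N / 2) := by ring
        rw [k5]
        linarith
      rw [mul_assoc]
      exact le_mul_of_one_le_right (pow_nonneg' hN.uk2.nn _ _ _) k3
    refine (Finset.sum_le_sum h4).trans ?_
    rw [← Finset.sum_mul]
    have h5 : ∑ y ∈ (univ.filter (fun z2 : V N2 => prj h z2 = ip N ζ)).erase (ip N2 ζ),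
        (U2 ^ (m' + 1)) 0 y * Real.exp (κ / (2 * √(T : ℝ)) * sn y) ≤
          4 * Real.exp (C1 + 1) * s := by
      refine le_trans (Finset.sum_le_sum_of_subset_of_nonneg (Finset.erase_subset _ _) ?_) h3
      exact fun y _ _ => mul_nonneg (pow_nonneg' hN.uk2.nn _ _ _) (Real.exp_pos _).le
    refine (mul_le_mul_of_nonneg_right h5 (Real.exp_pos _).le).trans (le_of_eq ?_)
    unfold ft
    ring

lemma Nru.smU_two (hN : Nru h A U A2 U2 ν c κ C1 σ s) (hβ : 0 ≤ β) {T : ℕ} (hT1 : 1 ≤ T)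
    {ζ : ℤ × ℤ} (h1 : 2 * ζ.1.natAbs ≤ N) (h2 : 2 * ζ.2.natAbs ≤ N) :
    |smU β ν (pz h U2) T 0 (ip N ζ) - smU β ν U2 T 0 (ip N2 ζ)| ≤
      T * (s * ft κ (C1 + 1) T (N / 2)) / (ν + β) := by
  have hν := hN.dom.hν
  have hs0 := hN.s0
  have hft := ft_nonneg κ (C1 + 1) T ((N : ℝ) / 2)
  have e : smU β ν (pz h U2) T 0 (ip N ζ) - smU β ν U2 T 0 (ip N2 ζ) =
      (ν + β)⁻¹ * ∑ m ∈ range T, (ν / (ν + β)) ^ m *
        ((pz h U2 ^ m) 0 (ip N ζ) - (U2 ^ m) 0 (ip N2 ζ)) := by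
    rw [smU_apply, smU_apply, ← mul_sub, ← Finset.sum_sub_distrib]
    congr 1
    exact Finset.sum_congr rfl fun m _ => by ring
  rw [e]
  exact ser_bd hν hβ (mul_nonneg hs0 hft) fun m hm => hN.pow_diff hT1 hm.le h1 h2

/-- far entries on the small torus (periodization) -/
lemma Nru.pow_far (hN : Nru h A U A2 U2 ν c κ C1 σ s) {T m : ℕ} (hT : 1 ≤ T) (hm : m ≤ T)
    {z : V N} {r : ℝ} (hr0 : 0 < r) (hr : r ≤ sn z) :
    |(pz h U2 ^ m) 0 z| ≤ s * ft κ (C1 + 1) T r := by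
  have hs0 := hN.s0
  have hft := ft_nonneg κ (C1 + 1) T r
  rw [abs_of_nonneg (pow_nonneg' hN.pz_nn m 0 z)]
  rcases Nat.eq_zero_or_pos m with hm0 | hm0
  · rw [hm0, pow_zero, Matrix.one_apply, if_neg]
    · exact mul_nonneg hs0 hft
    · intro hy
      rw [← hy] at hr
      have h4 : sn (0 : V N) = 0 := by simp [TM.H459.sn]
      rw [h4] at hr
      push_cast at hr
      linarith
  · obtain ⟨m', rfl⟩ : ∃ m', m = m' + 1 := ⟨m - 1, by omega⟩
    rw [hN.pz_apply]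
    have h1 := fib_sub (h := h) hN.uk2.ti hN.uk2.nn hN.uk2.row hN.kp hN.mom hN.fib hT
      (show m' ≤ T by omega) z
    have hθ : 0 ≤ κ / (2 * √(T : ℝ)) := div_nonneg hN.kp.le (by positivity)
    have h2 : ∀ y ∈ univ.filter (fun y : V N2 => prj h y = z), (U2 ^ (m' + 1)) 0 y ≤
        (U2 ^ (m' + 1)) 0 y * Real.exp (κ / (2 * √(T : ℝ)) * sn y) *
          Real.exp (-(κ * r / (2 * √T))) := by
      intro y hy
      have hy' : prj h y = z := (Finset.mem_filter.1 hy).2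
      have k1 : r ≤ sn y := by
        have := sn_prj h y
        rw [hy'] at this
        have k2 : (sn z : ℝ) ≤ sn y := by exact_mod_cast this
        linarith
      have k3 : 1 ≤ Real.exp (κ / (2 * √(T : ℝ)) * sn y) * Real.exp (-(κ * r / (2 * √T))) := by
        rw [← Real.exp_add]
        refine Real.one_le_exp ?_
        have k4 := mul_le_mul_of_nonneg_left k1 hθ
        have k5 : κ * r / (2 * √(T : ℝ)) = κ / (2 * √(T : ℝ)) * r := by ring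
        rw [k5]
        linarith
      rw [mul_assoc]
      exact le_mul_of_one_le_right (pow_nonneg' hN.uk2.nn _ _ _) k3
    refine (Finset.sum_le_sum h2).trans ?_
    rw [← Finset.sum_mul]
    refine (mul_le_mul_of_nonneg_right h1 (Real.exp_pos _).le).trans (le_of_eq ?_)
    unfold ft
    ring

lemma Nru.smU_far (hN : Nru h A U A2 U2 ν c κ C1 σ s) (hβ : 0 ≤ β) {T : ℕ} (hT1 : 1 ≤ T)
    {y : V N} {r : ℝ} (hr0 : 0 < r) (hr : r ≤ sn y) :
    |smU β ν (pz h U2) T 0 y| ≤ T * (s * ft κ (C1 + 1) T r) / (ν + β) := by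
  rw [smU_apply]
  exact ser_bd hN.dom.hν hβ (mul_nonneg hN.s0 (ft_nonneg _ _ _ _)) fun m hm =>
    hN.pow_far hT1 hm.le hr0 hr

/-- **(E)**, two tori directly -/
theorem Nru.ent (hN : Nru h A U A2 U2 ν c κ C1 σ s) (hβ : 0 ≤ β) {m : ℕ} (hm : 1 ≤ m)
    {K : Matrix (V N) (V N) ℝ} {K2 : Matrix (V N2) (V N2) ℝ} (hK : Cv β A K) (hK2 : Cv β A2 K2)
    {D : ℕ} (hD : 2 * D ≤ N) {ζ : ℤ × ℤ} (h1 : ζ.1.natAbs ≤ D) (h2 : ζ.2.natAbs ≤ D) :
    |(K2 0 (ip N2 ζ) - K2 0 0) - (K 0 (ip N ζ) - K 0 0)| ≤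
      2 * eP ν c κ (C1 + 1) σ s β N m D := by
  have hν := hN.dom.hν
  have hc := hN.dom.hc
  set T : ℕ := 2 * m + 1 with hT
  have hT1 : 1 ≤ T := by omega
  rw [hK.ent hN.dom hβ T, hK2.ent hN.dom2 hβ T, smU_diff hN.dom.ti hN.uk β T,
    smU_diff hN.dom2.ti hN.uk2 β T]
  have a1 := smooth_ent hN.dom hβ hm (sn_ip_le (N := N) h1 h2)
  have a2 := smooth_ent hN.dom2 hβ hm (sn_ip_le (N := N2) h1 h2)
  have b1 := abs_le.1 (hN.smU_two hβ hT1 (ζ := ζ) (by omega) (by omega))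
  have b2 := abs_le.1 (hN.smU_two hβ hT1 (ζ := (0 : ℤ × ℤ)) (by simp) (by simp))
  have c1 := abs_le.1 (hN.smU_pz hβ T (ip N ζ))
  have c2 := abs_le.1 (hN.smU_pz hβ T 0)
  rw [ip_zero, ip_zero] at b2
  have hm' : (0 : ℝ) < m := by exact_mod_cast hm
  have hs0 := hN.s0
  have hσ := hN.σ0
  have hft := ft_nonneg κ (C1 + 1) T ((N : ℝ) / 2)
  have e : 2 * eP ν c κ (C1 + 1) σ s β N m D = 2 * (5 * ν * D ^ 2 / (m * c ^ 2)) +
      2 * (T * (s * ft κ (C1 + 1) T (N / 2)) / (ν + β)) + 4 * (T ^ 2 * σ / (ν + β)) := by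
    unfold eP
    rw [← hT]
    ring
  have p1 : 0 ≤ 5 * ν * (D : ℝ) ^ 2 / (m * c ^ 2) := by positivity
  have p3 : 0 ≤ (T : ℝ) ^ 2 * σ / (ν + β) := by positivity
  rw [e]
  rw [← hT] at a1 a2
  obtain ⟨a11, a12⟩ := a1
  obtain ⟨a21, a22⟩ := a2
  obtain ⟨b11, b12⟩ := b1
  obtain ⟨b21, b22⟩ := b2
  obtain ⟨c11, c12⟩ := c1
  obtain ⟨c21, c22⟩ := c2
  rw [abs_le]
  constructor <;> linarith

/-- the cross bound on the small torus -/
theorem Nru.cross (hN : Nru h A U A2 U2 ν c κ C1 σ s) (hβ : 0 ≤ β) {m : ℕ} (hm : 1 ≤ m)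
    {K : Matrix (V N) (V N) ℝ} (hK : Cv β A K) {D : ℕ} {R : ℝ} (hR : 2 * (D : ℝ) < R)
    {w a b : V N} (hw : R ≤ sn w) (ha : sn a ≤ D) (hb : sn b ≤ D) :
    |ck K w a b| ≤ 2 * xP ν c κ (C1 + 1) σ s β m D R := by
  have hν := hN.dom.hν
  have hc := hN.dom.hc
  have hm' : (0 : ℝ) < m := by exact_mod_cast hm
  have h1 := cross_smooth hN.dom hβ hm hK (w := w) ha hb
  rw [smU_ck hN.dom.ti hN.uk] at h1
  have h2 := ck_sub (smU β ν U (2 * m + 1)) (smU β ν (pz h U2) (2 * m + 1))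
    (fun y => hN.smU_pz hβ (2 * m + 1) y) w a b
  have h7 : |ck (smU β ν (pz h U2) (2 * m + 1)) w a b| ≤
      4 * ((2 * m + 1 : ℕ) * (s * ft κ (C1 + 1) (2 * m + 1) (R - 2 * D)) / (ν + β)) := by
    have hT1 : 1 ≤ 2 * m + 1 := by omega
    have s1 : (sn w : ℝ) ≤ sn (w + b - a) + 2 * D := by
      have h1 := TM.H459.sn_add_le (w + b - a) (a - b)
      have h2 := TM.H459.sn_add_le a (-b)
      rw [TM.H459.sn_neg] at h2
      have e : w + b - a + (a - b) = w := by abel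
      rw [e] at h1
      rw [← sub_eq_add_neg] at h2
      have : sn w ≤ sn (w + b - a) + 2 * D := by omega
      exact_mod_cast this
    have s2 : (sn w : ℝ) ≤ sn (w + b) + 2 * D := by
      have h1 := TM.H459.sn_add_le (w + b) (-b)
      rw [TM.H459.sn_neg] at h1
      have e : w + b + -b = w := by abel
      rw [e] at h1
      have : sn w ≤ sn (w + b) + 2 * D := by omega
      exact_mod_cast this
    have s3 : (sn w : ℝ) ≤ sn (w - a) + 2 * D := by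
      have h1 := TM.H459.sn_add_le (w - a) a
      have e : w - a + a = w := by abel
      rw [e] at h1
      have : sn w ≤ sn (w - a) + 2 * D := by omega
      exact_mod_cast this
    have hD0 : (0 : ℝ) ≤ D := Nat.cast_nonneg _
    have hr0 : 0 < R - 2 * (D : ℝ) := by linarith
    obtain ⟨f11, f12⟩ := abs_le.1 (hN.smU_far hβ hT1 (y := w + b - a) hr0 (by linarith))
    obtain ⟨f21, f22⟩ := abs_le.1 (hN.smU_far hβ hT1 (y := w + b) hr0 (by linarith))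
    obtain ⟨f31, f32⟩ := abs_le.1 (hN.smU_far hβ hT1 (y := w - a) hr0 (by linarith))
    obtain ⟨f41, f42⟩ := abs_le.1 (hN.smU_far hβ hT1 (y := w) hr0 (by linarith))
    rw [abs_le]
    unfold ck
    constructor <;> linarith
  obtain ⟨a1, a2⟩ := abs_le.1 h1
  obtain ⟨b1, b2⟩ := abs_le.1 h2
  obtain ⟨c1, c2⟩ := abs_le.1 h7
  have hs0 := hN.s0
  have hσ := hN.σ0
  have hft := ft_nonneg κ (C1 + 1) (2 * m + 1) (R - 2 * D)
  have p1 : 0 ≤ 10 * ν * (D : ℝ) ^ 2 / (m * c ^ 2) := by positivity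
  have p3 : 0 ≤ ((2 * m + 1 : ℕ) : ℝ) ^ 2 * σ / (ν + β) := by positivity
  have e : 2 * xP ν c κ (C1 + 1) σ s β m D R = 2 * (10 * ν * D ^ 2 / (m * c ^ 2)) +
      4 * ((2 * m + 1 : ℕ) * (s * ft κ (C1 + 1) (2 * m + 1) (R - 2 * D)) / (ν + β)) +
      8 * ((2 * m + 1 : ℕ) ^ 2 * σ / (ν + β)) := by
    unfold xP
    ring
  rw [e, abs_le]
  constructor <;> linarith

/-- the large torus alone -/
lemma Nru.big {h' : N2 ∣ N2} (hN : Nru h A U A2 U2 ν c κ C1 σ s) :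
    Nru h' A2 U2 A2 U2 ν c κ C1 σ s := by
  have hfil : ∀ z : V N2, (univ.filter fun y : V N2 => prj h' y = z) = {z} := by
    intro z
    ext y
    rw [Finset.mem_filter, Finset.mem_singleton, prj_self]
    exact ⟨fun h => h.2, fun h => ⟨mem_univ _, h⟩⟩
  refine ⟨hN.dom2, hN.dom2, hN.uk2, hN.uk2, hN.kp, hN.mom, fun z => ?_, fun z => ?_⟩
  · refine le_trans ?_ (hN.fib (prj h z))
    refine Finset.sum_le_sum_of_subset_of_nonneg ?_ fun y _ _ =>
      mul_nonneg (hN.uk2.nn _ _) (Real.exp_pos _).le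
    intro y hy
    rw [hfil, Finset.mem_singleton] at hy
    rw [Finset.mem_filter, hy]
    exact ⟨mem_univ _, rfl⟩
  · rw [hfil, Finset.sum_singleton, sub_self, abs_zero]
    exact hN.σ0

end nru

/-! ### the torus model of scalar mass `t` -/

section inst

variable {b t c κ C1 σ s η bb : ℝ} {D m : ℕ} {R δ d : ℝ}

/-- **WL, doubling**, site level, sub-probability kernels -/
theorem cmp_tor_u {U : Matrix (V N) (V N) ℝ} {U2 : Matrix (V N2) (V N2) ℝ} {h : N ∣ N2}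
    (hb : 0 < b) (ht : 0 < t) (hN : Nru h (Anm N b t) U (Anm N2 b t) U2 t c κ C1 σ s)
    {Bd : Set (V N → ℝ)} (hBd : MeasurableSet Bd) {Bd' : Set (V N2 → ℝ)}
    (hBd' : MeasurableSet Bd') (hη0 : 0 ≤ η)
    (hη : ∀ F, F ∉ Bd → Wt (wT b N) (t • (1 : Matrix (V N) (V N) ℝ)) t 0 F ≤ 1 + η)
    (hbd : (nuM (wT b N) (t • (1 : Matrix (V N) (V N) ℝ)) 0).real Bd ≤ bb)
    (hη' : ∀ F, F ∉ Bd' → Wt (wT b N2) (t • (1 : Matrix (V N2) (V N2) ℝ)) t 0 F ≤ 1 + η)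
    (hbd' : (nuM (wT b N2) (t • (1 : Matrix (V N2) (V N2) ℝ)) 0).real Bd' ≤ bb)
    (hηb : η + bb ≤ 1 / 8) (hDN : 4 * D < N) (hm : 1 ≤ m)
    {p q : V N} {p2 q2 : V N2} (hR : 2 * (D : ℝ) < R) (hpq : R ≤ sn (q - p))
    (hpq2 : R ≤ sn (q2 - p2)) (hδ : 0 < δ) (hδ4 : δ ≤ 1 / 4)
    (hδ2 : t * (2 * (2 * (D : ℝ) + 1) ^ 2) *
      (3 * (2 * eP t c κ (C1 + 1) σ s 0 N m (2 * D)) +
        2 * (2 * xP t c κ (C1 + 1) σ s 0 m D R)) ≤ δ)
    (hd : 0 ≤ d) (hd8 : d ≤ 1 / 8) :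
    Cmp (nuM (wT b N) (t • (1 : Matrix (V N) (V N) ℝ)) 0)
      (nuM (wT b N2) (t • (1 : Matrix (V N2) (V N2) ℝ)) 0) (wd D p q) (wd D p2 q2)
      (4 * (η + bb) + 2 * d) (4 * bb + 2 * (2 * (1 + d) ^ (-(1 / (4 * δ))))) := by
  have hA := hN.dom
  have hA' := hN.dom2
  have hσ := hN.σ0
  have hs := hN.s0
  have hB : Nru (dvd_refl N2) (Anm N2 b t) U2 (Anm N2 b t) U2 t c κ C1 σ s := hN.big
  rw [← An_tor b hb.le ht] at hA hA'
  have e0 := eP_nonneg (c := c) (κ := κ) (C1 := C1 + 1) ht (le_refl 0) hσ hs N m (2 * D)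
  have x0 := xP_nonneg (c := c) (κ := κ) (C1 := C1 + 1) ht (le_refl 0) hσ hs m D R
  refine cmp_two (H963.gw_wT hb.le) (bw_wT hb) (mf_scalar ht) (H963.gw_wT hb.le) (bw_wT hb)
    (mf_scalar ht) hA hA' hBd hBd' hη0 hη hbd hη' hbd' hηb hDN (K := cov 0 (Anm N b t))
    (K2 := cov 0 (Anm N2 b t)) ?_ ?_ (mul_nonneg (by norm_num) e0) (mul_nonneg (by norm_num) x0)
    ?_ hR hpq hpq2 ?_ ?_ hδ hδ4 hδ2 hd hd8
  · rw [An_tor b hb.le ht]
    exact cv_cov 0 _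
  · rw [An_tor b hb.le ht]
    exact cv_cov 0 _
  · intro ζ h3 h4
    exact hN.ent le_rfl hm (cv_cov 0 _) (cv_cov 0 _) (by omega) h3 h4
  · intro x a b hx ha hb
    exact hN.cross le_rfl hm (cv_cov 0 _) hR hx ha hb
  · intro x a b hx ha hb
    exact hB.cross le_rfl hm (cv_cov 0 _) hR hx ha hb

/-- **WL, move**, site level, sub-probability kernels -/
theorem cmp_move_u {U : Matrix (V N) (V N) ℝ} {h : N ∣ N}
    (hb : 0 < b) (ht : 0 < t) (hN : Nru h (Anm N b t) U (Anm N b t) U t c κ C1 σ s)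
    {Bd : Set (V N → ℝ)} (hBd : MeasurableSet Bd) (hη0 : 0 ≤ η)
    (hη : ∀ F, F ∉ Bd → Wt (wT b N) (t • (1 : Matrix (V N) (V N) ℝ)) t 0 F ≤ 1 + η)
    (hbd : (nuM (wT b N) (t • (1 : Matrix (V N) (V N) ℝ)) 0).real Bd ≤ bb)
    (hηb : η + bb ≤ 1 / 8) (hDN : 4 * D < N) (hm : 1 ≤ m)
    {p q p2 q2 : V N} (hR : 2 * (D : ℝ) < R) (hpq : R ≤ sn (q - p))
    (hpq2 : R ≤ sn (q2 - p2)) (hδ : 0 < δ) (hδ4 : δ ≤ 1 / 4)
    (hδ2 : t * (2 * (2 * (D : ℝ) + 1) ^ 2) *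
      (2 * (2 * xP t c κ (C1 + 1) σ s 0 m D R)) ≤ δ)
    (hd : 0 ≤ d) (hd8 : d ≤ 1 / 8) :
    Cmp (nuM (wT b N) (t • (1 : Matrix (V N) (V N) ℝ)) 0)
      (nuM (wT b N) (t • (1 : Matrix (V N) (V N) ℝ)) 0) (wd D p q) (wd D p2 q2)
      (4 * (η + bb) + 2 * d) (4 * bb + 2 * (2 * (1 + d) ^ (-(1 / (4 * δ))))) := by
  have hA := hN.dom
  have hσ := hN.σ0
  have hs := hN.s0
  rw [← An_tor b hb.le ht] at hA
  have x0 := xP_nonneg (c := c) (κ := κ) (C1 := C1 + 1) ht (le_refl 0) hσ hs m D R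
  refine cmp_two (H963.gw_wT hb.le) (bw_wT hb) (mf_scalar ht) (H963.gw_wT hb.le) (bw_wT hb)
    (mf_scalar ht) hA hA hBd hBd hη0 hη hbd hη hbd hηb hDN (K := cov 0 (Anm N b t))
    (K2 := cov 0 (Anm N b t)) ?_ ?_ (le_refl (0 : ℝ))
    (mul_nonneg (by norm_num) x0 : 0 ≤ 2 * xP t c κ (C1 + 1) σ s 0 m D R)
    ?_ hR hpq hpq2 ?_ ?_ hδ hδ4 ?_ hd hd8
  · rw [An_tor b hb.le ht]
    exact cv_cov 0 _
  · rw [An_tor b hb.le ht]
    exact cv_cov 0 _
  · intro ζ _ _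
    rw [sub_self, abs_zero]
  · intro x a b hx ha hb
    exact hN.cross le_rfl hm (cv_cov 0 _) hR hx ha hb
  · intro x a b hx ha hb
    exact hN.cross le_rfl hm (cv_cov 0 _) hR hx ha hb
  · rw [mul_zero, zero_add]
    exact hδ2

end inst

/-! ### numbers -/

section num

variable {D m N : ℕ} {ξ K ρ κ₀ c C1 L ε δ R : ℝ}

/-- **the numerical hypothesis of `cmp_tor_u`** at `ν = ξ⁻²`, `κ = κ₀/ξ`, `s = ν L`, `σ = ν ε` -/
theorem wl_num_u (hξ : 1 ≤ ξ) (hc : 0 < c) (hκ : 0 ≤ κ₀) (hL : 0 ≤ L) (hε : 0 ≤ ε)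
    (hm : 1 ≤ m) (hK : 1 ≤ K) (hD : (D : ℝ) ≤ K * ξ) (hR : ρ * ξ ≤ R) (hρ : 4 * K ≤ ρ)
    (hN : ρ * ξ ≤ N)
    (h1 : 7560 * K ^ 4 / c ^ 2 ≤ δ / 2 * m) (h2 : 540 * K ^ 2 * eL κ₀ C1 ρ L m ≤ δ / 2)
    (h3 : 1080 * K ^ 2 * ((2 * m + 1 : ℕ) ^ 2 * ε) ≤ δ / 2) :
    (ξ ^ 2)⁻¹ * (2 * (2 * (D : ℝ) + 1) ^ 2) *
      (3 * (2 * eP (ξ ^ 2)⁻¹ c (κ₀ / ξ) C1 ((ξ ^ 2)⁻¹ * ε) ((ξ ^ 2)⁻¹ * L) 0 N m (2 * D)) +
        2 * (2 * xP (ξ ^ 2)⁻¹ c (κ₀ / ξ) C1 ((ξ ^ 2)⁻¹ * ε) ((ξ ^ 2)⁻¹ * L) 0 m D R)) ≤ δ := by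
  have hξ0 : 0 < (ξ ^ 2)⁻¹ := by positivity
  have h := wl_num (C1 := C1) hξ hc hκ hL hε hm hK hD hR hρ hN hN h1 h2 h3
  have p2 := eP_nonneg (c := c) (κ := κ₀ / ξ) (C1 := C1) hξ0 le_rfl
    (mul_nonneg hξ0.le hε) (mul_nonneg hξ0.le hL) N m (2 * D)
  have p4 := xP_nonneg (c := c) (κ := κ₀ / ξ) (C1 := C1) hξ0 le_rfl
    (mul_nonneg hξ0.le hε) (mul_nonneg hξ0.le hL) m D R
  set E := eP (ξ ^ 2)⁻¹ c (κ₀ / ξ) C1 ((ξ ^ 2)⁻¹ * ε) ((ξ ^ 2)⁻¹ * L) 0 N m (2 * D) with hE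
  set X := xP (ξ ^ 2)⁻¹ c (κ₀ / ξ) C1 ((ξ ^ 2)⁻¹ * ε) ((ξ ^ 2)⁻¹ * L) 0 m D R with hX
  have ha : 0 ≤ (ξ ^ 2)⁻¹ * (2 * (2 * (D : ℝ) + 1) ^ 2) := by positivity
  set a := (ξ ^ 2)⁻¹ * (2 * (2 * (D : ℝ) + 1) ^ 2) with hadef
  have h5 : a * (3 * (2 * E) + 2 * (2 * X)) ≤ 2 * (a * (3 * (E + E) + 2 * X)) := by
    have := mul_nonneg ha p2
    nlinarith
  linarith

end num

end

end Vale.Agent.P159.H708
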